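import Crest.Agent.R244.Isom
/-!
# R244: the metric in charts
`dch x m` is the derivative of the transition map (`tangentCoordChange`); `metricInChart g x` is
smooth on the chart target because `g.contMDiff` is smooth in the trivialisation at `x`
(`contMDiffAt_hom_bundle` / `inCoordinates`, `TangentBundle.symmL_trivializationAt…`,
`TangentBundle.continuousLinearMapAt_trivializationAt`).
-/

set_option autoImplicit false

open scoped ContDiff Manifold Topology
open Bundle Filter Set
open Crest.GeometryTopology.CoordMetric Crest.GeometryTopology.ChartCurvature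
  Crest.GeometryTopology.Geodesic

noncomputable section

namespace Crest.Agent.R244

variable {M : Type*} [TopologicalSpace M] [ChartedSpace E M] [IsManifold 𝓘(ℝ, E) ∞ M]

theorem dch_eq {x m : M} (hm : m ∈ (chartAt E x).source) :
    dch x m = fderiv ℝ (chartAt E x ∘ (chartAt E m).symm) (chartAt E m m) := by
  have hd : MDifferentiableAt 𝓘(ℝ, E) 𝓘(ℝ, E) (chartAt E x) m := mdifferentiableAt_atlas (chart_mem_atlas E x) hm
  unfold dch
  rw [hd.mfderiv]
  simp only [writtenInExtChartAt, extChartAt_model_space_eq_id, modelWithCornersSelf_coe, range_id,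
    fderivWithin_univ, extChartAt_coe, extChartAt_coe_symm, modelWithCornersSelf_coe_symm]
  rfl

theorem dch_self (m : M) : dch m m = ContinuousLinearMap.id ℝ E := by
  rw [dch_eq (mem_chart_source E m)]
  have h : (chartAt E m ∘ (chartAt E m).symm) =ᶠ[𝓝 (chartAt E m m)] id := by
    filter_upwards [(chartAt E m).open_target.mem_nhds (mem_chart_target E m)] with p hp
    exact (chartAt E m).right_inv hp
  rw [h.fderiv_eq, fderiv_id]

/-- Transition maps between preferred charts are smooth. -/
theorem contDiffAt_transition {x y : M} {p : E} (hp : p ∈ (chartAt E x).target)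
    (hq : (chartAt E x).symm p ∈ (chartAt E y).source) :
    ContDiffAt ℝ ∞ (chartAt E y ∘ (chartAt E x).symm) p := by
  have h1 : ContMDiffAt 𝓘(ℝ, E) 𝓘(ℝ, E) ∞ (chartAt E x).symm p :=
    (contMDiffOn_chart_symm (I := 𝓘(ℝ, E)) (n := ∞) (x := x)).contMDiffAt
      ((chartAt E x).open_target.mem_nhds hp)
  have h2 : ContMDiffAt 𝓘(ℝ, E) 𝓘(ℝ, E) ∞ (chartAt E y) ((chartAt E x).symm p) :=
    (contMDiffOn_chart (I := 𝓘(ℝ, E)) (n := ∞) (x := y)).contMDiffAt
      ((chartAt E y).open_source.mem_nhds hq)
  exact contMDiffAt_iff_contDiffAt.1 (h2.comp p h1)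

theorem dch_comp {x y m : M} (hx : m ∈ (chartAt E x).source) (hy : m ∈ (chartAt E y).source)
    (u : E) :
    dch y m u = fderiv ℝ (chartAt E y ∘ (chartAt E x).symm) (chartAt E x m) (dch x m u) := by
  have hm : m ∈ (chartAt E m).source := mem_chart_source E m
  have e1 : (chartAt E m).symm (chartAt E m m) = m := (chartAt E m).left_inv hm
  have e2 : (chartAt E x).symm (chartAt E x m) = m := (chartAt E x).left_inv hx
  have c1 : ContDiffAt ℝ ∞ (chartAt E x ∘ (chartAt E m).symm) (chartAt E m m) :=
    contDiffAt_transition (mem_chart_target E m) (by rw [e1]; exact hx)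
  have c2 : ContDiffAt ℝ ∞ (chartAt E y ∘ (chartAt E x).symm) (chartAt E x m) :=
    contDiffAt_transition ((chartAt E x).map_source hx) (by rw [e2]; exact hy)
  have e3 : (chartAt E x ∘ (chartAt E m).symm) (chartAt E m m) = chartAt E x m := by
    simp only [Function.comp_apply, e1]
  have hev : (chartAt E y ∘ (chartAt E m).symm) =ᶠ[𝓝 (chartAt E m m)]
      (chartAt E y ∘ (chartAt E x).symm) ∘ (chartAt E x ∘ (chartAt E m).symm) := by
    have hc : ContinuousAt (chartAt E m).symm (chartAt E m m) :=
      (chartAt E m).continuousAt_symm (mem_chart_target E m)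
    have : ∀ᶠ q in 𝓝 (chartAt E m m), (chartAt E m).symm q ∈ (chartAt E x).source :=
      hc.eventually_mem ((chartAt E x).open_source.mem_nhds (by rw [e1]; exact hx))
    filter_upwards [this] with q hq
    simp only [Function.comp_apply, (chartAt E x).left_inv hq]
  rw [dch_eq hy, dch_eq hx, hev.fderiv_eq,
    fderiv_comp _ (by rw [e3]; exact c2.differentiableAt (by simp)) (c1.differentiableAt (by simp)),
    e3]
  rfl

theorem dch_bijective {x m : M} (hm : m ∈ (chartAt E x).source) : Function.Bijective (dch x m) := by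
  have hinj : Function.Injective (dch x m) := by
    intro u v huv
    have hu := dch_comp hm (mem_chart_source E m) u
    have hv := dch_comp hm (mem_chart_source E m) v
    rw [huv, ← hv, dch_self] at hu
    exact hu
  exact ⟨hinj, (LinearMap.injective_iff_surjective (f := (dch x m : E →ₗ[ℝ] E))).1 hinj⟩

theorem ip_symm (g : RM M) (m : M) (u v : E) : ip g m u v = ip g m v u := by
  exact g.symm m u v

/-- The differential of the inverse chart. -/
def b1a_sch (x : M) (y : E) : E →L[ℝ] E := mfderiv 𝓘(ℝ, E) 𝓘(ℝ, E) (chartAt E x).symm y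

/-- The metric at a point as a bilinear map on the model space. -/
def b1a_inn (g : RM M) (m : M) : E →L[ℝ] E →L[ℝ] ℝ := g.inner m

theorem b1a_ip (g : RM M) (m : M) (u v : E) : ip g m u v = b1a_inn g m u v := rfl

theorem b1a_entry (g : RM M) (x : M) (y : E) (i j : Fin 3) :
    metricInChart g x y i j = ip g ((chartAt E x).symm y)
      (b1a_sch x y (EuclideanSpace.single i 1)) (b1a_sch x y (EuclideanSpace.single j 1)) := rfl

theorem b1a_expand (u : E) : u = ∑ i, u i • (EuclideanSpace.single i (1 : ℝ) : E) := by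
  ext k
  simp [Fin.sum_univ_three]
  fin_cases k <;> simp

theorem b1a_bil (g : RM M) (x : M) (y u v : E) :
    Bil (metricInChart g x) y u v =
      ip g ((chartAt E x).symm y) (b1a_sch x y u) (b1a_sch x y v) := by
  rw [Bil_apply]
  conv_rhs => rw [b1a_expand u, b1a_expand v]
  simp only [b1a_entry, b1a_ip, map_sum, map_smul, sum_apply,
    smul_apply, smul_eq_mul, Finset.mul_sum]
  rw [Finset.sum_comm]
  refine Finset.sum_congr rfl fun i _ => Finset.sum_congr rfl fun j _ => by ring

theorem b1a_sch_dch {x m : M} (hm : m ∈ (chartAt E x).source) (u : E) :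
    b1a_sch x (chartAt E x m) (dch x m u) = u := by
  have h := (mdifferentiable_chart (I := 𝓘(ℝ, E)) x).symm_comp_deriv hm
  exact DFunLike.congr_fun h u

theorem b1a_dch_sch {x : M} {y : E} (hy : y ∈ (chartAt E x).target) (u : E) :
    dch x ((chartAt E x).symm y) (b1a_sch x y u) = u := by
  have h := (mdifferentiable_chart (I := 𝓘(ℝ, E)) x).comp_symm_deriv hy
  exact DFunLike.congr_fun h u

theorem ip_eq_chart (g : RM M) {x m : M} (hm : m ∈ (chartAt E x).source) (u v : E) :
    ip g m u v = Bil (metricInChart g x) (chartAt E x m) (dch x m u) (dch x m v) := by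
  rw [b1a_bil, (chartAt E x).left_inv hm, b1a_sch_dch hm, b1a_sch_dch hm]

theorem ip_eq_self (g : RM M) (m : M) (u v : E) :
    ip g m u v = Bil (metricInChart g m) (chartAt E m m) u v := by
  rw [ip_eq_chart g (mem_chart_source E m), dch_self]
  rfl

theorem b1a_symmL {x m : M} (hm : m ∈ (chartAt E x).source) (v : E) :
    (trivializationAt E (TangentSpace 𝓘(ℝ, E)) x).symm m v = b1a_sch x (chartAt E x m) v := by
  have h := TangentBundle.symmL_trivializationAt (I := 𝓘(ℝ, E)) hm
  have h2 := DFunLike.congr_fun h v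
  rw [Trivialization.symmL_apply _ (by simpa using hm)] at h2
  simp only [modelWithCornersSelf_coe, range_id, mfderivWithin_univ] at h2
  refine h2.trans ?_
  simp only [extChartAt_coe_symm, extChartAt_coe,
    modelWithCornersSelf_coe_symm, modelWithCornersSelf_coe, Function.comp_id, Function.id_comp]
  rfl

theorem b1a_smooth (g : RM M) {x : M} {p : E} (hp : p ∈ (chartAt E x).target) (i j : Fin 3) :
    ContDiffAt ℝ ∞ (fun y => metricInChart g x y i j) p := by
  have hm : (chartAt E x).symm p ∈ (chartAt E x).source := (chartAt E x).map_target hp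
  have h1 := g.contMDiff ((chartAt E x).symm p)
  rw [(trivializationAt (E →L[ℝ] E →L[ℝ] ℝ)
    (fun b : M => TangentSpace 𝓘(ℝ, E) b →L[ℝ] TangentSpace 𝓘(ℝ, E) b →L[ℝ] ℝ)
      x).contMDiffAt_section_iff (by simpa using hm)] at h1
  have h2 : ContMDiffAt 𝓘(ℝ, E) 𝓘(ℝ, E) ∞ (chartAt E x).symm p :=
    (contMDiffOn_chart_symm p hp).contMDiffAt ((chartAt E x).open_target.mem_nhds hp)
  have h3 := (h1.comp p h2).contDiffAt
  have h4 := (h3.clm_apply (contDiffAt_const (c := (EuclideanSpace.single i (1 : ℝ) : E)))).clm_apply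
    (contDiffAt_const (c := (EuclideanSpace.single j (1 : ℝ) : E)))
  refine h4.congr_of_eventuallyEq ?_
  filter_upwards [(chartAt E x).open_target.mem_nhds hp] with y hy
  have hy' : (chartAt E x).symm y ∈ (chartAt E x).source := (chartAt E x).map_target hy
  simp only [Function.comp_apply, hom_trivializationAt_apply]
  rw [inCoordinates_apply_eq₂ (by simpa using hy') (by simpa using hy') (by simp),
    b1a_symmL hy', b1a_symmL hy', (chartAt E x).right_inv hy, b1a_entry]
  simp
  rfl

theorem riemAt_chart (g : RM M) {x : M} {p : E} (hp : p ∈ (chartAt E x).target) :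
    RiemAt (metricInChart g x) p := by
  filter_upwards [(chartAt E x).open_target.mem_nhds hp] with y hy
  refine ⟨fun i j => b1a_smooth g hy i j, ?_⟩
  rw [Matrix.posDef_iff_dotProduct_mulVec]
  refine ⟨?_, fun w hw => ?_⟩
  · ext i j
    simp only [Matrix.conjTranspose_apply, star_trivial, b1a_entry]
    exact ip_symm _ _ _ _
  · have h1 : star w ⬝ᵥ (metricInChart g x y).mulVec w =
        Bil (metricInChart g x) y (WithLp.toLp 2 w) (WithLp.toLp 2 w) := by
      rw [Bil_apply]
      simp only [star_trivial, dotProduct, Matrix.mulVec, Finset.mul_sum]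
      refine Finset.sum_congr rfl fun i _ => Finset.sum_congr rfl fun j _ => by ring
    rw [h1, b1a_bil]
    refine g.pos _ _ fun h0 => hw ?_
    have h2 := b1a_dch_sch hy (WithLp.toLp 2 w)
    have h3 : b1a_sch x y (WithLp.toLp 2 w) = 0 := h0
    rw [h3, map_zero] at h2
    have h4 := congrArg WithLp.ofLp h2
    simpa using h4.symm

theorem isomAt_transition (g : RM M) {x y : M} {p : E} (hp : p ∈ (chartAt E x).target)
    (hq : (chartAt E x).symm p ∈ (chartAt E y).source) :
    IsomAt (metricInChart g x) (metricInChart g y) (chartAt E y ∘ (chartAt E x).symm) p := by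
  have hc : ContinuousAt (chartAt E x).symm p :=
    (chartAt E x).continuousOn_symm.continuousAt ((chartAt E x).open_target.mem_nhds hp)
  filter_upwards [(chartAt E x).open_target.mem_nhds hp,
    hc.preimage_mem_nhds ((chartAt E y).open_source.mem_nhds hq)] with z hz hz'
  refine ⟨contDiffAt_transition hz hz', fun u v => ?_⟩
  have hm : (chartAt E x).symm z ∈ (chartAt E x).source := (chartAt E x).map_target hz
  have key : ∀ w : E, fderiv ℝ (chartAt E y ∘ (chartAt E x).symm) z w =
      dch y ((chartAt E x).symm z) (b1a_sch x z w) := fun w => by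
    rw [dch_comp hm hz', b1a_dch_sch hz, (chartAt E x).right_inv hz]
  rw [key, key, b1a_bil g x z, ip_eq_chart g hz']
  rfl

theorem isParam_chart (g : RM M) (x : M) :
    IsParam g (metricInChart g x) (chartAt E x).target (chartAt E x).symm := by
  exact ⟨(chartAt E x).open_target, fun p hp => riemAt_chart g hp,
    (chartAt E x).continuousOn_symm, fun p hp y hy => isomAt_transition g hp hy⟩

/-- A smooth map `E → M` read in a chart. -/
theorem contDiffAt_chart_comp {X : Type*} [NormedAddCommGroup X] [NormedSpace ℝ X] {F : X → M}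
    {v : X} {x : M} (hF : ContMDiffAt 𝓘(ℝ, X) 𝓘(ℝ, E) ∞ F v) (hx : F v ∈ (chartAt E x).source) :
    ContDiffAt ℝ ∞ (chartAt E x ∘ F) v := by
  have h2 : ContMDiffAt 𝓘(ℝ, E) 𝓘(ℝ, E) ∞ (chartAt E x) (F v) :=
    (contMDiffOn_chart (I := 𝓘(ℝ, E)) (n := ∞) (x := x)).contMDiffAt
      ((chartAt E x).open_source.mem_nhds hx)
  exact contMDiffAt_iff_contDiffAt.1 (h2.comp v hF)

theorem contMDiffAt_of_chart {X : Type*} [NormedAddCommGroup X] [NormedSpace ℝ X] {F : X → M}
    {v : X} {x : M} (hc : ContinuousAt F v) (hx : F v ∈ (chartAt E x).source)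
    (hF : ContDiffAt ℝ ∞ (chartAt E x ∘ F) v) : ContMDiffAt 𝓘(ℝ, X) 𝓘(ℝ, E) ∞ F v := by
  have h1 : ContMDiffAt 𝓘(ℝ, E) 𝓘(ℝ, E) ∞ (chartAt E x).symm ((chartAt E x ∘ F) v) :=
    (contMDiffOn_chart_symm (I := 𝓘(ℝ, E)) (n := ∞) (x := x)).contMDiffAt
      ((chartAt E x).open_target.mem_nhds ((chartAt E x).map_source hx))
  have h2 := h1.comp v (contMDiffAt_iff_contDiffAt.2 hF)
  refine h2.congr_of_eventuallyEq ?_
  filter_upwards [hc.eventually_mem ((chartAt E x).open_source.mem_nhds hx)] with q hq
  simp only [Function.comp_apply, (chartAt E x).left_inv hq]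

theorem dch_dE {F : E → M} {v : E} {x : M} (hF : ContMDiffAt 𝓘(ℝ, E) 𝓘(ℝ, E) ∞ F v)
    (hx : F v ∈ (chartAt E x).source) (w : E) :
    dch x (F v) (dE F v w) = fderiv ℝ (chartAt E x ∘ F) v w := by
  have hd : MDifferentiableAt 𝓘(ℝ, E) 𝓘(ℝ, E) (chartAt E x) (F v) :=
    mdifferentiableAt_atlas (chart_mem_atlas E x) hx
  have := mfderiv_comp v hd (hF.mdifferentiableAt (by simp))
  rw [mfderiv_eq_fderiv] at this
  rw [this]
  rfl

theorem dch_vel {γ : ℝ → M} {t : ℝ} {x : M} (hγ : ContMDiffAt 𝓘(ℝ, ℝ) 𝓘(ℝ, E) ∞ γ t)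
    (hx : γ t ∈ (chartAt E x).source) : dch x (γ t) (vel γ t) = deriv (chartAt E x ∘ γ) t := by
  have hm : γ t ∈ (chartAt E (γ t)).source := mem_chart_source E (γ t)
  have e1 : (chartAt E (γ t)).symm (chartAt E (γ t) (γ t)) = γ t := (chartAt E (γ t)).left_inv hm
  have c1 : ContDiffAt ℝ ∞ (chartAt E x ∘ (chartAt E (γ t)).symm) (chartAt E (γ t) (γ t)) :=
    contDiffAt_transition (mem_chart_target E (γ t)) (by rw [e1]; exact hx)
  have c2 : ContDiffAt ℝ ∞ (chartAt E (γ t) ∘ γ) t := contDiffAt_chart_comp hγ hm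
  have hev : (chartAt E x ∘ γ) =ᶠ[𝓝 t]
      (chartAt E x ∘ (chartAt E (γ t)).symm) ∘ (chartAt E (γ t) ∘ γ) := by
    filter_upwards [hγ.continuousAt.eventually_mem ((chartAt E (γ t)).open_source.mem_nhds hm)]
      with q hq
    simp only [Function.comp_apply, (chartAt E (γ t)).left_inv hq]
  rw [hev.deriv_eq, dch_eq hx, vel]
  have h := (c1.differentiableAt (by simp)).hasFDerivAt.comp_hasDerivAt t
    (c2.differentiableAt (by simp)).hasDerivAt
  exact h.deriv.symm

end Crest.Agent.R244
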