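import Crest.Agent.R244.Coord2
/-!
# R244: the Jacobi equation and the linearised geodesic equation
For smooth `c`, `V`: `cov (cov V) = V'' + 2 Γ(c', V') + DΓ(c')(c', V) + Γ(c'', V) + Γ(c', Γ(c', V))`,
so with `c'' = -Γ(c', c')` and the symmetry of `Γ`:
`cov (cov V) + curv V c' c' = V'' + 2 Γ(c', V') + DΓ(V)(c', c')`.
-/

set_option autoImplicit false
set_option maxSynthPendingDepth 3

open scoped ContDiff Manifold Topology
open Bundle Filter Set
open Crest.GeometryTopology.CoordMetric Crest.GeometryTopology.ChartCurvature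
  Crest.GeometryTopology.Geodesic

noncomputable section

namespace Crest.Agent.R244

section Abstract

variable {X : Type*} [NormedAddCommGroup X] [NormedSpace ℝ X]

theorem coord3_deriv {f : ℝ → X} {t : ℝ} (hf : ContDiffAt ℝ ∞ f t) :
    ContDiffAt ℝ ∞ (deriv f) t :=
  (hf.fderiv_right (m := ∞) le_rfl).clm_apply contDiffAt_const

theorem coord3_diff {Y : Type*} [NormedAddCommGroup Y]
    [NormedSpace ℝ Y] {f : X → Y} {t : X} (hf : ContDiffAt ℝ ∞ f t) : DifferentiableAt ℝ f t :=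
  hf.differentiableAt (by simp)

theorem coord3_cov {Γ : X → X →L[ℝ] X →L[ℝ] X} {c V : ℝ → X} {t : ℝ}
    (h : ContDiffAt ℝ ∞ Γ (c t)) (hc : ContDiffAt ℝ ∞ c t) (hV : ContDiffAt ℝ ∞ V t) :
    ContDiffAt ℝ ∞ (fun s => deriv V s + Γ (c s) (deriv c s) (V s)) t :=
  (coord3_deriv hV).add (((h.comp t hc).clm_apply (coord3_deriv hc)).clm_apply hV)

theorem coord3_cov_cov {Γ : X → X →L[ℝ] X →L[ℝ] X} {c V : ℝ → X} {t : ℝ}
    (h : ContDiffAt ℝ ∞ Γ (c t)) (hc : ContDiffAt ℝ ∞ c t) (hV : ContDiffAt ℝ ∞ V t)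
    (s1 : ∀ u v, Γ (c t) u v = Γ (c t) v u)
    (s2 : ∀ u v w, fderiv ℝ Γ (c t) u v w = fderiv ℝ Γ (c t) u w v)
    (hg : deriv (deriv c) t + Γ (c t) (deriv c t) (deriv c t) = 0) :
    deriv (fun s => deriv V s + Γ (c s) (deriv c s) (V s)) t +
        Γ (c t) (deriv c t) (deriv V t + Γ (c t) (deriv c t) (V t)) +
        (fderiv ℝ Γ (c t) (V t) (deriv c t) (deriv c t) -
          fderiv ℝ Γ (c t) (deriv c t) (V t) (deriv c t) +
          Γ (c t) (V t) (Γ (c t) (deriv c t) (deriv c t)) -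
          Γ (c t) (deriv c t) (Γ (c t) (V t) (deriv c t))) =
      deriv (deriv V) t + (2 : ℝ) • Γ (c t) (deriv c t) (deriv V t) +
        fderiv ℝ Γ (c t) (V t) (deriv c t) (deriv c t) := by
  have h1 := (coord3_diff h).hasFDerivAt.comp_hasDerivAt t (coord3_diff hc).hasDerivAt
  have h2 := (coord3_diff (coord3_deriv hV)).hasDerivAt.add
    ((h1.clm_apply (coord3_diff (coord3_deriv hc)).hasDerivAt).clm_apply
      (coord3_diff hV).hasDerivAt)
  have h3 : deriv (fun s => deriv V s + Γ (c s) (deriv c s) (V s)) t = _ := h2.deriv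
  have h4 : deriv (deriv c) t = -Γ (c t) (deriv c t) (deriv c t) := eq_neg_of_add_eq_zero_left hg
  rw [h3, h4]
  simp only [Function.comp, add_apply, map_add, map_neg, neg_apply, two_smul]
  rw [s2 (deriv c t) (V t), s1 (V t) (deriv c t), s1 (V t) (Γ (c t) _ _)]
  abel

theorem coord3_skew {B : X → X →L[ℝ] X →L[ℝ] ℝ} {Γ : X → X →L[ℝ] X →L[ℝ] X} {p : X}
    (hB : ContDiffAt ℝ ∞ B p) (hΓ : ContDiffAt ℝ ∞ Γ p)
    (hs : ∀ᶠ y in 𝓝 p, (∀ u v, B y u v = B y v u) ∧
      ∀ u v w, fderiv ℝ B y u v w = B y (Γ y u v) w + B y v (Γ y u w)) (u w v : X) :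
    B p (fderiv ℝ Γ p u w v - fderiv ℝ Γ p w u v + Γ p u (Γ p w v) - Γ p w (Γ p u v)) v = 0 := by
  have hB1 := coord3_diff (hB.fderiv_right (m := ∞) le_rfl)
  obtain ⟨s1, s2⟩ := hs.self_of_nhds
  have key : ∀ u w : X, fderiv ℝ (fderiv ℝ B) p u w v v =
      2 * (B p (Γ p u (Γ p w v)) v + B p (Γ p w v) (Γ p u v) + B p (fderiv ℝ Γ p u w v) v) :=
    fun u w => by
    have e : (fun y => fderiv ℝ B y w v v) =ᶠ[𝓝 p] fun y => 2 * B y (Γ y w v) v := by
      filter_upwards [hs] with y hy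
      rw [hy.2, hy.1 v, two_mul]
    have d1 := ((hB1.hasFDerivAt.clm_apply (hasFDerivAt_const w p)).clm_apply
      (hasFDerivAt_const v p)).clm_apply (hasFDerivAt_const v p)
    have d2 := (((coord3_diff hB).hasFDerivAt.clm_apply
      (((coord3_diff hΓ).hasFDerivAt.clm_apply (hasFDerivAt_const w p)).clm_apply
        (hasFDerivAt_const v p))).clm_apply (hasFDerivAt_const v p)).const_mul (2 : ℝ)
    have d3 := congrArg (fun L : X →L[ℝ] ℝ => L u) ((d1.congr_of_eventuallyEq e.symm).unique d2)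
    simp only [ContinuousLinearMap.comp_zero, zero_add, ContinuousLinearMap.flip_apply,
      smul_apply, add_apply, ContinuousLinearMap.comp_apply, smul_eq_mul] at d3
    rw [d3, s2]
    ring
  have hs : fderiv ℝ (fderiv ℝ B) p u w = fderiv ℝ (fderiv ℝ B) p w u :=
    (hB.isSymmSndFDerivAt (by simpa using ENat.LEInfty.out)).eq u w
  have k1 := key u w
  have k2 := key w u
  rw [hs] at k1
  have k3 := s1 (Γ p w v) (Γ p u v)
  simp only [map_add, map_sub, add_apply, sub_apply]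
  linarith

theorem coord3_neg (B : X →L[ℝ] X →L[ℝ] ℝ) (u v : X) : B (-u) v = -B u v := by simp

theorem coord3_zero (B : X →L[ℝ] X →L[ℝ] ℝ) (u : X) : B 0 u = 0 ∧ B u 0 = 0 := by simp

end Abstract

theorem contDiffAt_cov {G : MF} {c V : ℝ → E} {t : ℝ} (h : RiemAt G (c t))
    (hc : ContDiffAt ℝ ∞ c t) (hV : ContDiffAt ℝ ∞ V t) : ContDiffAt ℝ ∞ (cov G c V) t := by
  exact coord3_cov h.contDiffAt_chr hc hV

theorem cov_cov {G : MF} {c V : ℝ → E} {t : ℝ} (h : RiemAt G (c t))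
    (hc : ContDiffAt ℝ ∞ c t) (hV : ContDiffAt ℝ ∞ V t) (hg : Geo G c t) :
    cov G c (cov G c V) t + curv G (c t) (V t) (deriv c t) (deriv c t) =
      deriv (deriv V) t + (2 : ℝ) • Chr G (c t) (deriv c t) (deriv V t) +
        fderiv ℝ (Chr G) (c t) (V t) (deriv c t) (deriv c t) := by
  have e : cov G c V = fun s => deriv V s + Chr G (c s) (deriv c s) (V s) := rfl
  have := coord3_cov_cov h.contDiffAt_chr hc hV h.chr_symm h.fderiv_chr_symm hg
  rw [cov, curv, e]
  beta_reduce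
  convert this using 3

theorem jacobiEqAt_iff {G : MF} {c V : ℝ → E} {t : ℝ} (h : RiemAt G (c t))
    (hc : ContDiffAt ℝ ∞ c t) (hV : ContDiffAt ℝ ∞ V t) (hg : Geo G c t) :
    JacobiEqAt G c V t ↔ Lin G c V t := by
  unfold JacobiEqAt Lin
  rw [← cov_cov h hc hV hg, covDeriv_eq, covDeriv_eq]
  refine ⟨fun e => PiLp.ext fun l => ?_, fun e l => ?_⟩
  · have := e l
    rw [h.riemann_sum] at this
    simpa only [PiLp.add_apply, PiLp.zero_apply] using this
  · rw [h.riemann_sum]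
    have := congrArg (fun x : E => x l) e
    simpa only [PiLp.add_apply, PiLp.zero_apply] using this

/-- Constant speed. -/
theorem hasDerivAt_speed {G : MF} {c : ℝ → E} {t : ℝ} (h : RiemAt G (c t))
    (hc : ContDiffAt ℝ ∞ c t) (hg : Geo G c t) :
    HasDerivAt (fun s => Bil G (c s) (deriv c s) (deriv c s)) 0 t := by
  have h1 := h.hasDerivAt_bil (coord3_diff hc) (coord3_diff (coord3_deriv hc))
    (coord3_diff (coord3_deriv hc))
  have h2 : cov G c (deriv c) t = 0 := hg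
  rwa [h2, (coord3_zero _ _).1, (coord3_zero _ _).2, add_zero] at h1

/-- Derivative of `⟨DV, V⟩`. -/
theorem hasDerivAt_covV {G : MF} {c V : ℝ → E} {t : ℝ} (h : RiemAt G (c t))
    (hc : ContDiffAt ℝ ∞ c t) (hV : ContDiffAt ℝ ∞ V t) (hg : Geo G c t) (hl : Lin G c V t) :
    HasDerivAt (fun s => Bil G (c s) (cov G c V s) (V s))
      (Bil G (c t) (cov G c V t) (cov G c V t) - secNumer G (c t) (V t) (deriv c t)) t := by
  have h1 := h.hasDerivAt_bil (coord3_diff hc) (coord3_diff (contDiffAt_cov h hc hV))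
    (coord3_diff hV)
  have h2 : cov G c (cov G c V) t = -curv G (c t) (V t) (deriv c t) (deriv c t) :=
    eq_neg_of_add_eq_zero_left ((cov_cov h hc hV hg).trans hl)
  refine h1.congr_deriv ?_
  rw [h.secNumer_eq, h2, coord3_neg]
  ring

/-- `⟨R(u,v)v, v⟩ = 0`. Route: apply `fderiv` in direction `u` to the identity `compat y w v v`
(valid for `y` near `p`), antisymmetrise in `u, w` and use the symmetry of the second derivative of
`Bil G`. -/
theorem RiemAt.curv_skew {G : MF} {p : E} (h : RiemAt G p) (u w v : E) :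
    Bil G p (curv G p u w v) v = 0 := by
  have h1 : ∀ᶠ y in 𝓝 p, (∀ u v, Bil G y u v = Bil G y v u) ∧ ∀ u v w,
      fderiv ℝ (Bil G) y u v w = Bil G y (Chr G y u v) w + Bil G y v (Chr G y u w) :=
    h.eventually.mono fun y hy => ⟨hy.symm, hy.compat⟩
  have := coord3_skew h.contDiffAt_bil h.contDiffAt_chr h1 u w v
  rw [curv]
  convert this using 3

/-- Derivative of `⟨DV, c'⟩` (Gauss lemma, second step). -/
theorem hasDerivAt_gauss {G : MF} {c V : ℝ → E} {t : ℝ} (h : RiemAt G (c t))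
    (hc : ContDiffAt ℝ ∞ c t) (hV : ContDiffAt ℝ ∞ V t) (hg : Geo G c t) (hl : Lin G c V t) :
    HasDerivAt (fun s => Bil G (c s) (cov G c V s) (deriv c s)) 0 t := by
  have h1 := h.hasDerivAt_bil (coord3_diff hc) (coord3_diff (contDiffAt_cov h hc hV))
    (coord3_diff (coord3_deriv hc))
  have h2 : cov G c (cov G c V) t = -curv G (c t) (V t) (deriv c t) (deriv c t) :=
    eq_neg_of_add_eq_zero_left ((cov_cov h hc hV hg).trans hl)
  have h3 : cov G c (deriv c) t = 0 := hg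
  rwa [h2, h3, coord3_neg, h.curv_skew, (coord3_zero _ _).2, neg_zero, add_zero] at h1

end Crest.Agent.R244
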