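import Crest.Agent.R244.Coord1
import Crest.Agent.Lib.SmoothFlow.Flow
/-!
# R244: local uniqueness and the local geodesic flow
Uniqueness: the first-order system `(x, v)' = (v, -Chr G x v v)` is `C¹`, hence Lipschitz, near
`(c t, c' t)`; use `ODE_solution_unique_of_eventually` (time-dependent field for `JacNear.zero`).
Flow: multiply the field on `E × E` by a `ContDiffBump` supported in a small ball around `(x₀,v₀)`
(smooth with compact support, so globally Lipschitz), apply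
`Crest.Agent.Lib.SmoothFlow.exists_smooth_flow`, and shrink `ε`, `η` (tube lemma / continuity at
`(0,(x₀,v₀))`) so that the flow stays where the bump is `1` and the position lies in `W`.
-/

set_option autoImplicit false

open scoped ContDiff Manifold Topology
open Bundle Filter Set
open Crest.GeometryTopology.CoordMetric Crest.GeometryTopology.ChartCurvature
  Crest.GeometryTopology.Geodesic

noncomputable section

namespace Crest.Agent.R244

/-- Local uniqueness for a `C¹` time-dependent field. -/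
theorem ode_unique {X : Type*} [NormedAddCommGroup X] [NormedSpace ℝ X] {F : ℝ × X → X}
    {f g : ℝ → X} {t : ℝ} (hF : ContDiffAt ℝ 1 F (t, f t))
    (hf : ∀ᶠ s in 𝓝 t, HasDerivAt f (F (s, f s)) s)
    (hg : ∀ᶠ s in 𝓝 t, HasDerivAt g (F (s, g s)) s) (e : f t = g t) : f =ᶠ[𝓝 t] g := by
  obtain ⟨K, S, hS, hK⟩ := hF.exists_lipschitzOnWith
  have hfc : ContinuousAt (fun s => (s, f s)) t :=
    continuousAt_id.prodMk hf.self_of_nhds.continuousAt
  have hgc : ContinuousAt (fun s => (s, g s)) t :=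
    continuousAt_id.prodMk hg.self_of_nhds.continuousAt
  have hfS : ∀ᶠ s in 𝓝 t, (s, f s) ∈ S := hfc hS
  have hgS : ∀ᶠ s in 𝓝 t, (s, g s) ∈ S := hgc (by simpa [← e] using hS)
  refine ODE_solution_unique_of_eventually (v := fun s z => F (s, z))
    (s := fun s => {z | (s, z) ∈ S}) (K := K) (Eventually.of_forall fun s => ?_)
    (hf.and hfS) (hg.and hgS) e
  intro x hx y hy
  have := hK hx hy
  simpa [Prod.edist_eq] using this

theorem ode_contDiffAt_deriv {X : Type*} [NormedAddCommGroup X] [NormedSpace ℝ X] {c : ℝ → X}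
    {s : ℝ} (hc : ContDiffAt ℝ ∞ c s) :
    ContDiffAt ℝ ∞ (deriv c) s := by
  have h1 : ContDiffAt ℝ ∞ (fderiv ℝ c) s := hc.fderiv_right (by simp)
  exact h1.clm_apply contDiffAt_const

theorem ode_hasDerivAt_pair {X : Type*} [NormedAddCommGroup X] [NormedSpace ℝ X] {c : ℝ → X}
    {s : ℝ} (hc : ContDiffAt ℝ ∞ c s) :
    HasDerivAt (fun s => (c s, deriv c s)) (deriv c s, deriv (deriv c) s) s :=
  (hc.differentiableAt (by simp)).hasDerivAt.prodMk
    ((ode_contDiffAt_deriv hc).differentiableAt (by simp)).hasDerivAt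

theorem ode_contDiffAt_fderiv {X Y Z : Type*} [NormedAddCommGroup X] [NormedSpace ℝ X]
    [NormedAddCommGroup Y] [NormedSpace ℝ Y] [NormedAddCommGroup Z] [NormedSpace ℝ Z]
    {Γ : X → Y} {a w : Z → X} {q : Z} (hΓ : ContDiffAt ℝ ∞ Γ (a q)) (ha : ContDiffAt ℝ ∞ a q)
    (hw : ContDiffAt ℝ ∞ w q) : ContDiffAt ℝ ∞ (fun p => fderiv ℝ Γ (a p) (w p)) q := by
  have a0 : ContDiffAt ℝ ∞ (fderiv ℝ Γ) (a q) := hΓ.fderiv_right (by simp)
  exact (a0.comp q ha).clm_apply hw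

theorem ode_lin_zero {X : Type*} [NormedAddCommGroup X] [NormedSpace ℝ X]
    {Γ : X → X →L[ℝ] X →L[ℝ] X} {c V : ℝ → X} {t : ℝ} (hΓ : ContDiffAt ℝ ∞ Γ (c t))
    (hc : ContDiffAt ℝ ∞ c t)
    (hV : ∀ᶠ s in 𝓝 t, ContDiffAt ℝ ∞ V s ∧ deriv (deriv V) s +
      (2 : ℝ) • Γ (c s) (deriv c s) (deriv V s) +
      fderiv ℝ Γ (c s) (V s) (deriv c s) (deriv c s) = 0)
    (e₀ : V t = 0) (e₁ : deriv V t = 0) : ∀ᶠ s in 𝓝 t, V s = 0 := by
  obtain ⟨F, hFd⟩ : ∃ F : ℝ × (X × X) → X × X, F = fun p =>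
      (p.2.2, -((2 : ℝ) • Γ (c p.1) (deriv c p.1) p.2.2 +
        fderiv ℝ Γ (c p.1) p.2.1 (deriv c p.1) (deriv c p.1))) := ⟨_, rfl⟩
  have hF : ContDiffAt ℝ ∞ F (t, (V t, deriv V t)) := by
    have a1 : ContDiffAt ℝ ∞ (fun p : ℝ × (X × X) => c p.1) (t, (V t, deriv V t)) :=
      hc.comp (t, (V t, deriv V t)) contDiffAt_fst
    have a2 : ContDiffAt ℝ ∞ (fun p : ℝ × (X × X) => deriv c p.1) (t, (V t, deriv V t)) :=
      (ode_contDiffAt_deriv hc).comp (t, (V t, deriv V t)) contDiffAt_fst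
    have a3 : ContDiffAt ℝ ∞ (fun p : ℝ × (X × X) => Γ (c p.1)) (t, (V t, deriv V t)) :=
      hΓ.comp (t, (V t, deriv V t)) a1
    have a5 : ContDiffAt ℝ ∞ (fun p : ℝ × (X × X) => p.2.2) (t, (V t, deriv V t)) :=
      contDiffAt_snd.snd
    have a6 : ContDiffAt ℝ ∞ (fun p : ℝ × (X × X) => p.2.1) (t, (V t, deriv V t)) :=
      contDiffAt_snd.fst
    have a4 := ode_contDiffAt_fderiv (Γ := Γ) (a := fun p : ℝ × (X × X) => c p.1)
      (w := fun p : ℝ × (X × X) => p.2.1) (q := (t, (V t, deriv V t))) hΓ a1 a6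
    rw [hFd]
    exact a5.prodMk ((((a3.clm_apply a2).clm_apply a5).const_smul (2 : ℝ)).add
      ((a4.clm_apply a2).clm_apply a2)).neg
  have hf : ∀ᶠ s in 𝓝 t, HasDerivAt (fun s => (V s, deriv V s)) (F (s, (V s, deriv V s))) s := by
    filter_upwards [hV] with s hs
    have h1 := ode_hasDerivAt_pair hs.1
    have h3 := hs.2
    rw [add_assoc] at h3
    rw [eq_neg_of_add_eq_zero_left h3] at h1
    rw [hFd]
    exact h1
  have hg : ∀ᶠ s in 𝓝 t, HasDerivAt (fun _ : ℝ => ((0, 0) : X × X)) (F (s, (0, 0))) s := by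
    refine Eventually.of_forall fun s => ?_
    have : F (s, (0, 0)) = 0 := by
      have k1 : fderiv ℝ Γ (c s) 0 = 0 := (fderiv ℝ Γ (c s)).map_zero
      have k2 : Γ (c s) (deriv c s) 0 = 0 := (Γ (c s) (deriv c s)).map_zero
      rw [hFd]
      change ((0 : X), -((2 : ℝ) • Γ (c s) (deriv c s) 0 +
        fderiv ℝ Γ (c s) 0 (deriv c s) (deriv c s))) = 0
      rw [k1, k2, smul_zero, zero_add]
      change ((0 : X), -(0 : X)) = 0
      rw [neg_zero]
      rfl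
    rw [this]
    exact hasDerivAt_const _ _
  have := ode_unique (f := fun s => (V s, deriv V s)) (g := fun _ => (0, 0))
    (hF.of_le (by simp)) hf hg (by rw [e₀, e₁])
  filter_upwards [this] with s hs
  exact congrArg Prod.fst hs

/-- The geodesic spray. -/
def odeSpray (G : MF) (z : E × E) : E × E := (z.2, -Chr G z.1 z.2 z.2)

theorem ode_contDiffAt_spray {G : MF} {z : E × E} (h : RiemAt G z.1) :
    ContDiffAt ℝ ∞ (odeSpray G) z := by
  have h1 : ContDiffAt ℝ ∞ (fun w : E × E => Chr G w.1) z :=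
    h.contDiffAt_chr.comp z contDiffAt_fst
  exact contDiffAt_snd.prodMk ((h1.clm_apply contDiffAt_snd).clm_apply contDiffAt_snd).neg

theorem ode_geoNear_hasDerivAt {G : MF} {c : ℝ → E} {t : ℝ} (hc : GeoNear G c t) :
    ∀ᶠ s in 𝓝 t, HasDerivAt (fun s => (c s, deriv c s)) (odeSpray G (c s, deriv c s)) s := by
  filter_upwards [hc] with s hs
  have h1 := ode_hasDerivAt_pair hs.1
  have h2 : deriv (deriv c) s = -Chr G (c s) (deriv c s) (deriv c s) :=
    eq_neg_of_add_eq_zero_left hs.2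
  rw [h2] at h1
  exact h1

theorem GeoNear.unique {G : MF} {c c' : ℝ → E} {t : ℝ} (h : RiemAt G (c t)) (hc : GeoNear G c t)
    (hc' : GeoNear G c' t) (e₀ : c t = c' t) (e₁ : deriv c t = deriv c' t) : c =ᶠ[𝓝 t] c' := by
  have hF : ContDiffAt ℝ 1 (fun p : ℝ × (E × E) => odeSpray G p.2) (t, (c t, deriv c t)) :=
    ((ode_contDiffAt_spray (z := (c t, deriv c t)) h).of_le (by simp)).comp
      (t, (c t, deriv c t)) contDiffAt_snd
  have := ode_unique (f := fun s => (c s, deriv c s)) (g := fun s => (c' s, deriv c' s)) hF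
    (ode_geoNear_hasDerivAt hc) (ode_geoNear_hasDerivAt hc') (by rw [e₀, e₁])
  filter_upwards [this] with s hs
  exact congrArg Prod.fst hs

theorem JacNear.zero {G : MF} {c V : ℝ → E} {t : ℝ} (h : RiemAt G (c t)) (hV : JacNear G c V t)
    (e₀ : V t = 0) (e₁ : deriv V t = 0) : ∀ᶠ s in 𝓝 t, V s = 0 :=
  ode_lin_zero (Γ := Chr G) h.contDiffAt_chr hV.self_of_nhds.1
    (hV.mono fun _ hs => ⟨hs.2.2.1, hs.2.2.2⟩) e₀ e₁

theorem exists_local_flow {G : MF} {x₀ : E} (h : RiemAt G x₀) (v₀ : E) {W : Set E}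
    (hW : W ∈ 𝓝 x₀) :
    ∃ ε > (0 : ℝ), ∃ η > (0 : ℝ), ∃ Ψ : (E × E) × ℝ → E,
      ContDiffOn ℝ ∞ Ψ ((Metric.ball x₀ η ×ˢ Metric.ball v₀ η) ×ˢ Ioo (-ε) ε) ∧
      ∀ x ∈ Metric.ball x₀ η, ∀ v ∈ Metric.ball v₀ η,
        Ψ ((x, v), 0) = x ∧ deriv (fun t => Ψ ((x, v), t)) 0 = v ∧
        ∀ t ∈ Ioo (-ε) ε, Ψ ((x, v), t) ∈ W ∧ Geo G (fun s => Ψ ((x, v), s)) t := by
  have hev : ∀ᶠ z in 𝓝 ((x₀, v₀) : E × E), RiemAt G z.1 :=
    (continuousAt_fst (p := ((x₀, v₀) : E × E))) h.eventually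
  obtain ⟨r, hr, hball⟩ := Metric.eventually_nhds_iff_ball.1 hev
  let b : ContDiffBump ((x₀, v₀) : E × E) := ⟨r / 3, r / 2, by positivity, by linarith⟩
  obtain ⟨X, hX⟩ : ∃ X : E × E → E × E, X = fun z => b z • odeSpray G z := ⟨_, rfl⟩
  have hXs : ContDiff ℝ ∞ X := by
    rw [contDiff_iff_contDiffAt]
    intro z
    by_cases hz : z ∈ Metric.ball ((x₀, v₀) : E × E) r
    · rw [hX]
      exact b.contDiffAt.smul (ode_contDiffAt_spray (hball z hz))
    · have hz' : z ∉ tsupport b := by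
        rw [b.tsupport_eq]
        intro hz2
        exact hz (Metric.closedBall_subset_ball (by change r / 2 < r; linarith) hz2)
      have : X =ᶠ[𝓝 z] fun _ => 0 := by
        filter_upwards [notMem_tsupport_iff_eventuallyEq.1 hz'] with w hw
        rw [hX]
        simp [hw]
      exact contDiffAt_const.congr_of_eventuallyEq this
  have hXc : HasCompactSupport X := by
    rw [hX]
    exact b.hasCompactSupport.smul_right
  obtain ⟨K, hK⟩ := hXs.lipschitzWith_of_hasCompactSupport hXc (by simp)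
  obtain ⟨δ, hδ, Φ, hΦs, hΦ0, hΦd⟩ := Crest.Agent.Lib.SmoothFlow.exists_smooth_flow X hXs hK
  have hU : Ioo (-δ) δ ×ˢ (univ : Set (E × E)) ∈ 𝓝 ((0 : ℝ), ((x₀, v₀) : E × E)) :=
    prod_mem_nhds (Ioo_mem_nhds (by linarith) hδ) univ_mem
  have hc : ContinuousAt Φ ((0 : ℝ), ((x₀, v₀) : E × E)) :=
    hΦs.continuousOn.continuousAt hU
  have hO : ∀ᶠ z in 𝓝 ((x₀, v₀) : E × E),
      z ∈ Metric.closedBall ((x₀, v₀) : E × E) (r / 3) ∧ z.1 ∈ W :=
    Eventually.and (Metric.closedBall_mem_nhds _ (by positivity))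
      ((continuousAt_fst (p := ((x₀, v₀) : E × E))) hW)
  have hO' : ∀ᶠ p in 𝓝 ((0 : ℝ), ((x₀, v₀) : E × E)),
      Φ p ∈ Metric.closedBall ((x₀, v₀) : E × E) (r / 3) ∧ (Φ p).1 ∈ W :=
    hc (by rw [hΦ0]; exact hO)
  obtain ⟨ε, hε, hεb⟩ := Metric.eventually_nhds_iff_ball.1 (hO'.and hU)
  have hmem : ∀ x ∈ Metric.ball x₀ ε, ∀ v ∈ Metric.ball v₀ ε, ∀ t ∈ Ioo (-ε) ε,
      (t, (x, v)) ∈ Metric.ball ((0 : ℝ), ((x₀, v₀) : E × E)) ε := by
    intro x hx v hv t ht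
    rw [← ball_prod_same, ← ball_prod_same]
    refine ⟨?_, hx, hv⟩
    rw [Real.ball_eq_Ioo]
    simpa using ht
  refine ⟨ε, hε, ε, hε, fun p => (Φ (p.2, p.1)).1, ?_, ?_⟩
  · refine ContDiffOn.fst (hΦs.comp (contDiffOn_snd.prodMk contDiffOn_fst) ?_)
    rintro ⟨⟨x, v⟩, t⟩ ⟨⟨hx, hv⟩, ht⟩
    exact (hεb _ (hmem x hx v hv t ht)).2
  · intro x hx v hv
    have hd : ∀ t ∈ Ioo (-ε) ε, HasDerivAt (fun s => Φ (s, (x, v)))
        (odeSpray G (Φ (t, (x, v)))) t := by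
      intro t ht
      obtain ⟨⟨k1, -⟩, k3⟩ := hεb _ (hmem x hx v hv t ht)
      have := hΦd (x, v) t k3.1
      rw [hX] at this
      simpa [b.one_of_mem_closedBall k1] using this
    have hd1 : ∀ t ∈ Ioo (-ε) ε,
        deriv (fun s => (Φ (s, (x, v))).1) t = (Φ (t, (x, v))).2 := fun t ht =>
      ((ContinuousLinearMap.fst ℝ E E).hasFDerivAt.comp_hasDerivAt t (hd t ht)).deriv
    refine ⟨by simp [hΦ0], ?_, fun t ht => ⟨(hεb _ (hmem x hx v hv t ht)).1.2, ?_⟩⟩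
    · have := hd1 0 ⟨by linarith, hε⟩
      rw [hΦ0] at this
      exact this
    · have he : deriv (fun s => (Φ (s, (x, v))).1) =ᶠ[𝓝 t] fun s => (Φ (s, (x, v))).2 := by
        filter_upwards [Ioo_mem_nhds ht.1 ht.2] with s hs using hd1 s hs
      unfold Geo
      change deriv (deriv fun s => (Φ (s, (x, v))).1) t + Chr G (Φ (t, (x, v))).1
        (deriv (fun s => (Φ (s, (x, v))).1) t) (deriv (fun s => (Φ (s, (x, v))).1) t) = 0
      have hd2 : deriv (fun s => (Φ (s, (x, v))).2) t = (odeSpray G (Φ (t, (x, v)))).2 :=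
        ((ContinuousLinearMap.snd ℝ E E).hasFDerivAt.comp_hasDerivAt t (hd t ht)).deriv
      rw [he.deriv_eq, hd1 t ht, hd2]
      simp [odeSpray]

end Crest.Agent.R244
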