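import Crest.Agent.R244.Isom
import Crest.Agent.R244.Coord3
/-!
# R244: variations
`hasDerivAt_geo_op`: for `F : ℝ × ℝ → E` smooth at `(0, t)`, the `ε`-derivative of the geodesic
operator of `F (ε, ·)` at `t` is the linearised operator of the variation field
(`∂ε ∂s F = ∂s ∂ε F` near `(0,t)` twice, by `ContDiffAt.isSymmSndFDerivAt` applied to `F` and to
`∂s F`; write partial derivatives as `fderiv ℝ F z (0,1)` and `fderiv ℝ F z (1,0)`).
`lin_of_variation`: immediate. `IsomAt.lin`: apply it to `F (ε,s) = c s + ε • V s` and to `ψ ∘ F`,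
and differentiate `IsomAt.geo_op` in `ε`.
-/

set_option autoImplicit false
set_option maxSynthPendingDepth 3

open scoped ContDiff Manifold Topology
open Bundle Filter Set
open Crest.GeometryTopology.CoordMetric Crest.GeometryTopology.ChartCurvature
  Crest.GeometryTopology.Geodesic

noncomputable section

namespace Crest.Agent.R244

section Abstract

variable {X : Type*} [NormedAddCommGroup X] [NormedSpace ℝ X]

theorem vary_snd {H : ℝ × ℝ → X} {ε s : ℝ} (h : DifferentiableAt ℝ H (ε, s)) :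
    HasDerivAt (fun s => H (ε, s)) (fderiv ℝ H (ε, s) (0, 1)) s :=
  h.hasFDerivAt.comp_hasDerivAt s ((hasDerivAt_const s ε).prodMk (hasDerivAt_id s))

theorem vary_fst {H : ℝ × ℝ → X} {ε s : ℝ} (h : DifferentiableAt ℝ H (ε, s)) :
    HasDerivAt (fun ε => H (ε, s)) (fderiv ℝ H (ε, s) (1, 0)) ε :=
  h.hasFDerivAt.comp_hasDerivAt ε ((hasDerivAt_id ε).prodMk (hasDerivAt_const ε s))

theorem vary_sm {H : ℝ × ℝ → X} {z : ℝ × ℝ} (h : ContDiffAt ℝ ∞ H z) (v : ℝ × ℝ) :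
    ContDiffAt ℝ ∞ (fun z => fderiv ℝ H z v) z :=
  (h.fderiv_right (m := ∞) le_rfl).clm_apply contDiffAt_const

theorem vary_two {H : ℝ × ℝ → X} {z : ℝ × ℝ} (h : ContDiffAt ℝ ∞ H z) :
    ∀ᶠ y in 𝓝 z, ContDiffAt ℝ 2 H y :=
  (h.of_le ENat.LEInfty.out).eventually (by simp)

theorem vary_comm {H : ℝ × ℝ → X} {z : ℝ × ℝ} (h : ContDiffAt ℝ 2 H z) (u v : ℝ × ℝ) :
    fderiv ℝ (fun z => fderiv ℝ H z v) z u = fderiv ℝ (fun z => fderiv ℝ H z u) z v := by
  have h1 : DifferentiableAt ℝ (fderiv ℝ H) z :=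
    (h.fderiv_right (m := 1) (by norm_num)).differentiableAt (by simp)
  have e : ∀ u v, fderiv ℝ (fun z => fderiv ℝ H z v) z u = fderiv ℝ (fderiv ℝ H) z u v :=
    fun u v => by
      rw [(h1.hasFDerivAt.clm_apply (hasFDerivAt_const v z)).fderiv]
      simp
  rw [e, e]
  exact (h.isSymmSndFDerivAt (by simp)).eq u v

theorem vary_deriv {H : ℝ × ℝ → X} {z : ℝ × ℝ} (h : ContDiffAt ℝ ∞ H z) :
    ∀ᶠ y in 𝓝 z, deriv (fun s => H (y.1, s)) y.2 = fderiv ℝ H y (0, 1) :=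
  (vary_two h).mono fun _ hy => (vary_snd (hy.differentiableAt (by simp))).deriv

theorem vary_deriv2 {H : ℝ × ℝ → X} {z : ℝ × ℝ} (h : ContDiffAt ℝ ∞ H z) :
    ∀ᶠ y in 𝓝 z, deriv (deriv fun s => H (y.1, s)) y.2 =
      fderiv ℝ (fun z => fderiv ℝ H z (0, 1)) y (0, 1) := by
  filter_upwards [(vary_deriv h).eventually_nhds, vary_deriv (vary_sm h (0, 1))] with y h1 h2
  rw [← h2]
  exact Filter.EventuallyEq.deriv_eq (h1.curry_nhds.self_of_nhds)

theorem vary_op {Γ : X → X →L[ℝ] X →L[ℝ] X} {F : ℝ × ℝ → X} {t : ℝ}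
    (h : ContDiffAt ℝ ∞ Γ (F (0, t))) (s1 : ∀ u v, Γ (F (0, t)) u v = Γ (F (0, t)) v u)
    (hF : ContDiffAt ℝ ∞ F (0, t)) :
    HasDerivAt (fun ε : ℝ => deriv (deriv fun s => F (ε, s)) t +
        Γ (F (ε, t)) (deriv (fun s => F (ε, s)) t) (deriv (fun s => F (ε, s)) t))
      (deriv (deriv fun s => fderiv ℝ F (0, s) (1, 0)) t +
        (2 : ℝ) • Γ (F (0, t)) (deriv (fun s => F (0, s)) t)
          (deriv (fun s => fderiv ℝ F (0, s) (1, 0)) t) +
        fderiv ℝ Γ (F (0, t)) (fderiv ℝ F (0, t) (1, 0)) (deriv (fun s => F (0, s)) t)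
          (deriv (fun s => F (0, s)) t)) 0 := by
  have hA := vary_sm hF (0, 1)
  have hB := vary_sm hF (1, 0)
  have d1 := vary_fst (coord3_diff (vary_sm hA (0, 1)))
  have d2 := vary_fst (coord3_diff hA)
  have d3 := (coord3_diff h).hasFDerivAt.comp_hasDerivAt 0 (vary_fst (coord3_diff hF))
  have d4 := d1.add ((d3.clm_apply d2).clm_apply d2)
  have e1 : (fun z => fderiv ℝ (fun z => fderiv ℝ F z (0, 1)) z (1, 0)) =ᶠ[𝓝 (0, t)]
      fun z => fderiv ℝ (fun z => fderiv ℝ F z (1, 0)) z (0, 1) :=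
    (vary_two hF).mono fun _ hy => vary_comm hy _ _
  have e2 := (vary_deriv2 hB).self_of_nhds
  have e3 := (vary_deriv hB).self_of_nhds
  have e4 := (vary_deriv hF).self_of_nhds
  have e5 := e1.self_of_nhds
  dsimp only at e2 e3 e4 e5
  refine (d4.congr_of_eventuallyEq ?_).congr_deriv ?_
  · filter_upwards [(vary_deriv hF).curry_nhds, (vary_deriv2 hF).curry_nhds] with ε h1 h2
    have k1 := h1.self_of_nhds
    have k2 := h2.self_of_nhds
    simp only [Pi.add_apply, Function.comp, k1, k2]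
  · rw [e2, e3, e4, vary_comm (vary_two hA).self_of_nhds, e1.fderiv_eq, ← e5]
    simp only [Function.comp, add_apply, two_smul]
    rw [s1 (fderiv ℝ (fun z => fderiv ℝ F z (0, 1)) (0, t) (1, 0))]
    abel

theorem vary_line {c V : ℝ → X} {t : ℝ} (hc : ContDiffAt ℝ ∞ c t) (hV : ContDiffAt ℝ ∞ V t)
    (ε : ℝ) : ContDiffAt ℝ ∞ (fun z : ℝ × ℝ => c z.2 + z.1 • V z.2) (ε, t) :=
  (hc.comp (ε, t) contDiffAt_snd).add (contDiffAt_fst.smul (hV.comp (ε, t) contDiffAt_snd))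

theorem vary_comp {ψ : X → X} {c V : ℝ → X} {t : ℝ} (hψ : ContDiffAt ℝ ∞ ψ (c t))
    (hc : ContDiffAt ℝ ∞ c t) (hV : ContDiffAt ℝ ∞ V t) :
    ContDiffAt ℝ ∞ (fun z : ℝ × ℝ => ψ (c z.2 + z.1 • V z.2)) (0, t) ∧
      (fun s => fderiv ℝ (fun z : ℝ × ℝ => ψ (c z.2 + z.1 • V z.2)) (0, s) (1, 0)) =ᶠ[𝓝 t]
        fun s => fderiv ℝ ψ (c s) (V s) := by
  have h1 : ContDiffAt ℝ ∞ (fun z : ℝ × ℝ => ψ (c z.2 + z.1 • V z.2)) (0, t) :=
    ContDiffAt.comp (g := ψ) (0, t) (by simpa using hψ) (vary_line hc hV 0)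
  refine ⟨h1, ?_⟩
  have h2 : ∀ᶠ y in 𝓝 (c t), ContDiffAt ℝ 2 ψ y :=
    (hψ.of_le ENat.LEInfty.out).eventually (by simp)
  filter_upwards [(vary_two h1).curry_nhds.self_of_nhds, hc.continuousAt.eventually h2] with s k1 k2
  refine (vary_fst (k1.differentiableAt (by simp))).unique ?_
  have d : HasDerivAt (fun ε : ℝ => c s + ε • V s) (V s) 0 := by
    simpa using ((hasDerivAt_id (0 : ℝ)).smul_const (V s)).const_add (c s)
  exact HasFDerivAt.comp_hasDerivAt_of_eq 0 (k2.differentiableAt (by simp)).hasFDerivAt d (by simp)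

theorem vary_push {ψ : X → X} {a O : ℝ → X} {L : X} (hψ : ContDiffAt ℝ ∞ ψ (a 0))
    (ha : DifferentiableAt ℝ a 0) (hO : HasDerivAt O 0 0) (h0 : O 0 = 0)
    {P : ℝ → X} (hP : HasDerivAt P L 0) (e : P =ᶠ[𝓝 0] fun ε => fderiv ℝ ψ (a ε) (O ε)) :
    L = 0 := by
  have d := ((coord3_diff (hψ.fderiv_right (m := ∞) le_rfl)).hasFDerivAt.comp_hasDerivAt 0
    ha.hasDerivAt).clm_apply hO
  have := (hP.congr_of_eventuallyEq e.symm).unique d
  simpa [h0] using this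

end Abstract

theorem hasDerivAt_geo_op {G : MF} {F : ℝ × ℝ → E} {t : ℝ} (h : RiemAt G (F (0, t)))
    (hF : ContDiffAt ℝ ∞ F (0, t)) :
    HasDerivAt (fun ε : ℝ => deriv (deriv fun s => F (ε, s)) t +
        Chr G (F (ε, t)) (deriv (fun s => F (ε, s)) t) (deriv (fun s => F (ε, s)) t))
      (deriv (deriv fun s => fderiv ℝ F (0, s) (1, 0)) t +
        (2 : ℝ) • Chr G (F (0, t)) (deriv (fun s => F (0, s)) t)
          (deriv (fun s => fderiv ℝ F (0, s) (1, 0)) t) +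
        fderiv ℝ (Chr G) (F (0, t)) (fderiv ℝ F (0, t) (1, 0)) (deriv (fun s => F (0, s)) t)
          (deriv (fun s => F (0, s)) t)) 0 := by
  have := vary_op h.contDiffAt_chr h.chr_symm hF
  convert this using 3

theorem lin_of_variation {G : MF} {F : ℝ × ℝ → E} {t : ℝ} (h : RiemAt G (F (0, t)))
    (hF : ContDiffAt ℝ ∞ F (0, t)) (hg : ∀ᶠ ε in 𝓝 (0 : ℝ), Geo G (fun s => F (ε, s)) t) :
    Lin G (fun s => F (0, s)) (fun s => fderiv ℝ F (0, s) (1, 0)) t := by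
  exact ((hasDerivAt_geo_op h hF).congr_of_eventuallyEq (f₁ := fun _ => 0)
    (hg.mono fun _ e => e.symm)).unique (hasDerivAt_const _ _)

theorem IsomAt.lin {G G' : MF} {ψ : E → E} {c V : ℝ → E} {t : ℝ} (h : IsomAt G G' ψ (c t))
    (hG : RiemAt G (c t)) (hG' : RiemAt G' (ψ (c t))) (hc : ContDiffAt ℝ ∞ c t)
    (hV : ContDiffAt ℝ ∞ V t) (hg : Geo G c t) (hl : Lin G c V t) :
    Lin G' (ψ ∘ c) (fun s => fderiv ℝ ψ (c s) (V s)) t := by
  have hψ : ContDiffAt ℝ ∞ ψ (c t) := h.self_of_nhds.1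
  obtain ⟨a1, a2⟩ := vary_comp hψ hc hV
  obtain ⟨b1, b2⟩ := vary_comp (ψ := id) contDiffAt_id hc hV
  have z : ∀ s, c s + (0 : ℝ) • V s = c s := fun s => by rw [zero_smul, add_zero]
  have o1 := hasDerivAt_geo_op (G := G') (F := fun z : ℝ × ℝ => ψ (c z.2 + z.1 • V z.2))
    (by simpa only [z] using hG') a1
  have o2 := hasDerivAt_geo_op (G := G) (F := fun z : ℝ × ℝ => id (c z.2 + z.1 • V z.2))
    (by simpa only [z, id] using hG) b1
  simp only [fderiv_id, ContinuousLinearMap.id_apply] at b2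
  have a3 := a2.self_of_nhds
  have b3 := b2.self_of_nhds
  beta_reduce at a3 b3
  rw [b2.deriv.deriv_eq, b2.deriv_eq, b3] at o2
  rw [a2.deriv.deriv_eq, a2.deriv_eq, a3] at o1
  simp only [z, id] at o1 o2
  rw [show _ = (0 : E) from hl] at o2
  have ha : ContDiffAt ℝ ∞ (fun ε : ℝ => c t + ε • V t) 0 :=
    contDiffAt_const.add (contDiffAt_id.smul contDiffAt_const)
  have hψ' : ContinuousAt (fun ε : ℝ => ψ (c t + ε • V t)) 0 :=
    ContinuousAt.comp (g := ψ) (by simpa only [z] using hψ.continuousAt) ha.continuousAt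
  refine vary_push (ψ := ψ) (a := fun ε : ℝ => c t + ε • V t) (by simpa only [z] using hψ)
    (coord3_diff ha) o2 (by simp only [z]; exact hg) o1 ?_
  filter_upwards [ha.continuousAt.eventually (by simpa only [z] using h.eventually),
    ha.continuousAt.eventually (by simpa only [z] using hG.eventually),
    hψ'.eventually (by simpa only [z] using hG'.eventually)] with ε k1 k2 k3
  exact IsomAt.geo_op (c := fun s => c s + ε • V s) k1 k2 k3 (hc.add (hV.const_smul ε))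

end Crest.Agent.R244
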