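import Crest.Agent.R244.Bridge1
import Crest.Agent.R244.Vary
import Crest.Agent.R244.Coord3
import Crest.Agent.R244.Ode
/-!
# R244: geodesics and Jacobi fields on the manifold
Everything is transported between charts by `IsomAt.geo`, `IsomAt.lin` with `isomAt_transition`;
near a parameter `t` with `γ t` in two chart sources, `chartAt y ∘ γ` is eventually the transition
map applied to `chartAt x ∘ γ`, and `fld y γ J s = fderiv (transition) (chartAt x (γ s)) (fld x γ J s)`
(`dch_comp`).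
-/

set_option autoImplicit false

open scoped ContDiff Manifold Topology
open Bundle Filter Set
open Crest.GeometryTopology.CoordMetric Crest.GeometryTopology.ChartCurvature
  Crest.GeometryTopology.Geodesic

noncomputable section

namespace Crest.Agent.R244

variable {M : Type*} [TopologicalSpace M] [ChartedSpace E M] [IsManifold 𝓘(ℝ, E) ∞ M]

omit [IsManifold 𝓘(ℝ, E) ∞ M] in
theorem br2b_ev {γ : ℝ → M} {t : ℝ} {x : M} (hc : ContinuousAt γ t)
    (hx : γ t ∈ (chartAt E x).source) : ∀ᶠ s in 𝓝 t, γ s ∈ (chartAt E x).source :=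
  hc.preimage_mem_nhds ((chartAt E x).open_source.mem_nhds hx)

omit [IsManifold 𝓘(ℝ, E) ∞ M] in
theorem br2b_trans {γ : ℝ → M} {t : ℝ} {x : M} (y : M) (hc : ContinuousAt γ t)
    (hx : γ t ∈ (chartAt E x).source) :
    (chartAt E y ∘ (chartAt E x).symm) ∘ (chartAt E x ∘ γ) =ᶠ[𝓝 t] chartAt E y ∘ γ := by
  filter_upwards [br2b_ev hc hx] with s hs
  simp only [Function.comp_apply, (chartAt E x).left_inv hs]

theorem GeoAt.contMDiffAt {g : RM M} {γ : ℝ → M} {t : ℝ} (h : GeoAt g γ t) :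
    ContMDiffAt 𝓘(ℝ, ℝ) 𝓘(ℝ, E) ∞ γ t := by
  exact contMDiffAt_of_chart h.1 (mem_chart_source E (γ t)) (h.2 _ (mem_chart_source E (γ t))).1

theorem geoAt_of_chart {g : RM M} {γ : ℝ → M} {t : ℝ} {x : M} (hc : ContinuousAt γ t)
    (hx : γ t ∈ (chartAt E x).source) (hs : ContDiffAt ℝ ∞ (chartAt E x ∘ γ) t)
    (hg : Geo (metricInChart g x) (chartAt E x ∘ γ) t) : GeoAt g γ t := by
  refine ⟨hc, fun y hy => ?_⟩
  have hp : (chartAt E x ∘ γ) t ∈ (chartAt E x).target := (chartAt E x).map_source hx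
  have hl : (chartAt E x).symm ((chartAt E x ∘ γ) t) = γ t := (chartAt E x).left_inv hx
  have hq : (chartAt E x).symm ((chartAt E x ∘ γ) t) ∈ (chartAt E y).source := by
    rw [hl]; exact hy
  have he := br2b_trans y hc hx
  refine ⟨?_, ?_⟩
  · exact ((contDiffAt_transition hp hq).comp t hs).congr_of_eventuallyEq he.symm
  · have hI := isomAt_transition g hp hq
    have hR' : RiemAt (metricInChart g y)
        ((chartAt E y ∘ (chartAt E x).symm) ((chartAt E x ∘ γ) t)) :=
      riemAt_chart g ((chartAt E y).map_source hq)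
    exact (hI.geo (riemAt_chart g hp) hR' hs hg).congr he

theorem GeoAt.congr {g : RM M} {γ γ' : ℝ → M} {t : ℝ} (h : GeoAt g γ t) (e : γ =ᶠ[𝓝 t] γ') :
    GeoAt g γ' t := by
  have e0 : γ t = γ' t := e.self_of_nhds
  refine ⟨h.1.congr e, fun x hx => ?_⟩
  have he : (chartAt E x ∘ γ) =ᶠ[𝓝 t] (chartAt E x ∘ γ') := e.fun_comp _
  obtain ⟨h1, h2⟩ := h.2 x (e0 ▸ hx)
  exact ⟨h1.congr_of_eventuallyEq he.symm, h2.congr he⟩

theorem GeoAt.comp_affine {g : RM M} {γ : ℝ → M} {a b t : ℝ} (h : GeoAt g γ (a * t + b)) :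
    GeoAt g (fun s => γ (a * s + b)) t := by
  have hA : ContDiffAt ℝ ∞ (fun s : ℝ => a * s + b) t := by fun_prop
  refine ⟨ContinuousAt.comp (f := fun s : ℝ => a * s + b) h.1 hA.continuousAt, fun x hx => ?_⟩
  obtain ⟨h1, h2⟩ := h.2 x hx
  exact ⟨ContDiffAt.comp (g := chartAt E x ∘ γ) (f := fun s : ℝ => a * s + b) t h1 hA,
    Geo.comp_affine h1 h2⟩

theorem vel_comp_affine {g : RM M} {γ : ℝ → M} {a b t : ℝ} (h : GeoAt g γ (a * t + b)) :
    vel (fun s => γ (a * s + b)) t = a • vel γ (a * t + b) := by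
  have h1 := ((h.2 _ (mem_chart_source E (γ (a * t + b)))).1.differentiableAt (by simp)).hasDerivAt
  have hA : HasDerivAt (fun s : ℝ => a * s + b) a t := by
    simpa using ((hasDerivAt_id t).const_mul a).add_const b
  exact (HasDerivAt.scomp t (h := fun s : ℝ => a * s + b) h1 hA).deriv

theorem isGeo_of_isGeodesic {g : RM M} {γ : ℝ → M} (h : IsGeodesic g γ) : IsGeo g γ := by
  intro t
  have hm : γ t ∈ (chartAt E (γ t)).source := mem_chart_source E (γ t)
  exact geoAt_of_chart (h.1 t).continuousAt hm (contDiffAt_chart_comp (h.1 t) hm)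
    ((geodesicEqAt_iff _ _ _).1 (h.2 t))

theorem b2a_fld_self {γ : ℝ → M} {J : ℝ → E} {t : ℝ}
    (h : ContMDiffAt 𝓘(ℝ, ℝ) (𝓘(ℝ, E)).tangent ∞
      (fun s => (TotalSpace.mk' E (γ s) (J s) : TangentBundle 𝓘(ℝ, E) M)) t) :
    ContDiffAt ℝ ∞ (fld (γ t) γ J) t := by
  obtain ⟨h1, h2⟩ := contMDiffAt_totalSpace.1 h
  have hm : γ t ∈ (chartAt E (γ t)).source := mem_chart_source E (γ t)
  have hev1 : ∀ᶠ s in 𝓝 t, γ s ∈ (chartAt E (γ t)).source :=
    h1.continuousAt.eventually_mem ((chartAt E (γ t)).open_source.mem_nhds hm)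
  refine (contMDiffAt_iff_contDiffAt.1 h2).congr_of_eventuallyEq ?_
  filter_upwards [hev1] with s hs
  have e := TangentBundle.continuousLinearMapAt_trivializationAt (I := 𝓘(ℝ, E)) hs
  have e2 := Trivialization.continuousLinearMapAt_apply_of_mem (R := ℝ)
    (trivializationAt E (TangentSpace 𝓘(ℝ, E)) (γ t)) (b := γ s) hs (J s)
  rw [e] at e2
  exact e2

/-- Smoothness of `fld x γ J` at `t` comes from the smoothness of `t ↦ (γ t, J t)` into the tangent
bundle, read in the trivialisation at `x` (`TangentBundle.continuousLinearMapAt_trivializationAt`,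
or `ContMDiffAt.mfderiv_apply`-type lemmas); `Lin` at `t` holds in the chart at `γ t` by
`jacobiEqAt_iff` and is transported by `IsomAt.lin`. -/
theorem isJac_of_isJacobiField {g : RM M} {γ : ℝ → M} {J : ℝ → E} (h : IsGeodesic g γ)
    (hJ : IsJacobiField g γ J) : IsJac g γ J := by
  intro t x hx
  have hγ := isGeo_of_isGeodesic h
  have hm : γ t ∈ (chartAt E (γ t)).source := mem_chart_source E (γ t)
  have hc := (hγ t).2 (γ t) hm
  have hV : ContDiffAt ℝ ∞ (fld (γ t) γ J) t := b2a_fld_self (hJ.1 t)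
  have hR : RiemAt (metricInChart g (γ t)) ((chartAt E (γ t) ∘ γ) t) :=
    riemAt_chart g ((chartAt E (γ t)).map_source hm)
  have hl : Lin (metricInChart g (γ t)) (chartAt E (γ t) ∘ γ) (fld (γ t) γ J) t :=
    (jacobiEqAt_iff hR hc.1 hV hc.2).1 (hJ.2 t)
  have e1 : (chartAt E (γ t)).symm ((chartAt E (γ t) ∘ γ) t) = γ t :=
    (chartAt E (γ t)).left_inv hm
  have hI : IsomAt (metricInChart g (γ t)) (metricInChart g x)
      (chartAt E x ∘ (chartAt E (γ t)).symm) ((chartAt E (γ t) ∘ γ) t) :=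
    isomAt_transition g ((chartAt E (γ t)).map_source hm) (by rw [e1]; exact hx)
  have hR' : RiemAt (metricInChart g x)
      ((chartAt E x ∘ (chartAt E (γ t)).symm) ((chartAt E (γ t) ∘ γ) t)) := by
    refine riemAt_chart g ?_
    rw [Function.comp_apply, e1]
    exact (chartAt E x).map_source hx
  have hev1 : ∀ᶠ s in 𝓝 t, γ s ∈ (chartAt E (γ t)).source :=
    (hγ t).1.eventually_mem ((chartAt E (γ t)).open_source.mem_nhds hm)
  have hev2 : ∀ᶠ s in 𝓝 t, γ s ∈ (chartAt E x).source :=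
    (hγ t).1.eventually_mem ((chartAt E x).open_source.mem_nhds hx)
  have ec : (chartAt E x ∘ (chartAt E (γ t)).symm) ∘ (chartAt E (γ t) ∘ γ) =ᶠ[𝓝 t]
      chartAt E x ∘ γ := by
    filter_upwards [hev1] with s hs
    simp only [Function.comp_apply, (chartAt E (γ t)).left_inv hs]
  have eV : (fun s => fderiv ℝ (chartAt E x ∘ (chartAt E (γ t)).symm) ((chartAt E (γ t) ∘ γ) s)
      (fld (γ t) γ J s)) =ᶠ[𝓝 t] fld x γ J := by
    filter_upwards [hev1, hev2] with s h1 h2
    exact (dch_comp h1 h2 (J s)).symm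
  refine ⟨?_, (hI.lin hR hR' hc.1 hV hc.2 hl).congr ec eV⟩
  exact (ode_contDiffAt_fderiv hI.self_of_nhds.1 hc.1 hV).congr_of_eventuallyEq eV.symm

theorem NoConj.noConjugatePoints {g : RM M} (h : NoConj g) : NoConjugatePoints g :=
  fun γ J hγ hJ => h γ J (isGeo_of_isGeodesic hγ) (isJac_of_isJacobiField hγ hJ)

theorem jacNear_chart {g : RM M} {γ : ℝ → M} {J : ℝ → E} (hγ : IsGeo g γ) (hJ : IsJac g γ J)
    {t : ℝ} {x : M} (hx : γ t ∈ (chartAt E x).source) :
    JacNear (metricInChart g x) (chartAt E x ∘ γ) (fld x γ J) t := by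
  filter_upwards [br2b_ev (hγ t).1 hx] with s hs
  exact ⟨((hγ s).2 x hs).1, ((hγ s).2 x hs).2, (hJ s x hs).1, (hJ s x hs).2⟩

/-- A Jacobi field vanishing near one parameter vanishes (the set of such parameters is open and,
by `JacNear.zero` in the chart at a limit point, closed). -/
theorem IsJac.zero {g : RM M} {γ : ℝ → M} {J : ℝ → E} (hγ : IsGeo g γ) (hJ : IsJac g γ J) {a : ℝ}
    (h : ∀ᶠ s in 𝓝 a, J s = 0) (t : ℝ) : J t = 0 := by
  have hop : IsOpen {s : ℝ | ∀ᶠ u in 𝓝 s, J u = 0} := isOpen_setOfPred_eventually_nhds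
  have hcl : IsClosed {s : ℝ | ∀ᶠ u in 𝓝 s, J u = 0} := by
    rw [← closure_subset_iff_isClosed]
    intro s hs
    have hx := mem_chart_source E (γ s)
    have hN := jacNear_chart hγ hJ hx
    set V := fld (γ s) γ J with hV
    have hVs : ContDiffAt ℝ ∞ V s := (hJ s _ hx).1
    have hfr : ∃ᶠ u in 𝓝 s, V u = 0 ∧ deriv V u = 0 := by
      refine (mem_closure_iff_frequently.1 hs).mono fun u hu => ?_
      have hu' : V =ᶠ[𝓝 u] fun _ => 0 := by
        filter_upwards [hu] with r hr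
        simp only [hV, fld, hr, map_zero]
      exact ⟨hu'.self_of_nhds, by rw [hu'.deriv_eq]; simp⟩
    have c0 : ContinuousAt V s := hVs.continuousAt
    have c1 : ContinuousAt (deriv V) s := by
      have h2 : ContDiffAt ℝ 0 (fderiv ℝ V) s := hVs.fderiv_right (by simp)
      have : deriv V = fun u => fderiv ℝ V u 1 := rfl
      rw [this]
      exact h2.continuousAt.clm_apply continuousAt_const
    have e0 : V s = 0 := tendsto_nhds_unique_of_frequently_eq c0.tendsto tendsto_const_nhds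
      (hfr.mono fun u hu => hu.1)
    have e1 : deriv V s = 0 := tendsto_nhds_unique_of_frequently_eq c1.tendsto tendsto_const_nhds
      (hfr.mono fun u hu => hu.2)
    have hz := JacNear.zero (riemAt_chart g ((chartAt E (γ s)).map_source hx)) hN e0 e1
    show ∀ᶠ u in 𝓝 s, J u = 0
    filter_upwards [hz, br2b_ev (hγ s).1 hx] with u hu hu'
    refine (dch_bijective hu').1 ?_
    rw [map_zero]
    exact hu
  have hall := (IsClopen.eq_univ ⟨hcl, hop⟩ ⟨a, h⟩)
  have ht : t ∈ {s : ℝ | ∀ᶠ u in 𝓝 s, J u = 0} := by rw [hall]; trivial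
  exact Eventually.self_of_nhds (p := fun u => J u = 0) ht

end Crest.Agent.R244
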