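import Crest.Agent.R244.Defs
/-!
# R244: spaces with the CN inequality (pure metric geometry), part A
`CN X`: every pair has a point `m` with `2 d(x,m)² + d(y,z)²/2 ≤ d(x,y)² + d(x,z)²` for all `x`.
Such an `m` is the unique midpoint; isometries preserve it; `d(m(a,b), m(a,d)) ≤ d(b,d)/2`
(apply CN for `(a,b)` at `m(a,d)` and CN for `(a,d)` at `b`).
-/

set_option autoImplicit false

open scoped ContDiff Manifold Topology
open Bundle Filter Set
open Crest.GeometryTopology.CoordMetric Crest.GeometryTopology.ChartCurvature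
  Crest.GeometryTopology.Geodesic

noncomputable section

namespace Crest.Agent.R244

/-- The Bruhat–Tits inequality. -/
def CN (X : Type*) [MetricSpace X] : Prop :=
  ∀ y z : X, ∃ m : X, ∀ x : X, 2 * dist x m ^ 2 + dist y z ^ 2 / 2 ≤ dist x y ^ 2 + dist x z ^ 2

/-- `m` is a CN midpoint of `y` and `z`. -/
def CatAMid {X : Type*} [MetricSpace X] (y z m : X) : Prop :=
  ∀ x : X, 2 * dist x m ^ 2 + dist y z ^ 2 / 2 ≤ dist x y ^ 2 + dist x z ^ 2

theorem CatAMid.symm {X : Type*} [MetricSpace X] {y z m : X} (h : CatAMid y z m) : CatAMid z y m :=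
  fun x => by rw [dist_comm z y, add_comm (dist x z ^ 2)]; exact h x

theorem CatAMid.smul {X Γ : Type*} [MetricSpace X] [Group Γ] [MulAction Γ X] [IsIsometricSMul Γ X]
    {y z m : X} (h : CatAMid y z m) (g : Γ) : CatAMid (g • y) (g • z) (g • m) := fun x => by
  have := h (g⁻¹ • x)
  rw [← smul_inv_smul g x]
  simpa only [dist_smul] using this

theorem CatAMid.le {X : Type*} [MetricSpace X] {a b d m m' : X} (h : CatAMid a b m)
    (h' : CatAMid a d m') : dist m m' ≤ dist b d / 2 := by
  have h1 := h m'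
  have h2 := h' b
  have h3 := h' a
  rw [dist_self] at h3
  rw [dist_comm m' m, dist_comm m' a, dist_comm m' b] at h1
  rw [dist_comm b a] at h2
  exact (le_abs_self _).trans (abs_le_of_sq_le_sq (by nlinarith) (by positivity))

/-- Quadrilateral inequality (CN at the midpoint of `x, z`, for `y` and for `w`). -/
theorem CN.quad {X : Type*} [MetricSpace X] (h : CN X) (x y z w : X) :
    dist x z ^ 2 + dist y w ^ 2 ≤ dist x y ^ 2 + dist y z ^ 2 + dist z w ^ 2 + dist w x ^ 2 := by
  obtain ⟨m, hm⟩ := h x z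
  have h1 := hm y
  have h2 := hm w
  have h3 := pow_le_pow_left₀ dist_nonneg (dist_triangle_right y w m) 2
  rw [dist_comm y x] at h1
  rw [dist_comm w z] at h2
  nlinarith [sq_nonneg (dist y m - dist w m)]

/-- One halving step: the midpoint of `y` and `f • y`. -/
theorem CN.exists_half {X Γ : Type*} [MetricSpace X] [Group Γ] [MulAction Γ X]
    [IsIsometricSMul Γ X] (h : CN X) (f : Γ) (y : X) :
    ∃ y' : X, dist y' (f • y') ≤ dist y ((f * f) • y) / 2 ∧
      ∀ g : Γ, Commute f g → dist y' (g • y') ≤ dist y (g • y) := by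
  obtain ⟨m, hm⟩ := h y (f • y)
  refine ⟨m, ?_, fun g hg => ?_⟩
  · rw [mul_smul]
    exact (CatAMid.symm hm).le (CatAMid.smul hm f)
  · obtain ⟨m', hm'⟩ := h y (f • g • y)
    have h1 := CatAMid.le hm hm'
    have h2 := CatAMid.smul hm g
    rw [← mul_smul g f, ← hg.eq, mul_smul] at h2
    have h3 := (CatAMid.symm hm').le h2.symm
    rw [dist_smul] at h1
    linarith [dist_triangle m m' (g • m)]

/-- Iterating with `f ^ 2 ^ (k-1), …, f`. -/
theorem CN.exists_dyadic {X Γ : Type*} [MetricSpace X] [Group Γ] [MulAction Γ X]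
    [IsIsometricSMul Γ X] (h : CN X) (f : Γ) (y : X) (k : ℕ) :
    ∃ y' : X, dist y' (f • y') ≤ dist y ((f ^ 2 ^ k) • y) / 2 ^ k ∧
      ∀ g : Γ, Commute f g → dist y' (g • y') ≤ dist y (g • y) := by
  induction k generalizing f with
  | zero => exact ⟨y, by simp, fun _ _ => le_rfl⟩
  | succ k ih =>
    obtain ⟨y₁, h1, h2⟩ := ih (f * f)
    obtain ⟨y₂, h3, h4⟩ := h.exists_half f y₁
    refine ⟨y₂, h3.trans ?_, fun g hg => (h4 g hg).trans (h2 g (hg.mul_left hg))⟩
    rw [← pow_two, ← pow_mul, ← pow_succ'] at h1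
    rw [pow_succ (2 : ℝ), ← div_div, ← pow_two]
    linarith

end Crest.Agent.R244
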