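import Crest.Agent.R244.CatA
/-!
# R244: stable translation length
`τ g = lim d(o, gⁿ o)/n` (Fekete: `Subadditive.tendsto_lim`), independent of the base point.
Parallelogram law: `CN.quad` for `o, gⁿ o, gⁿhⁿ o, hⁿ o` gives `≤`; applying `≤` to the commuting
pair `(g h, g⁻¹ h)` and `τ (g²) = 2 τ g`, `τ g⁻¹ = τ g` gives `≥`.
-/

set_option autoImplicit false

open scoped ContDiff Manifold Topology
open Bundle Filter Set
open Crest.GeometryTopology.CoordMetric Crest.GeometryTopology.ChartCurvature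
  Crest.GeometryTopology.Geodesic

noncomputable section

namespace Crest.Agent.R244

theorem exists_tau {X Γ : Type*} [MetricSpace X] [Group Γ] [MulAction Γ X] [IsIsometricSMul Γ X] :
    ∃ τ : Γ → ℝ, (∀ g, 0 ≤ τ g) ∧ (∀ (g : Γ) (y : X), τ g ≤ dist y (g • y)) ∧
      ∀ (g : Γ) (y : X), Tendsto (fun n : ℕ => dist y ((g ^ n) • y) / n) atTop (𝓝 (τ g)) := by
  rcases isEmpty_or_nonempty X with hX | ⟨⟨o⟩⟩
  · exact ⟨0, fun _ => le_rfl, fun _ y => isEmptyElim y, fun _ y => isEmptyElim y⟩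
  have hs : ∀ (g : Γ) (y : X), Subadditive fun n : ℕ => dist y ((g ^ n) • y) := fun g y m n => by
    dsimp only
    rw [pow_add, mul_smul, ← dist_smul (g ^ m) y ((g ^ n) • y)]
    exact dist_triangle _ _ _
  have ho : ∀ g : Γ, Tendsto (fun n : ℕ => dist o ((g ^ n) • o) / n) atTop (𝓝 (hs g o).lim) := fun g =>
    (hs g o).tendsto_lim ⟨0, by rintro _ ⟨n, rfl⟩; positivity⟩
  have hy : ∀ (g : Γ) (y : X),
      Tendsto (fun n : ℕ => dist y ((g ^ n) • y) / n) atTop (𝓝 (hs g o).lim) := fun g y => by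
    refine (ho g).congr_dist (squeeze_zero (fun _ => dist_nonneg) (fun n => ?_)
      (tendsto_const_div_atTop_nhds_zero_nat (2 * dist o y)))
    rw [Real.dist_eq, ← sub_div, abs_div, Nat.abs_cast, ← Real.dist_eq]
    refine div_le_div_of_nonneg_right ((dist_dist_dist_le _ _ _ _).trans ?_) n.cast_nonneg
    rw [dist_smul, two_mul]
  refine ⟨fun g => (hs g o).lim, fun g => ge_of_tendsto' (ho g) fun n => by positivity, fun g y => ?_, hy⟩
  have h1 : ∀ n : ℕ, dist y ((g ^ n) • y) ≤ n * dist y (g • y) := fun n => by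
    induction n with
    | zero => simp
    | succ n ih =>
      have := hs g y n 1
      simp only [pow_one] at this
      push_cast
      linarith
  exact le_of_tendsto' (hy g y) fun n => div_le_of_le_mul₀ n.cast_nonneg dist_nonneg
    ((h1 n).trans_eq (mul_comm _ _))

theorem tau_parallelogram {X Γ : Type*} [MetricSpace X] [Nonempty X] [Group Γ] [MulAction Γ X]
    [IsIsometricSMul Γ X] (h : CN X) {τ : Γ → ℝ}
    (hτ : ∀ (g : Γ) (y : X), Tendsto (fun n : ℕ => dist y ((g ^ n) • y) / n) atTop (𝓝 (τ g)))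
    {f g : Γ} (hc : Commute f g) :
    τ (f * g) ^ 2 + τ (f⁻¹ * g) ^ 2 = 2 * τ f ^ 2 + 2 * τ g ^ 2 := by
  obtain ⟨o⟩ := ‹Nonempty X›
  have hle : ∀ f g : Γ, Commute f g → τ (f * g) ^ 2 + τ (f⁻¹ * g) ^ 2 ≤ 2 * τ f ^ 2 + 2 * τ g ^ 2 := by
    intro f g hc
    refine le_of_tendsto_of_tendsto' (((hτ (f * g) o).pow 2).add ((hτ (f⁻¹ * g) o).pow 2))
      ((((hτ f o).pow 2).const_mul 2).add (((hτ g o).pow 2).const_mul 2)) fun n => ?_
    have h1 := h.quad o ((f ^ n) • o) ((f ^ n) • (g ^ n) • o) ((g ^ n) • o)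
    have e1 : dist ((f ^ n) • (g ^ n) • o) ((g ^ n) • o) = dist o ((f ^ n) • o) := by
      rw [← mul_smul, (hc.pow_pow n n).eq, mul_smul, dist_smul, dist_comm]
    have e2 : dist ((f ^ n) • o) ((g ^ n) • o) = dist o (((f⁻¹ * g) ^ n) • o) := by
      rw [hc.inv_left.mul_pow, mul_smul, inv_pow, ← dist_smul (f ^ n) o, smul_inv_smul]
    rw [e1, e2, dist_smul, dist_comm _ o, ← mul_smul, ← hc.mul_pow] at h1
    simp only [div_pow, ← mul_div_assoc, ← add_div]
    exact div_le_div_of_nonneg_right (by linarith) (by positivity)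
  have hsq : ∀ g : Γ, τ (g * g) = 2 * τ g := fun g => by
    refine tendsto_nhds_unique (hτ (g * g) o) ((((hτ g o).comp
      (tendsto_id.const_mul_atTop' two_pos)).const_mul 2).congr fun n => ?_)
    simp only [Function.comp, id, ← pow_two, ← pow_mul]
    push_cast
    rw [mul_div_assoc', mul_div_mul_left _ _ two_ne_zero]
  have hinv : ∀ g : Γ, τ g⁻¹ = τ g := fun g =>
    tendsto_nhds_unique (hτ g⁻¹ o) ((hτ g o).congr fun n => by
      rw [inv_pow, ← dist_smul (g ^ n) o ((g ^ n)⁻¹ • o), smul_inv_smul, dist_comm])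
  refine (hle f g hc).antisymm ?_
  have h1 := hle (f * g) (f⁻¹ * g) (((Commute.refl f).inv_right.mul_right hc).mul_left
    (hc.symm.inv_right.mul_right (Commute.refl g)))
  have e1 : f * g * (f⁻¹ * g) = g * g := by rw [hc.eq]; group
  have e2 : (f * g)⁻¹ * (f⁻¹ * g) = (f * f)⁻¹ := by
    rw [hc.inv_left.eq, hc.eq]; group
  rw [e1, e2, hinv, hsq, hsq] at h1
  linarith

/-- `τ(fⁿ g)²` is a quadratic polynomial in `n ∈ ℤ` (second differences are `2 τ(f)²`). -/
theorem tau_zpow {X Γ : Type*} [MetricSpace X] [Nonempty X] [Group Γ] [MulAction Γ X]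
    [IsIsometricSMul Γ X] (h : CN X) {τ : Γ → ℝ}
    (hτ : ∀ (g : Γ) (y : X), Tendsto (fun n : ℕ => dist y ((g ^ n) • y) / n) atTop (𝓝 (τ g)))
    {f g : Γ} (hc : Commute f g) (n : ℤ) :
    τ (f ^ n * g) ^ 2 =
      (n : ℝ) ^ 2 * τ f ^ 2 + n * (τ (f * g) ^ 2 - τ f ^ 2 - τ g ^ 2) + τ g ^ 2 := by
  have hs : ∀ n : ℤ, τ (f ^ (n + 1) * g) ^ 2 + τ (f ^ (n - 1) * g) ^ 2 =
      2 * τ f ^ 2 + 2 * τ (f ^ n * g) ^ 2 := fun n => by
    have := tau_parallelogram h hτ (((Commute.refl f).zpow_right n).mul_right hc)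
    rwa [← mul_assoc, ← mul_assoc, ← zpow_one_add, add_comm 1 n, ← zpow_neg_one, ← zpow_add,
      neg_add_eq_sub] at this
  have key : ∀ n : ℤ, τ (f ^ n * g) ^ 2 =
      (n : ℝ) ^ 2 * τ f ^ 2 + n * (τ (f * g) ^ 2 - τ f ^ 2 - τ g ^ 2) + τ g ^ 2 ∧ τ (f ^ (n + 1) * g) ^ 2 =
      ((n : ℝ) + 1) ^ 2 * τ f ^ 2 + (n + 1) * (τ (f * g) ^ 2 - τ f ^ 2 - τ g ^ 2) + τ g ^ 2 := by
    intro n
    induction n using Int.induction_on with
    | zero => exact ⟨by simp, by simp only [zero_add, zpow_one, Int.cast_zero]; ring⟩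
    | succ n ih =>
      have := hs (n + 1)
      rw [add_sub_cancel_right] at this
      push_cast at ih ⊢
      exact ⟨ih.2, by linear_combination this + 2 * ih.2 - ih.1⟩
    | pred n ih =>
      have := hs (-n)
      rw [sub_add_cancel]
      push_cast at ih ⊢
      exact ⟨by linear_combination this + 2 * ih.1 - ih.2, by linear_combination ih.1⟩
  exact (key n).1

/-- Almost-axes: points almost minimally displaced by `f`, without increasing the displacement of
the centraliser of `f`. -/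
theorem exists_almost_axis {X Γ : Type*} [MetricSpace X] [Group Γ] [MulAction Γ X]
    [IsIsometricSMul Γ X] (h : CN X) {τ : Γ → ℝ}
    (hτ : ∀ (g : Γ) (y : X), Tendsto (fun n : ℕ => dist y ((g ^ n) • y) / n) atTop (𝓝 (τ g)))
    (f : Γ) (o : X) {ε : ℝ} (hε : 0 < ε) :
    ∃ y : X, dist y (f • y) ≤ τ f + ε ∧ ∀ g : Γ, Commute f g → dist y (g • y) ≤ dist o (g • o) := by
  obtain ⟨k, hk⟩ := (((hτ f o).comp (tendsto_pow_atTop_atTop_of_one_lt (one_lt_two (α := ℕ)))).eventually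
    (gt_mem_nhds (lt_add_of_pos_right (τ f) hε))).exists
  obtain ⟨y, h1, h2⟩ := h.exists_dyadic f o k
  refine ⟨y, h1.trans ?_, h2⟩
  simpa using hk.le

end Crest.Agent.R244
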