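import Crest.Agent.R244.CatB
/-!
# R244: the obstruction
Put `β g = τ(f g)² - τ(f)² - τ(g)²` for `g` commuting with `f`.
`beta_mul`: for `y` from `exists_almost_axis` (so `ℓ = d(y, f y)`, `ℓ² ≤ τ(f)² + ε`) and `g` in the
centraliser, `φ n = d(y, fⁿ g y)²` has `φ (n+1) + φ (n-1) - 2 φ n ≤ 2 ℓ²` (`CN.quad` for
`y, f y, fⁿ⁺¹ g y, fⁿ g y`), and `φ n ≥ τ(fⁿ g)²`. So `ψ n = φ n - n² τ(f)² - n β g ≥ 0` has second
differences `≤ 2ε` and `ψ 0 ≤ C = d(o, g o)²`; `discrete_bound` gives `ψ n ≤ C + δ` for fixed `n`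
once `m` is large and `ε` small. Then
`τ(f²ⁿ g h)² ≤ (d(y, fⁿ g y) + d(y, fⁿ h y))² ≤ 2 φ_g n + 2 φ_h n` yields
`2 n (β (g h) - β g - β h) ≤ const` for all `n ∈ ℤ`.
-/

set_option autoImplicit false

open scoped ContDiff Manifold Topology
open Bundle Filter Set
open Crest.GeometryTopology.CoordMetric Crest.GeometryTopology.ChartCurvature
  Crest.GeometryTopology.Geodesic

noncomputable section

namespace Crest.Agent.R244

theorem CatC_nat {ψ : ℤ → ℝ} {ε : ℝ} (h0 : ∀ n, 0 ≤ ψ n)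
    (h2 : ∀ n, ψ (n + 1) + ψ (n - 1) - 2 * ψ n ≤ 2 * ε) (n : ℕ) {m : ℕ} (hm : 0 < m) :
    ψ n ≤ (1 + (n : ℝ) / m) * ψ 0 + ε * n * (n + m) := by
  set D : ℝ := ψ 1 - ψ 0 - ε with hD
  have up : ∀ k : ℕ, ψ (k + 1) - ψ k - ε * (2 * k + 1) ≤ D ∧ ψ k - ε * k ^ 2 ≤ ψ 0 + k * D := by
    intro k
    induction k with
    | zero => simp [hD]
    | succ k ih =>
      have := h2 (k + 1)
      rw [add_sub_cancel_right] at this
      push_cast
      constructor <;> nlinarith [ih.1, ih.2]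
  have down : ∀ k : ℕ, D ≤ ψ (-k + 1) - ψ (-k) - ε * (-2 * k + 1) ∧
      ψ (-k) - ε * k ^ 2 ≤ ψ 0 - k * D := by
    intro k
    induction k with
    | zero => simp [hD]
    | succ k ih =>
      have := h2 (-k)
      have e1 : (-((k + 1 : ℕ) : ℤ) + 1) = -k := by push_cast; ring
      have e2 : (-((k + 1 : ℕ) : ℤ)) = -k - 1 := by push_cast; ring
      rw [e1, e2]
      push_cast
      constructor <;> nlinarith [ih.1, ih.2]
  have hm' : (0 : ℝ) < m := by exact_mod_cast hm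
  have h3 : D ≤ ψ 0 / m + ε * m := by
    have h4 := (down m).2
    have h5 := h0 (-m)
    rw [div_add' _ _ _ hm'.ne', le_div_iff₀ hm']
    nlinarith
  have h6 := (up n).2
  have h7 : (n : ℝ) * D ≤ n * (ψ 0 / m + ε * m) := mul_le_mul_of_nonneg_left h3 (Nat.cast_nonneg _)
  have e : (1 + (n : ℝ) / m) * ψ 0 + ε * n * (n + m) =
      ψ 0 + n * (ψ 0 / m + ε * m) + ε * n ^ 2 := by ring
  rw [e]
  linarith

theorem discrete_bound {ψ : ℤ → ℝ} {ε : ℝ} (h0 : ∀ n, 0 ≤ ψ n)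
    (h2 : ∀ n, ψ (n + 1) + ψ (n - 1) - 2 * ψ n ≤ 2 * ε) (n : ℤ) {m : ℕ} (hm : 0 < m) :
    ψ n ≤ (1 + |(n : ℝ)| / m) * ψ 0 + ε * |(n : ℝ)| * (|(n : ℝ)| + m) := by
  obtain ⟨k, rfl | rfl⟩ := Int.eq_nat_or_neg n
  · simpa using CatC_nat h0 h2 k hm
  · have := CatC_nat (ψ := fun j => ψ (-j)) (ε := ε) (fun j => h0 _) (fun j => by
      have := h2 (-j)
      have e1 : -(j + 1) = -j - 1 := by ring
      have e2 : -(j - 1) = -j + 1 := by ring
      simp only [e1, e2]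
      linarith) k hm
    simpa using this

theorem CatC_key {X Γ : Type*} [MetricSpace X] [Nonempty X] [Group Γ] [MulAction Γ X]
    [IsIsometricSMul Γ X] (h : CN X) {τ : Γ → ℝ} (h0 : ∀ g, 0 ≤ τ g)
    (hle : ∀ (g : Γ) (y : X), τ g ≤ dist y (g • y))
    (hτ : ∀ (g : Γ) (y : X), Tendsto (fun n : ℕ => dist y ((g ^ n) • y) / n) atTop (𝓝 (τ g)))
    (f : Γ) (o : X) (n : ℤ) : ∃ y : X, ∀ g : Γ, Commute f g →
      dist y ((f ^ n * g) • y) ^ 2 ≤ (n : ℝ) ^ 2 * τ f ^ 2 +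
        n * (τ (f * g) ^ 2 - τ f ^ 2 - τ g ^ 2) + 2 * dist o (g • o) ^ 2 + 1 := by
  set N : ℝ := |(n : ℝ)| with hN
  have hN0 : 0 ≤ N := abs_nonneg _
  set m : ℕ := n.natAbs + 1 with hm
  have hmN : (m : ℝ) = N + 1 := by
    rw [hm, hN]; push_cast; rw [Nat.cast_natAbs, Int.cast_abs]
  set ε : ℝ := 1 / ((N + 1) * (N + m)) with hε
  have hpos : 0 < (N + 1) * (N + m) := by rw [hmN]; positivity
  have hε0 : 0 < ε := by positivity
  have hf := h0 f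
  set η : ℝ := min 1 (ε / (2 * τ f + 1)) with hη
  have hη0 : 0 < η := lt_min one_pos (by positivity)
  have hη1 : η ≤ 1 := min_le_left _ _
  have hη2 : η * (2 * τ f + 1) ≤ ε := by
    rw [← le_div_iff₀ (by positivity)]; exact min_le_right _ _
  obtain ⟨y, hy, hy'⟩ := exists_almost_axis h hτ f o hη0
  have hl : dist y (f • y) ^ 2 ≤ τ f ^ 2 + ε := by
    have : dist y (f • y) ^ 2 ≤ (τ f + η) ^ 2 := pow_le_pow_left₀ dist_nonneg hy 2
    nlinarith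
  refine ⟨y, fun g hc => ?_⟩
  set β := τ (f * g) ^ 2 - τ f ^ 2 - τ g ^ 2 with hβ
  have key := discrete_bound (ε := ε)
    (ψ := fun k : ℤ => dist y ((f ^ k * g) • y) ^ 2 - (k : ℝ) ^ 2 * τ f ^ 2 - k * β)
    (fun k => by
      have h1 := tau_zpow h hτ hc k
      have h2 : τ (f ^ k * g) ^ 2 ≤ dist y ((f ^ k * g) • y) ^ 2 :=
        pow_le_pow_left₀ (h0 _) (hle _ _) 2
      have h3 := sq_nonneg (τ g)
      rw [← hβ] at h1
      linarith)
    (fun k => by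
      have q := h.quad y (f • y) ((f ^ (k + 1) * g) • y) ((f ^ k * g) • y)
      have e1 : dist (f • y) ((f ^ k * g) • y) = dist y ((f ^ (k - 1) * g) • y) := by
        rw [← dist_smul f y, ← mul_smul, ← mul_assoc, ← zpow_one_add, add_sub_cancel]
      have e2 : dist (f • y) ((f ^ (k + 1) * g) • y) = dist y ((f ^ k * g) • y) := by
        rw [← dist_smul f y, ← mul_smul, ← mul_assoc, ← zpow_one_add, add_comm]
      have e3 : dist ((f ^ (k + 1) * g) • y) ((f ^ k * g) • y) = dist y (f • y) := by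
        rw [zpow_add_one, mul_assoc, hc.eq, ← mul_assoc, mul_smul, dist_smul, dist_comm]
      rw [e1, e2, e3, dist_comm ((f ^ k * g) • y) y] at q
      push_cast
      nlinarith) n (m := m) (Nat.succ_pos _)
  simp only [zpow_zero, one_mul, Int.cast_zero] at key
  rw [← hN] at key
  have h1 : dist y (g • y) ^ 2 ≤ dist o (g • o) ^ 2 := pow_le_pow_left₀ dist_nonneg (hy' g hc) 2
  have h2 : N / m ≤ 1 := by rw [hmN, div_le_one (by positivity)]; linarith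
  have h3 : ε * N * (N + m) ≤ 1 := by
    have : ε * ((N + 1) * (N + m)) = 1 := by rw [hε]; exact one_div_mul_cancel hpos.ne'
    have h4 : 0 ≤ ε * (N + m) := by positivity
    nlinarith
  have h4 : (1 + N / m) * dist y (g • y) ^ 2 ≤ 2 * dist o (g • o) ^ 2 :=
    mul_le_mul (by linarith) h1 (sq_nonneg _) (by norm_num)
  have e : dist y (g • y) ^ 2 - 0 ^ 2 * τ f ^ 2 - 0 * β = dist y (g • y) ^ 2 := by ring
  rw [e] at key
  linarith

theorem beta_mul {X Γ : Type*} [MetricSpace X] [Nonempty X] [Group Γ] [MulAction Γ X]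
    [IsIsometricSMul Γ X] (h : CN X) {τ : Γ → ℝ} (h0 : ∀ g, 0 ≤ τ g)
    (hle : ∀ (g : Γ) (y : X), τ g ≤ dist y (g • y))
    (hτ : ∀ (g : Γ) (y : X), Tendsto (fun n : ℕ => dist y ((g ^ n) • y) / n) atTop (𝓝 (τ g)))
    {f g g' : Γ} (hc : Commute f g) (hc' : Commute f g') :
    τ (f * (g * g')) ^ 2 - τ f ^ 2 - τ (g * g') ^ 2 =
      (τ (f * g) ^ 2 - τ f ^ 2 - τ g ^ 2) + (τ (f * g') ^ 2 - τ f ^ 2 - τ g' ^ 2) := by
  obtain ⟨o⟩ := ‹Nonempty X›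
  haveI : Nonempty X := ⟨o⟩
  set Δ := (τ (f * (g * g')) ^ 2 - τ f ^ 2 - τ (g * g') ^ 2) -
    ((τ (f * g) ^ 2 - τ f ^ 2 - τ g ^ 2) + (τ (f * g') ^ 2 - τ f ^ 2 - τ g' ^ 2)) with hΔ
  have key : ∀ n : ℤ, n * Δ ≤ 2 * dist o (g • o) ^ 2 + 2 * dist o (g' • o) ^ 2 + 2 := by
    intro n
    obtain ⟨y, hy⟩ := CatC_key h h0 hle hτ f o n
    have h1 := hy g hc
    have h2 := hy g' hc'
    have h3 := tau_zpow h hτ (hc.mul_right hc') (n + n)
    have e : f ^ (n + n) * (g * g') = (f ^ n * g) * (f ^ n * g') := by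
      rw [zpow_add, mul_assoc, mul_assoc, ← mul_assoc (f ^ n) g g', (hc.zpow_left n).eq,
        mul_assoc]
    have h4 : τ (f ^ (n + n) * (g * g')) ≤
        dist y ((f ^ n * g) • y) + dist y ((f ^ n * g') • y) := by
      refine (hle _ y).trans ?_
      rw [e, mul_smul]
      refine (dist_triangle _ ((f ^ n * g) • y) _).trans ?_
      rw [dist_smul]
    have h5 : τ (f ^ (n + n) * (g * g')) ^ 2 ≤
        (dist y ((f ^ n * g) • y) + dist y ((f ^ n * g') • y)) ^ 2 := pow_le_pow_left₀ (h0 _) h4 2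
    have h6 := sq_nonneg (dist y ((f ^ n * g) • y) - dist y ((f ^ n * g') • y))
    have h7 := sq_nonneg (τ (g * g'))
    push_cast at h3
    rw [hΔ]
    nlinarith
  have hz : Δ = 0 := by
    by_contra hne
    set K := 2 * dist o (g • o) ^ 2 + 2 * dist o (g' • o) ^ 2 + 2
    have hp : 0 < |Δ| := abs_pos.2 hne
    obtain ⟨k, hk⟩ := exists_nat_gt (K / |Δ|)
    rw [div_lt_iff₀ hp] at hk
    rcases abs_cases Δ with h1 | h1
    · have := key k
      push_cast at this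
      rw [h1.1] at hk
      linarith
    · have := key (-k)
      push_cast at this
      rw [h1.1] at hk
      linarith
  linarith

/-- `β` is additive on the centraliser, so it kills commutators: `β_{f₂}(f₁) = 0`, while
`β_{f₁}(f₂) = β_{f₁}(f₁) = 2 τ(f₁)² > 0` (`τ(f₁) ≥ δ` by `exists_almost_axis`), and
`β_{f₁}(f₂) = β_{f₂}(f₁)` as `f₁ f₂ = f₂ f₁`. -/
theorem cat_obstruction {X Γ : Type*} [MetricSpace X] [Nonempty X] [Group Γ] [MulAction Γ X]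
    [IsIsometricSMul Γ X] (h : CN X) {f₁ x₁ y₁ f₂ x₂ y₂ : Γ} (c₁ : Commute f₁ x₁)
    (c₂ : Commute f₁ y₁) (c₃ : Commute f₂ x₂) (c₄ : Commute f₂ y₂) 
    (r₁ : f₂ = f₁ * (x₁ * y₁ * x₁⁻¹ * y₁⁻¹))
    (r₂ : f₁ = x₂ * y₂ * x₂⁻¹ * y₂⁻¹) {δ : ℝ} (hδ : 0 < δ) (hd : ∀ y : X, δ ≤ dist y (f₁ • y)) : False := by
  obtain ⟨τ, h0, hle, hτ⟩ := exists_tau (X := X) (Γ := Γ)
  have one : τ 1 = 0 := by
    obtain ⟨o⟩ := ‹Nonempty X›
    have := hle 1 o
    rw [one_smul, dist_self] at this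
    exact le_antisymm this (h0 _)
  have comm : ∀ {f x y : Γ}, Commute f x → Commute f y →
      τ (f * (x * y * x⁻¹ * y⁻¹)) ^ 2 - τ f ^ 2 - τ (x * y * x⁻¹ * y⁻¹) ^ 2 = 0 := by
    intro f x y hx hy
    have a1 := beta_mul h h0 hle hτ ((hx.mul_right hy).mul_right hx.inv_right) hy.inv_right
    have a2 := beta_mul h h0 hle hτ (hx.mul_right hy) hx.inv_right
    have a3 := beta_mul h h0 hle hτ hx hy
    have a4 := beta_mul h h0 hle hτ hx hx.inv_right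
    have a5 := beta_mul h h0 hle hτ hy hy.inv_right
    rw [mul_inv_cancel, mul_one, one] at a4 a5
    linarith
  have cc : Commute f₁ (x₁ * y₁ * x₁⁻¹ * y₁⁻¹) :=
    ((c₁.mul_right c₂).mul_right c₁.inv_right).mul_right c₂.inv_right
  have c12 : Commute f₁ f₂ := r₁ ▸ (Commute.refl f₁).mul_right cc
  have b1 := beta_mul h h0 hle hτ (Commute.refl f₁) cc
  have b2 := comm c₁ c₂
  have b3 := comm c₃ c₄
  have b4 := tau_parallelogram h hτ (Commute.refl f₁)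
  rw [inv_mul_cancel, one] at b4
  rw [← r₂, ← c12.eq] at b3
  rw [← r₁] at b1 b2
  have b5 : τ f₁ ^ 2 = 0 := by linarith
  have b6 : τ f₁ = 0 := pow_eq_zero_iff two_ne_zero |>.1 b5
  obtain ⟨o⟩ := ‹Nonempty X›
  obtain ⟨y, hy, -⟩ := exists_almost_axis h hτ f₁ o (half_pos hδ)
  have := hd y
  linarith

theorem CatC_gen {X : Type*} [Nonempty X] (d : X → X → ℝ) (hsymm : ∀ x y, d x y = d y x)
    (htri : ∀ x y z, d x z ≤ d x y + d y z) (hzero : ∀ x y, d x y = 0 ↔ x = y)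
    (hcn : ∀ y z, ∃ m, ∀ x, 2 * d x m ^ 2 + d y z ^ 2 / 2 ≤ d x y ^ 2 + d x z ^ 2)
    (H : Subgroup (Equiv.Perm X)) (hiso : ∀ T ∈ H, ∀ x y, d (T x) (T y) = d x y)
    {f₁ x₁ y₁ f₂ x₂ y₂ : H} (c₁ : Commute f₁ x₁)
    (c₂ : Commute f₁ y₁) (c₃ : Commute f₂ x₂) (c₄ : Commute f₂ y₂)
    (r₁ : f₂ = f₁ * (x₁ * y₁ * x₁⁻¹ * y₁⁻¹))
    (r₂ : f₁ = x₂ * y₂ * x₂⁻¹ * y₂⁻¹) {δ : ℝ} (hδ : 0 < δ)
    (hd : ∀ y, δ ≤ d y ((f₁ : Equiv.Perm X) y)) : False := by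
  letI : MetricSpace X :=
    { dist := d
      dist_self := fun x => (hzero x x).2 rfl
      dist_comm := hsymm
      dist_triangle := htri
      eq_of_dist_eq_zero := fun {x y} hxy => (hzero x y).1 hxy }
  haveI : IsIsometricSMul H X := ⟨fun T => Isometry.of_dist_eq fun x y => hiso T T.2 x y⟩
  exact cat_obstruction (X := X) hcn c₁ c₂ c₃ c₄ r₁ r₂ hδ hd

/-- The same for an explicit distance function on `E` (use a type synonym of `E` carrying the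
metric `d` and the action of the subgroup). -/
theorem cat_obstruction' (d : E → E → ℝ) (hsymm : ∀ x y, d x y = d y x)
    (htri : ∀ x y z, d x z ≤ d x y + d y z) (hzero : ∀ x y, d x y = 0 ↔ x = y)
    (hcn : ∀ y z, ∃ m, ∀ x, 2 * d x m ^ 2 + d y z ^ 2 / 2 ≤ d x y ^ 2 + d x z ^ 2)
    (H : Subgroup (Equiv.Perm E)) (hiso : ∀ T ∈ H, ∀ x y, d (T x) (T y) = d x y)
    {f₁ x₁ y₁ f₂ x₂ y₂ : H} (c₁ : Commute f₁ x₁)
    (c₂ : Commute f₁ y₁) (c₃ : Commute f₂ x₂) (c₄ : Commute f₂ y₂) 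
    (r₁ : f₂ = f₁ * (x₁ * y₁ * x₁⁻¹ * y₁⁻¹))
    (r₂ : f₁ = x₂ * y₂ * x₂⁻¹ * y₂⁻¹) {δ : ℝ} (hδ : 0 < δ)
    (hd : ∀ y, δ ≤ d y ((f₁ : Equiv.Perm E) y)) : False := by
  exact CatC_gen d hsymm htri hzero hcn H hiso c₁ c₂ c₃ c₄ r₁ r₂ hδ hd

end Crest.Agent.R244
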