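import Crest.Agent.R244.Defs
/-!
# R244: basic coordinate facts about `Bil` and `Chr`
All statements are unfoldings of the definitions plus smoothness of matrix inversion
(`(G y)⁻¹ = (det)⁻¹ • adjugate`, entries are polynomials in the entries of `G y`).
-/

set_option autoImplicit false

open scoped ContDiff Manifold Topology
open Bundle Filter Set
open Crest.GeometryTopology.CoordMetric Crest.GeometryTopology.ChartCurvature
  Crest.GeometryTopology.Geodesic

noncomputable section

namespace Crest.Agent.R244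

theorem Bil_apply (G : MF) (x u v : E) : Bil G x u v = ∑ i, ∑ j, G x i j * u i * v j := by
  simp [Bil, mul_assoc]

theorem Chr_apply (G : MF) (x u v : E) (k : Fin 3) :
    Chr G x u v k = ∑ i, ∑ j, christoffel G x k i j * u i * v j := by
  simp [Chr, Pi.single_apply, mul_assoc]

theorem RiemAt.eventually {G : MF} {p : E} (h : RiemAt G p) : ∀ᶠ y in 𝓝 p, RiemAt G y := by
  exact eventually_eventually_nhds.2 h

theorem riemAt_of_on {G : MF} {U : Set E} (h : IsRiemannianOn G U) {p : E} (hp : p ∈ U) :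
    RiemAt G p := by
  filter_upwards [h.isOpen.mem_nhds hp] with y hy
  exact ⟨fun i j => (h.contDiffOn i j).contDiffAt (h.isOpen.mem_nhds hy), h.posDef y hy⟩

theorem RiemAt.congr {G G' : MF} {p : E} (h : RiemAt G p) (e : G =ᶠ[𝓝 p] G') : RiemAt G' p := by
  filter_upwards [h, e.eventuallyEq_nhds] with y hy ey
  exact ⟨fun i j => (hy.1 i j).congr_of_eventuallyEq (ey.mono fun z hz => by simp only [hz]),
    ey.eq_of_nhds ▸ hy.2⟩

theorem coord1_symm {A : Matrix (Fin 3) (Fin 3) ℝ} (h : A.PosDef) (i j : Fin 3) : A i j = A j i :=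
  (h.isHermitian.apply i j).symm

theorem RiemAt.symm {G : MF} {p : E} (h : RiemAt G p) (u v : E) : Bil G p u v = Bil G p v u := by
  rw [Bil_apply, Bil_apply, Finset.sum_comm]
  refine Finset.sum_congr rfl fun i _ => Finset.sum_congr rfl fun j _ => ?_
  rw [coord1_symm h.self_of_nhds.2 j i]
  ring

theorem RiemAt.pos {G : MF} {p : E} (h : RiemAt G p) {u : E} (hu : u ≠ 0) : 0 < Bil G p u u := by
  have := h.self_of_nhds.2.dotProduct_mulVec_pos (x := u.ofLp) fun e => hu (by ext i; exact congrFun e i)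
  rw [Bil_apply]
  refine this.trans_eq ?_
  simp only [dotProduct, Matrix.mulVec, Finset.mul_sum, star_trivial]
  exact Finset.sum_congr rfl fun i _ => Finset.sum_congr rfl fun j _ => by ring

theorem RiemAt.nonneg {G : MF} {p : E} (h : RiemAt G p) (u : E) : 0 ≤ Bil G p u u := by
  rcases eq_or_ne u 0 with rfl | hu
  · simp
  · exact (h.pos hu).le

/-- Cauchy–Schwarz. -/
theorem RiemAt.cs {G : MF} {p : E} (h : RiemAt G p) (u v : E) :
    Bil G p u v ^ 2 ≤ Bil G p u u * Bil G p v v := by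
  have := discrim_le_zero (a := Bil G p v v) (b := 2 * Bil G p u v) (c := Bil G p u u) fun t => by
    have := h.nonneg (u + t • v)
    simp only [map_add, map_smul, add_apply, smul_apply, smul_eq_mul, h.symm v u] at this
    linarith
  rw [discrim] at this
  linarith

/-- Non-degeneracy. -/
theorem RiemAt.ext {G : MF} {p : E} (h : RiemAt G p) {u v : E}
    (e : ∀ w, Bil G p u w = Bil G p v w) : u = v := by
  by_contra hne
  have := h.pos (sub_ne_zero.2 hne)
  rw [map_sub (Bil G p), sub_apply, e, sub_self] at this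
  exact lt_irrefl _ this

theorem coord1_smul {F : Type*} [NormedAddCommGroup F] [NormedSpace ℝ F] {f : E → ℝ} {p : E}
    (h : ContDiffAt ℝ ∞ f p) (c : F) : ContDiffAt ℝ ∞ (fun x => f x • c) p := h.smul_const c

theorem RiemAt.contDiffAt_bil {G : MF} {p : E} (h : RiemAt G p) : ContDiffAt ℝ ∞ (Bil G) p := by
  exact ContDiffAt.sum fun i _ => ContDiffAt.sum fun j _ => coord1_smul (h.self_of_nhds.1 i j) _

theorem RiemAt.contDiffAt_christoffel {G : MF} {p : E} (h : RiemAt G p) (k i j : Fin 3) :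
    ContDiffAt ℝ ∞ (fun x => christoffel G x k i j) p := by
  obtain ⟨hG, hp⟩ := h.self_of_nhds
  have hd : ∀ l i j, ContDiffAt ℝ ∞ (fun x => pderiv l (fun y => G y i j) x) p := fun l i j =>
    ((hG i j).fderiv_right (m := ∞) le_rfl).clm_apply contDiffAt_const
  have hdet : ∀ A : E → Matrix (Fin 3) (Fin 3) ℝ, (∀ i j, ContDiffAt ℝ ∞ (fun x => A x i j) p) →
      ContDiffAt ℝ ∞ (fun x => (A x).det) p := fun A hA => by
    simp only [Matrix.det_apply']
    exact ContDiffAt.sum fun σ _ => contDiffAt_const.mul (contDiffAt_prod fun i _ => hA _ _)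
  have hi : ∀ k l, ContDiffAt ℝ ∞ (fun x => inverseField G x k l) p := fun k l => by
    simp only [inverseField, Matrix.inv_def, Ring.inverse_eq_inv', Matrix.smul_apply, smul_eq_mul,
      Matrix.adjugate_apply]
    refine ((hdet G hG).inv hp.det_pos.ne').mul (hdet _ fun a b => ?_)
    simp only [Matrix.updateRow_apply]
    split_ifs
    · exact contDiffAt_const
    · exact hG a b
  exact contDiffAt_const.mul (ContDiffAt.sum fun l _ =>
    (hi k l).mul (((hd _ _ _).add (hd _ _ _)).sub (hd _ _ _)))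

theorem RiemAt.contDiffAt_chr {G : MF} {p : E} (h : RiemAt G p) : ContDiffAt ℝ ∞ (Chr G) p := by
  exact ContDiffAt.sum fun k _ => ContDiffAt.sum fun i _ => ContDiffAt.sum fun j _ =>
    coord1_smul (h.contDiffAt_christoffel k i j) _

theorem RiemAt.chr_symm {G : MF} {p : E} (h : RiemAt G p) (u v : E) :
    Chr G p u v = Chr G p v u := by
  ext k
  rw [Chr_apply, Chr_apply, Finset.sum_comm]
  refine Finset.sum_congr rfl fun i _ => Finset.sum_congr rfl fun j _ => ?_
  have : christoffel G p k j i = christoffel G p k i j := by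
    unfold christoffel
    refine congrArg _ (Finset.sum_congr rfl fun l _ => ?_)
    have e : pderiv l (fun y => G y j i) p = pderiv l (fun y => G y i j) p := by
      unfold pderiv
      rw [Filter.EventuallyEq.fderiv_eq (h.mono fun y hy => coord1_symm hy.2 j i)]
    rw [e, add_comm]
  rw [this]
  ring

/-- Local comparison with the Euclidean norm. -/
theorem RiemAt.exists_bounds {G : MF} {p : E} (h : RiemAt G p) :
    ∃ a > (0 : ℝ), ∃ A > (0 : ℝ), ∀ᶠ y in 𝓝 p, ∀ u : E,
      a * ‖u‖ ^ 2 ≤ Bil G y u u ∧ Bil G y u u ≤ A * ‖u‖ ^ 2 := by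
  obtain ⟨u₀, hu₀, hmin⟩ := (isCompact_sphere (0 : E) 1).exists_isMinOn (f := fun u => Bil G p u u)
    (NormedSpace.sphere_nonempty.2 zero_le_one) (by fun_prop)
  have ha : 0 < Bil G p u₀ u₀ := h.pos (ne_zero_of_mem_unit_sphere ⟨u₀, hu₀⟩)
  have hlo : ∀ u : E, Bil G p u₀ u₀ * ‖u‖ ^ 2 ≤ Bil G p u u := fun u => by
    rcases eq_or_ne u 0 with rfl | hu
    · simp
    have hn := norm_pos_iff.2 hu
    have : Bil G p u₀ u₀ ≤ Bil G p (‖u‖⁻¹ • u) (‖u‖⁻¹ • u) :=
      hmin (by simp [norm_smul, hn.ne'] : ‖u‖⁻¹ • u ∈ Metric.sphere (0 : E) 1)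
    simp only [map_smul, smul_apply, smul_eq_mul] at this
    rwa [le_inv_mul_iff₀ hn, le_inv_mul_iff₀ hn, ← mul_assoc, mul_comm, ← pow_two] at this
  refine ⟨Bil G p u₀ u₀ / 2, by positivity, ‖Bil G p‖ + Bil G p u₀ u₀ / 2, by positivity, ?_⟩
  filter_upwards [h.contDiffAt_bil.continuousAt.eventually (Metric.ball_mem_nhds _ (half_pos ha))] with y hy u
  rw [dist_eq_norm] at hy
  have h1 := (Bil G y - Bil G p).le_opNorm₂ u u
  have h2 := (Bil G p).le_opNorm₂ u u
  rw [sub_apply, sub_apply, Real.norm_eq_abs, mul_assoc, ← pow_two] at h1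
  rw [Real.norm_eq_abs, mul_assoc, ← pow_two] at h2
  have h3 := abs_le.1 (h1.trans (mul_le_mul_of_nonneg_right hy.le (sq_nonneg _)))
  have h4 := le_of_abs_le h2
  have h5 := hlo u
  constructor <;> linarith [h3.1, h3.2]

theorem Chr_congr {G G' : MF} {p : E} (e : G =ᶠ[𝓝 p] G') : Chr G =ᶠ[𝓝 p] Chr G' := by
  filter_upwards [e.eventuallyEq_nhds] with y ey
  have h1 : ∀ l i j, pderiv l (fun z => G z i j) y = pderiv l (fun z => G' z i j) y := fun l i j => by
    unfold pderiv
    rw [Filter.EventuallyEq.fderiv_eq (ey.mono fun z hz => congrFun (congrFun hz i) j)]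
  simp only [Chr, christoffel, inverseField, h1, ey.eq_of_nhds]

theorem Chr_const (A : Matrix (Fin 3) (Fin 3) ℝ) : Chr (fun _ => A) = fun _ => 0 := by
  funext x
  ext u v k
  simp [Chr_apply, christoffel, pderiv]

theorem geodesicEqAt_iff (G : MF) (c : ℝ → E) (t : ℝ) : GeodesicEqAt G c t ↔ Geo G c t := by
  simp only [GeodesicEqAt, Geo, ← Chr_apply]
  exact ⟨fun h => by ext k; exact h k, fun h k => congrArg (fun v : E => v k) h⟩

theorem covDeriv_eq (G : MF) (c V : ℝ → E) : covDeriv G c V = cov G c V := by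
  funext t
  ext k
  simp only [covDeriv, cov, ← Chr_apply]
  rfl

theorem Geo.congr {G : MF} {c c' : ℝ → E} {t : ℝ} (h : Geo G c t) (e : c =ᶠ[𝓝 t] c') :
    Geo G c' t := by
  unfold Geo at h ⊢
  rwa [← e.deriv.deriv_eq, ← e.deriv_eq, ← e.eq_of_nhds]

theorem Lin.congr {G : MF} {c c' V V' : ℝ → E} {t : ℝ} (h : Lin G c V t) (e : c =ᶠ[𝓝 t] c')
    (e' : V =ᶠ[𝓝 t] V') : Lin G c' V' t := by
  unfold Lin at h ⊢
  rwa [← e'.deriv.deriv_eq, ← e.deriv_eq, ← e'.deriv_eq, ← e.eq_of_nhds, ← e'.eq_of_nhds]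

/-- Affine reparametrisation of geodesics. -/
theorem Geo.comp_affine {G : MF} {c : ℝ → E} {a b t : ℝ} (hc : ContDiffAt ℝ ∞ c (a * t + b))
    (h : Geo G c (a * t + b)) : Geo G (fun s => c (a * s + b)) t := by
  have h1 : ∀ c : ℝ → E, deriv (fun s => c (a * s + b)) = fun s => a • deriv c (a * s + b) := fun c => by
    funext s
    rw [deriv_comp_mul_left a fun s => c (s + b), deriv_comp_add_const]
  unfold Geo at h ⊢
  rw [h1, deriv_fun_const_smul_field, h1]
  simp only [map_smul, smul_apply, ← smul_add, h, smul_zero]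

end Crest.Agent.R244
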