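import Crest.Agent.R244.Coord1
/-!
# R244: Koszul formula, compatibility, curvature as a multilinear expression
`koszul`: multiply the definition of `christoffel` by `G p` (invertible, symmetric) and note
`fderiv (Bil G) p u v w = Σ pderiv l (G · i j) p * u l * v i * w j`.
`compat` = `koszul u v w + koszul u w v` (use symmetry of `Bil G y` for `y` near `p`).
-/

set_option autoImplicit false

open scoped ContDiff Manifold Topology
open Bundle Filter Set
open Crest.GeometryTopology.CoordMetric Crest.GeometryTopology.ChartCurvature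
  Crest.GeometryTopology.Geodesic

noncomputable section

namespace Crest.Agent.R244

theorem coord2_fderiv_apply2 {F : Type*} [NormedAddCommGroup F] [NormedSpace ℝ F]
    {B : E → E →L[ℝ] E →L[ℝ] F} {p : E} (hB : DifferentiableAt ℝ B p) (u v w : E) :
    fderiv ℝ B p u v w = fderiv ℝ (fun y => B y v w) p u := by
  have h1 := hB.hasFDerivAt.clm_apply (hasFDerivAt_const v p)
  have h2 := h1.clm_apply (hasFDerivAt_const w p)
  rw [h2.fderiv]
  simp

theorem coord2_fderiv_pderiv (f : E → ℝ) (p u : E) :
    fderiv ℝ f p u = ∑ l, pderiv l f p * u l := by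
  have hu : u = ∑ l, u l • (EuclideanSpace.single l (1 : ℝ) : E) := by
    ext k
    simp [Fin.sum_univ_three]
    fin_cases k <;> simp
  conv_lhs => rw [hu]
  rw [map_sum]
  refine Finset.sum_congr rfl fun l _ => ?_
  rw [map_smul, smul_eq_mul, mul_comm]
  rfl

theorem coord2_fderiv_sum {a : E → Fin 3 → Fin 3 → ℝ} {p : E}
    (ha : ∀ i j, DifferentiableAt ℝ (fun y => a y i j) p) (u v w : E) :
    fderiv ℝ (fun y => ∑ i, ∑ j, a y i j * v i * w j) p u =
      ∑ l, ∑ i, ∑ j, pderiv l (fun y => a y i j) p * u l * v i * w j := by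
  have h : HasFDerivAt (fun y => ∑ i, ∑ j, a y i j * v i * w j)
      (∑ i, ∑ j, (v i * w j) • fderiv ℝ (fun y => a y i j) p) p := by
    refine HasFDerivAt.fun_sum fun i _ => HasFDerivAt.fun_sum fun j _ => ?_
    have := ((ha i j).hasFDerivAt).const_smul (v i * w j)
    convert this using 1
    ext y
    simp only [Pi.smul_apply, smul_eq_mul]
    ring
  rw [h.fderiv]
  simp only [_root_.sum_apply, _root_.smul_apply, smul_eq_mul, coord2_fderiv_pderiv]
  simp only [Fin.sum_univ_three]
  ring

theorem RiemAt.coord2_diff {G : MF} {p : E} (h : RiemAt G p) (i j : Fin 3) :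
    DifferentiableAt ℝ (fun y => G y i j) p :=
  (h.self_of_nhds.1 i j).differentiableAt (by simp)

theorem RiemAt.fderiv_bil_apply {G : MF} {p : E} (h : RiemAt G p) (u v w : E) :
    fderiv ℝ (Bil G) p u v w = ∑ l, ∑ i, ∑ j, pderiv l (fun y => G y i j) p * u l * v i * w j := by
  rw [coord2_fderiv_apply2 (h.contDiffAt_bil.differentiableAt (by simp))]
  simp only [Bil_apply]
  exact coord2_fderiv_sum (a := fun y i j => G y i j) h.coord2_diff u v w

theorem RiemAt.fderiv_bil_symm {G : MF} {p : E} (h : RiemAt G p) (u v w : E) :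
    fderiv ℝ (Bil G) p u v w = fderiv ℝ (Bil G) p u w v := by
  rw [coord2_fderiv_apply2 (h.contDiffAt_bil.differentiableAt (by simp)),
    coord2_fderiv_apply2 (h.contDiffAt_bil.differentiableAt (by simp))]
  have e : (fun y => Bil G y v w) =ᶠ[𝓝 p] fun y => Bil G y w v :=
    h.eventually.mono fun y hy => hy.symm v w
  rw [e.fderiv_eq]

theorem RiemAt.koszul {G : MF} {p : E} (h : RiemAt G p) (u v w : E) :
    2 * Bil G p (Chr G p u v) w =
      fderiv ℝ (Bil G) p u v w + fderiv ℝ (Bil G) p v u w - fderiv ℝ (Bil G) p w u v := by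
  have hpd : (G p).PosDef := h.self_of_nhds.2
  have hsym : ∀ i j, G p i j = G p j i := fun i j => by
    have := hpd.isHermitian.apply j i
    simpa using this
  have hinv : G p * (G p)⁻¹ = 1 :=
    Matrix.mul_nonsing_inv _ (isUnit_iff_ne_zero.mpr hpd.det_pos.ne')
  -- lowering the index
  have low : ∀ m i j, 2 * ∑ k, G p k m * christoffel G p k i j =
      pderiv i (fun y => G y j m) p + pderiv j (fun y => G y i m) p -
        pderiv m (fun y => G y i j) p := by
    intro m i j
    have e1 : ∀ l, ∑ k, G p k m * (G p)⁻¹ k l = if m = l then 1 else 0 := by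
      intro l
      have := congrFun (congrFun hinv m) l
      rw [Matrix.mul_apply, Matrix.one_apply] at this
      rw [← this]
      exact Finset.sum_congr rfl fun k _ => by rw [hsym k m]
    have e2 : 2 * ∑ k, G p k m * christoffel G p k i j =
        ∑ l, (∑ k, G p k m * (G p)⁻¹ k l) * (pderiv i (fun y => G y j l) p +
          pderiv j (fun y => G y i l) p - pderiv l (fun y => G y i j) p) := by
      simp only [christoffel, inverseField, Fin.sum_univ_three]
      ring
    rw [e2]
    simp only [e1, ite_mul, one_mul, zero_mul, Finset.sum_ite_eq, Finset.mem_univ, if_true]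
  have e3 : 2 * Bil G p (Chr G p u v) w =
      ∑ m, ∑ i, ∑ j, (2 * ∑ k, G p k m * christoffel G p k i j) * u i * v j * w m := by
    simp only [Bil_apply, Chr_apply, Fin.sum_univ_three]
    ring
  rw [e3, h.fderiv_bil_apply, h.fderiv_bil_apply, h.fderiv_bil_apply]
  simp only [low]
  simp only [Fin.sum_univ_three]
  ring

theorem RiemAt.compat {G : MF} {p : E} (h : RiemAt G p) (u v w : E) :
    fderiv ℝ (Bil G) p u v w = Bil G p (Chr G p u v) w + Bil G p v (Chr G p u w) := by
  have h1 := h.koszul u v w
  have h2 := h.koszul u w v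
  have h3 := h.symm v (Chr G p u w)
  have h4 := h.fderiv_bil_symm u v w
  have h5 := h.fderiv_bil_symm v u w
  have h6 := h.fderiv_bil_symm w u v
  linarith

theorem RiemAt.fderiv_chr_apply {G : MF} {p : E} (h : RiemAt G p) (u v w : E) (k : Fin 3) :
    fderiv ℝ (Chr G) p u v w k =
      ∑ l, ∑ i, ∑ j, pderiv l (fun y => christoffel G y k i j) p * u l * v i * w j := by
  have hd : DifferentiableAt ℝ (Chr G) p := h.contDiffAt_chr.differentiableAt (by simp)
  rw [coord2_fderiv_apply2 hd]
  have hd2 : DifferentiableAt ℝ (fun y => Chr G y v w) p :=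
    (hd.clm_apply (differentiableAt_const v)).clm_apply (differentiableAt_const w)
  have h1 := ((EuclideanSpace.proj k : E →L[ℝ] ℝ).hasFDerivAt.comp p hd2.hasFDerivAt).fderiv
  have e : ((EuclideanSpace.proj k : E →L[ℝ] ℝ) ∘ fun y => Chr G y v w) =
      fun y => ∑ i, ∑ j, christoffel G y k i j * v i * w j := by
    ext y
    exact Chr_apply G y v w k
  rw [e] at h1
  have h2 := coord2_fderiv_sum (a := fun y i j => christoffel G y k i j)
    (fun i j => (h.contDiffAt_christoffel k i j).differentiableAt (by simp)) u v w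
  rw [h1] at h2
  exact h2

theorem RiemAt.fderiv_chr_symm {G : MF} {p : E} (h : RiemAt G p) (u v w : E) :
    fderiv ℝ (Chr G) p u v w = fderiv ℝ (Chr G) p u w v := by
  have hd : DifferentiableAt ℝ (Chr G) p := h.contDiffAt_chr.differentiableAt (by simp)
  rw [coord2_fderiv_apply2 hd, coord2_fderiv_apply2 hd]
  have e : (fun y => Chr G y v w) =ᶠ[𝓝 p] fun y => Chr G y w v :=
    h.eventually.mono fun y hy => hy.chr_symm v w
  rw [e.fderiv_eq]

/-- `R(u, w) v` in terms of `Chr`. -/
def curv (G : MF) (p u w v : E) : E :=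
  fderiv ℝ (Chr G) p u w v - fderiv ℝ (Chr G) p w u v + Chr G p u (Chr G p w v) -
    Chr G p w (Chr G p u v)

theorem RiemAt.riemann_sum {G : MF} {p : E} (h : RiemAt G p) (u w v : E) (l : Fin 3) :
    ∑ k, ∑ i, ∑ j, riemann G p l k i j * v k * u i * w j = curv G p u w v l := by
  simp only [curv, PiLp.sub_apply, PiLp.add_apply, h.fderiv_chr_apply, Chr_apply, riemann,
    Fin.sum_univ_three]
  ring

theorem RiemAt.secNumer_eq {G : MF} {p : E} (h : RiemAt G p) (u v : E) :
    secNumer G p u v = Bil G p (curv G p u v v) u := by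
  simp only [secNumer, h.riemann_sum, Bil_apply]

/-- Product rule along a curve. -/
theorem RiemAt.hasDerivAt_bil {G : MF} {c V W : ℝ → E} {t : ℝ} (h : RiemAt G (c t))
    (hc : DifferentiableAt ℝ c t) (hV : DifferentiableAt ℝ V t) (hW : DifferentiableAt ℝ W t) :
    HasDerivAt (fun s => Bil G (c s) (V s) (W s))
      (Bil G (c t) (cov G c V t) (W t) + Bil G (c t) (V t) (cov G c W t)) t := by
  have hd : DifferentiableAt ℝ (Bil G) (c t) := h.contDiffAt_bil.differentiableAt (by simp)
  have h1 : HasDerivAt (fun s => Bil G (c s)) (fderiv ℝ (Bil G) (c t) (deriv c t)) t :=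
    HasFDerivAt.comp_hasDerivAt (F := E) (E := E →L[ℝ] E →L[ℝ] ℝ) t hd.hasFDerivAt hc.hasDerivAt
  have h2 := (h1.clm_apply hV.hasDerivAt).clm_apply hW.hasDerivAt
  refine h2.congr_deriv ?_
  simp only [cov, map_add, _root_.add_apply, h.compat]
  ring

end Crest.Agent.R244
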