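import Crest.Agent.R244.Defs
/-!
# R244: two topological lemmas on local homeomorphisms
-/

set_option autoImplicit false

open scoped ContDiff Manifold Topology
open Bundle Filter Set
open Crest.GeometryTopology.CoordMetric Crest.GeometryTopology.ChartCurvature
  Crest.GeometryTopology.Geodesic

noncomputable section

namespace Crest.Agent.R244

/-- A path lifts through a local homeomorphism if all its partial lifts stay in a compact set.
Let `s*` be the supremum of the `s` with a lift on `[0,s]` (lifts are unique: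
`IsLocalHomeomorph.isLocallyInjective`, `T2Space.isSeparatedMap`, `IsSeparatedMap.eqOn_of_comp_eqOn`);
endpoints of lifts accumulate at `v ∈ K` over `σ s*`; continue with the local inverse at `v`. -/
theorem exists_lift_of_confined {X Y : Type*} [TopologicalSpace X] [TopologicalSpace Y] [T2Space X]
    [T2Space Y] {f : X → Y} (hf : IsLocalHomeomorph f) {σ : ℝ → Y} (hσ : ContinuousOn σ (Icc 0 1))
    {e : X} (he : f e = σ 0) {K : Set X} (hK : IsCompact K)
    (hconf : ∀ s ∈ Icc (0 : ℝ) 1, ∀ ρ : ℝ → X, ContinuousOn ρ (Icc 0 s) → ρ 0 = e →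
      (∀ u ∈ Icc 0 s, f (ρ u) = σ u) → ρ s ∈ K) :
    ∃ ρ : ℝ → X, ContinuousOn ρ (Icc 0 1) ∧ ρ 0 = e ∧ ∀ u ∈ Icc (0 : ℝ) 1, f (ρ u) = σ u := by
  classical
  set A : Set ℝ := {s | s ∈ Icc (0 : ℝ) 1 ∧ ∃ ρ : ℝ → X, ContinuousOn ρ (Icc 0 s) ∧ ρ 0 = e ∧
    ∀ u ∈ Icc 0 s, f (ρ u) = σ u} with hA
  have h0 : (0 : ℝ) ∈ A := by
    refine ⟨⟨le_rfl, zero_le_one⟩, fun _ => e, continuousOn_const, rfl, fun u hu => ?_⟩
    have : u = 0 := le_antisymm hu.2 hu.1
    rw [this, he]
  have hne : A.Nonempty := ⟨0, h0⟩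
  have hbd : BddAbove A := ⟨1, fun s hs => hs.1.2⟩
  set t := sSup A with ht
  have ht0 : 0 ≤ t := le_csSup hbd h0
  have ht1 : t ≤ 1 := csSup_le hne fun s hs => hs.1.2
  obtain ⟨s, -, hst, hsA⟩ := exists_seq_tendsto_sSup hne hbd
  choose ρ hρc hρ0 hρf using fun n => (hsA n).2
  have hxK : ∀ n, ρ n (s n) ∈ K := fun n => hconf _ (hsA n).1 _ (hρc n) (hρ0 n) (hρf n)
  obtain ⟨v, -, hv⟩ := hK.exists_clusterPt (f := map (fun n => ρ n (s n)) atTop)
    (le_principal_iff.2 (mem_map.2 (Eventually.of_forall hxK)))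
  have hσt : Tendsto (fun n => σ (s n)) atTop (𝓝 (σ t)) :=
    (hσ t ⟨ht0, ht1⟩).tendsto.comp
      (tendsto_nhdsWithin_iff.2 ⟨hst, Eventually.of_forall fun n => (hsA n).1⟩)
  have hfv : f v = σ t := by
    have h1 : ClusterPt (f v) (𝓝 (σ t)) := by
      refine hv.map hf.continuous.continuousAt ?_
      rw [tendsto_map'_iff]
      refine hσt.congr fun n => ?_
      exact (hρf n (s n) ⟨(hsA n).1.1, le_rfl⟩).symm
    exact eq_of_nhds_neBot h1
  obtain ⟨φ, hvφ, hφ⟩ := hf v
  have htgt : σ t ∈ φ.target := by rw [← hfv, hφ]; exact φ.map_source hvφ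
  have hnb : ∀ᶠ u in 𝓝[Icc 0 1] t, σ u ∈ φ.target :=
    (hσ t ⟨ht0, ht1⟩).tendsto.eventually (φ.open_target.mem_nhds htgt)
  obtain ⟨δ, hδ, hδσ⟩ := Metric.mem_nhdsWithin_iff.1 hnb
  have hfr : ∃ᶠ n in atTop, ρ n (s n) ∈ φ.source := by
    have := hv.frequently (p := fun x => x ∈ φ.source) (φ.open_source.mem_nhds hvφ)
    exact (frequently_map).1 this
  obtain ⟨n, hn1, hn2⟩ := (hfr.and_eventually
    (hst.eventually (Metric.ball_mem_nhds t hδ))).exists
  have hsn : s n ≤ t := le_csSup hbd (hsA n)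
  have hn3 : t - δ < s n := by
    have := Metric.mem_ball.1 hn2
    rw [Real.dist_eq, abs_lt] at this
    linarith [this.1]
  set s' := min 1 (t + δ / 2) with hs'
  have hs'1 : s' ≤ 1 := min_le_left _ _
  have hs'2 : s' ≤ t + δ / 2 := min_le_right _ _
  have hts' : t ≤ s' := le_min ht1 (by linarith)
  have hmem : ∀ u ∈ Icc (s n) s', σ u ∈ φ.target := by
    intro u hu
    refine hδσ ⟨?_, (hsA n).1.1.trans hu.1, hu.2.trans hs'1⟩
    rw [Metric.mem_ball, Real.dist_eq, abs_lt]
    constructor <;> linarith [hu.1, hu.2]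
  have hs'A : s' ∈ A := by
    refine ⟨⟨ht0.trans hts', hs'1⟩, fun u => if u ≤ s n then ρ n u else φ.symm (σ u), ?_, ?_, ?_⟩
    · rw [← Icc_union_Icc_eq_Icc (hsA n).1.1 (hsn.trans hts')]
      refine ContinuousOn.union_of_isClosed ?_ ?_ isClosed_Icc isClosed_Icc
      · exact (hρc n).congr fun u hu => by simp only [hu.2, if_true]
      · have h2 : ContinuousOn (fun u => φ.symm (σ u)) (Icc (s n) s') :=
          φ.continuousOn_symm.comp
            (hσ.mono (Icc_subset_Icc (hsA n).1.1 hs'1)) hmem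
        refine h2.congr fun u hu => ?_
        by_cases h : u ≤ s n
        · have hu' : u = s n := le_antisymm h hu.1
          simp only [h, if_true]
          rw [hu', ← hρf n (s n) ⟨(hsA n).1.1, le_rfl⟩, hφ, φ.left_inv hn1]
        · simp only [h, if_false]
    · simp only [(hsA n).1.1, if_true, hρ0]
    · intro u hu
      by_cases h : u ≤ s n
      · simp only [h, if_true]
        exact hρf n u ⟨hu.1, h⟩
      · simp only [h, if_false]
        rw [hφ]
        exact φ.right_inv (hmem u ⟨(not_le.1 h).le, hu.2⟩)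
  have hle : s' ≤ t := le_csSup hbd hs'A
  have h1 : s' = 1 := by
    rcases min_choice 1 (t + δ / 2) with h | h
    · exact h
    · rw [← hs'] at h; linarith
  rw [h1] at hs'A
  exact hs'A.2

theorem coverb_fst_isLocalHomeomorph {U F : Type*} [TopologicalSpace U] [TopologicalSpace F]
    [DiscreteTopology F] : IsLocalHomeomorph (Prod.fst : U × F → U) := by
  refine IsLocalHomeomorph.mk _ fun x => ⟨?_, ?_, ?_⟩
  · exact
    { toFun := Prod.fst
      invFun := fun y => (y, x.2)
      source := univ ×ˢ {x.2}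
      target := univ
      map_source' := fun _ _ => mem_univ _
      map_target' := fun _ _ => ⟨mem_univ _, rfl⟩
      left_inv' := fun p hp => Prod.ext rfl (show x.2 = p.2 from hp.2.symm)
      right_inv' := fun _ _ => rfl
      open_source := isOpen_univ.prod (isOpen_discrete _)
      open_target := isOpen_univ
      continuousOn_toFun := continuous_fst.continuousOn
      continuousOn_invFun := (continuous_id.prodMk continuous_const).continuousOn }
  · exact ⟨mem_univ _, rfl⟩
  · exact fun _ _ => rfl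

/-- A local homeomorphism along which straight segments of chart balls lift is a covering map.
Over `V = (chartAt q).symm '' ball`, each `e ∈ f ⁻¹ {q}` gives a section `b ↦` endpoint of the lift
of the radial segment from the centre to `b` (continuous by `IsLocalHomeomorph.continuous_lift`);
reversing segments, the images of the sections cover `f ⁻¹ V`, are disjoint by uniqueness of
lifts, and are open; finish with `IsOpen.trivializationDiscrete` or `IsEvenlyCovered.of_…`. -/
theorem isCoveringMap_of_segment_lifts {X Y : Type*} [TopologicalSpace X] [TopologicalSpace Y]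
    [T2Space X] [ChartedSpace E Y] {f : X → Y} (hf : IsLocalHomeomorph f)
    (h : ∀ q : Y, ∃ r > (0 : ℝ), Metric.ball (chartAt E q q) r ⊆ (chartAt E q).target ∧
      ∀ a ∈ Metric.ball (chartAt E q q) r, ∀ b ∈ Metric.ball (chartAt E q q) r, ∀ e : X,
        f e = (chartAt E q).symm a → ∃ ρ : ℝ → X, ContinuousOn ρ (Icc 0 1) ∧ ρ 0 = e ∧
          ∀ u ∈ Icc (0 : ℝ) 1, f (ρ u) = (chartAt E q).symm (a + u • (b - a))) :
    IsCoveringMap f := by
  intro q
  obtain ⟨r, hr, hsub, hl⟩ := h q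
  set c := chartAt E q with hc
  set a := c q with ha
  have hqs : q ∈ c.source := mem_chart_source E q
  have hqa : c.symm a = q := c.left_inv hqs
  have haB : a ∈ Metric.ball a r := Metric.mem_ball_self hr
  have sep : IsSeparatedMap f := T2Space.isSeparatedMap f
  have hdisc : DiscreteTopology (f ⁻¹' {q}) :=
    (IsDiscrete.of_openPartialHomeomorph f subset_rfl fun e _ => by
      obtain ⟨φ, h1, h2⟩ := hf e
      exact ⟨φ, h1, h2.symm⟩).1
  set U : Set Y := c.source ∩ c ⁻¹' Metric.ball a r with hU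
  have hUo : IsOpen U := c.isOpen_inter_preimage Metric.isOpen_ball
  have hqU : q ∈ U := ⟨hqs, haB⟩
  have hex : ∀ p : U × (f ⁻¹' {q}), ∃ ρ : ℝ → X, ContinuousOn ρ (Icc 0 1) ∧ ρ 0 = p.2 ∧
      ∀ u ∈ Icc (0 : ℝ) 1, f (ρ u) = c.symm (a + u • (c p.1 - a)) := fun p =>
    hl a haB (c p.1) p.1.2.2 p.2 (by rw [hqa]; exact p.2.2)
  choose Γ hΓc hΓ0 hΓf using hex
  have hseg : ∀ b ∈ Metric.ball a r, ∀ u ∈ Icc (0 : ℝ) 1, a + u • (b - a) ∈ Metric.ball a r :=
    fun b hb u hu => (convex_ball a r).add_smul_sub_mem haB hb hu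
  have hcU : Continuous fun y : U => c y :=
    c.continuousOn.comp_continuous continuous_subtype_val fun y => y.2.1
  let P : C(unitInterval × (U × (f ⁻¹' {q})), Y) :=
    ⟨fun z => c.symm (a + (z.1 : ℝ) • (c z.2.1 - a)), by
      refine c.continuousOn_symm.comp_continuous ?_ fun z => hsub (hseg _ z.2.1.2.2 _ z.1.2)
      exact continuous_const.add ((continuous_subtype_val.comp continuous_fst).smul
        ((hcU.comp (continuous_fst.comp continuous_snd)).sub continuous_const))⟩
  have hG : Continuous fun z : unitInterval × (U × (f ⁻¹' {q})) => Γ z.2 z.1 := by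
    refine hf.continuous_lift sep P (funext fun z => hΓf z.2 z.1 z.1.2) ?_ fun p => ?_
    · have : (fun p : U × (f ⁻¹' {q}) => Γ p ((0 : unitInterval) : ℝ)) = fun p => (p.2 : X) :=
        funext fun p => hΓ0 p
      exact this ▸ continuous_subtype_val.comp continuous_snd
    · exact (hΓc p).comp_continuous continuous_subtype_val fun t => t.2
  let S : U × (f ⁻¹' {q}) → X := fun p => Γ p 1
  have hSc : Continuous S := hG.comp (Continuous.prodMk_right (1 : unitInterval))
  have hSf : ∀ p, f (S p) = p.1 := fun p => by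
    show f (Γ p 1) = _
    rw [hΓf p 1 ⟨zero_le_one, le_rfl⟩, one_smul, add_sub_cancel, c.left_inv p.1.2.1]
  have huniq : ∀ ρ ρ' : ℝ → X, ContinuousOn ρ (Icc 0 1) → ContinuousOn ρ' (Icc 0 1) →
      (∀ u ∈ Icc (0 : ℝ) 1, f (ρ u) = f (ρ' u)) → ∀ s ∈ Icc (0 : ℝ) 1, ρ s = ρ' s →
      ∀ u ∈ Icc (0 : ℝ) 1, ρ u = ρ' u := fun ρ ρ' h1 h2 h3 s hs h4 =>
    sep.eqOn_of_comp_eqOn hf.isLocallyInjective isPreconnected_Icc h1 h2 h3 hs h4
  have hSloc : IsLocalHomeomorph S := by
    refine IsLocalHomeomorph.of_comp (g := f) ?_ hf hSc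
    have : f ∘ S = Subtype.val ∘ Prod.fst := funext hSf
    rw [this]
    exact hUo.isOpenEmbedding_subtypeVal.isLocalHomeomorph.comp coverb_fst_isLocalHomeomorph
  have hSinj : Function.Injective S := by
    rintro ⟨y, e⟩ ⟨y', e'⟩ hpp
    have hy : y = y' := Subtype.ext (by rw [← hSf (y, e), ← hSf (y', e'), hpp])
    subst hy
    have := huniq _ _ (hΓc (y, e)) (hΓc (y, e'))
      (fun u hu => by rw [hΓf _ u hu, hΓf _ u hu]) 1 ⟨zero_le_one, le_rfl⟩ hpp 0
      ⟨le_rfl, zero_le_one⟩
    rw [hΓ0, hΓ0] at this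
    exact Prod.ext rfl (Subtype.ext this)
  have hSr : range S = f ⁻¹' U := by
    refine subset_antisymm ?_ fun x hx => ?_
    · rintro _ ⟨p, rfl⟩
      rw [mem_preimage, hSf]
      exact p.1.2
    · obtain ⟨ρ, h1, h2, h3⟩ := hl (c (f x)) hx.2 a haB x (c.left_inv hx.1).symm
      have he : ρ 1 ∈ f ⁻¹' {q} := by
        rw [mem_preimage, h3 1 ⟨zero_le_one, le_rfl⟩, one_smul, add_sub_cancel, hqa]
        rfl
      have hmaps : MapsTo (fun u : ℝ => 1 - u) (Icc 0 1) (Icc 0 1) := fun u hu =>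
        ⟨by linarith [hu.2], by linarith [hu.1]⟩
      have := huniq (Γ (⟨f x, hx⟩, ⟨ρ 1, he⟩)) (fun u => ρ (1 - u)) (hΓc _)
        (h1.comp (continuous_const.sub continuous_id).continuousOn hmaps)
        (fun u hu => by
          rw [hΓf _ u hu, h3 _ (hmaps hu)]
          congr 1
          show a + u • (c (f x) - a) = c (f x) + (1 - u) • (a - c (f x))
          module) 0 ⟨le_rfl, zero_le_one⟩ (by rw [hΓ0, sub_zero]) 1 ⟨zero_le_one, le_rfl⟩
      refine ⟨(⟨f x, hx⟩, ⟨ρ 1, he⟩), ?_⟩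
      show Γ _ 1 = x
      rw [this, sub_self, h2]
  have hSe := hSloc.isOpenEmbedding_of_injective hSinj
  let H : U × (f ⁻¹' {q}) ≃ₜ f ⁻¹' U :=
    hSe.toIsEmbedding.toHomeomorph.trans (Homeomorph.setCongr hSr)
  refine ⟨hdisc, U, hqU, hUo, hUo.preimage hf.continuous, H.symm, fun x => ?_⟩
  obtain ⟨p, rfl⟩ := H.surjective x
  rw [H.symm_apply_apply]
  exact (hSf p).symm

end Crest.Agent.R244
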