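import Crest.Agent.R244.Defs
/-!
# R244: deck transformations of a covering `E → M`
Tools: `IsCoveringMap.existsUnique_continuousMap_lifts` (`E`, `ℝ × ℝ` are simply connected:
`SimplyConnectedSpace.ofContractible`), `IsCoveringMap.eq_of_comp_eq`,
`IsCoveringMap.eqOn_of_comp_eqOn`.
-/

set_option autoImplicit false

open scoped ContDiff Manifold Topology
open Bundle Filter Set
open Crest.GeometryTopology.CoordMetric Crest.GeometryTopology.ChartCurvature
  Crest.GeometryTopology.Geodesic

noncomputable section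

namespace Crest.Agent.R244

variable {M : Type*} [TopologicalSpace M]

theorem exists_lift {X : Type*} [NormedAddCommGroup X] [NormedSpace ℝ X] {P : E → M}
    (hP : IsCoveringMap P) {f : X → M} (hf : Continuous f) {a : X} {e : E} (he : P e = f a) :
    ∃ F : X → E, Continuous F ∧ F a = e ∧ ∀ x, P (F x) = f x := by
  haveI : SimplyConnectedSpace X := SimplyConnectedSpace.ofContractible X
  obtain ⟨F, ⟨h1, h2⟩, -⟩ := hP.existsUnique_continuousMap_lifts ⟨f, hf⟩ a e he
  exact ⟨F, F.continuous, h1, fun x => congrFun h2 x⟩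

theorem lift_unique {X : Type*} [TopologicalSpace X] [PreconnectedSpace X] {P : E → M}
    (hP : IsCoveringMap P) {F F' : X → E} (hF : Continuous F) (hF' : Continuous F')
    (h : ∀ x, P (F x) = P (F' x)) {a : X} (e : F a = F' a) : F = F' := by
  exact hP.eq_of_comp_eq hF hF' (funext h) a e

/-- Two coverings by `E` are isomorphic. -/
theorem exists_homeo_lift {P Q : E → M} (hP : IsCoveringMap P) (hQ : IsCoveringMap Q) {a b : E}
    (h : P a = Q b) : ∃ F : E ≃ₜ E, F b = a ∧ ∀ x, P (F x) = Q x := by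
  obtain ⟨F, hF, hFb, hPF⟩ := exists_lift hP hQ.continuous h
  obtain ⟨G, hG, hGa, hQG⟩ := exists_lift hQ hP.continuous h.symm
  have h1 : (fun x => G (F x)) = fun x => x :=
    lift_unique hQ (hG.comp hF) continuous_id (fun x => by rw [hQG, hPF]) (a := b)
      (by simp only [hFb, hGa])
  have h2 : (fun x => F (G x)) = fun x => x :=
    lift_unique hP (hF.comp hG) continuous_id (fun x => by rw [hPF, hQG]) (a := a)
      (by simp only [hFb, hGa])
  exact ⟨⟨⟨F, G, congrFun h1, congrFun h2⟩, hF, hG⟩, hFb, hPF⟩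

theorem exists_deck {P : E → M} (hP : IsCoveringMap P) {x x' : E} (h : P x = P x') :
    ∃ T ∈ deck P, T x = x' := by
  obtain ⟨F, hF, hPF⟩ := exists_homeo_lift hP hP h.symm
  exact ⟨F.toEquiv, ⟨F.continuous, F.symm.continuous, hPF⟩, hF⟩

theorem deck_ext {P : E → M} (hP : IsCoveringMap P) {T T' : Equiv.Perm E} (hT : T ∈ deck P)
    (hT' : T' ∈ deck P) {x : E} (h : T x = T' x) : T = T' := by
  exact Equiv.ext (congrFun (lift_unique hP hT.1 hT'.1 (fun y => by rw [hT.2.2, hT'.2.2]) h))

/-- A period of `f` acts on a lift by a deck transformation. -/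
theorem exists_deck_of_period {X : Type*} [TopologicalSpace X] [PreconnectedSpace X] [Nonempty X]
    {P : E → M} (hP : IsCoveringMap P) {F : X → E} (hF : Continuous F) {a : X → X}
    (ha : Continuous a) (h : ∀ x, P (F (a x)) = P (F x)) :
    ∃ T ∈ deck P, ∀ x, F (a x) = T (F x) := by
  obtain ⟨x₀⟩ := ‹Nonempty X›
  obtain ⟨T, hT, h0⟩ := exists_deck hP (h x₀).symm
  exact ⟨T, hT, congrFun (lift_unique hP (hF.comp ha) (hT.1.comp hF)
    (fun x => by simp only [Function.comp, h, hT.2.2]) (a := x₀) h0.symm)⟩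

/-- A radial line of one covering has no closed lift to another covering. -/
theorem eq_zero_of_closed_lift {P P₀ : E → M} (hP : Continuous P) (hP₀ : IsCoveringMap P₀) {v : E}
    {σ : ℝ → E} (hσ : Continuous σ) (h : ∀ s, P (σ s) = P₀ (s • v)) (e : σ 1 = σ 0) : v = 0 := by
  obtain ⟨F, hF, hF0, hPF⟩ := exists_lift hP₀ hP (a := σ 0) (e := 0) (by rw [h, zero_smul])
  have h1 : (fun s => F (σ s)) = fun s : ℝ => s • v :=
    lift_unique hP₀ (hF.comp hσ) (continuous_id.smul continuous_const)
      (fun s => by rw [hPF, h]) (a := 0) (by simp only [hF0, zero_smul])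
  have h2 := congrFun h1 1
  simp only [e, hF0, one_smul] at h2
  exact h2.symm

end Crest.Agent.R244
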