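import Crest.Prelude.Def_Geodesic
/-!
# Row 244 (S0377): definitions

Coordinate side: the metric `Bil G x` and the Christoffel map `Chr G x` of a metric field as
continuous bilinear maps, the geodesic equation `Geo`, its linearisation `Lin` (the Jacobi equation
along a geodesic), local isometries `IsomAt`.
Manifold side: geodesics / Jacobi fields tested in *all* preferred charts, local isometric
parametrisations, exponential maps, deck groups.
-/

set_option autoImplicit false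

open scoped ContDiff Manifold Topology
open Bundle Filter Set
open Crest.GeometryTopology.CoordMetric Crest.GeometryTopology.ChartCurvature
  Crest.GeometryTopology.Geodesic

noncomputable section

namespace Crest.Agent.R244

/-- The model space. -/
abbrev E : Type := EuclideanSpace ℝ (Fin 3)

/-- Metric fields on `ℝ³`. -/
abbrev MF : Type := MetricField 3

/-- The metric at `x` as a bilinear form: `Bil G x u v = Σ G x i j * u i * v j`. -/
def Bil (G : MF) (x : E) : E →L[ℝ] E →L[ℝ] ℝ :=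
  ∑ i, ∑ j, G x i j •
    (EuclideanSpace.proj i : E →L[ℝ] ℝ).smulRight (EuclideanSpace.proj j : E →L[ℝ] ℝ)

/-- The Christoffel symbols at `x` as a bilinear map:
`Chr G x u v k = Σ christoffel G x k i j * u i * v j`. -/
def Chr (G : MF) (x : E) : E →L[ℝ] E →L[ℝ] E :=
  ∑ k, ∑ i, ∑ j, christoffel G x k i j •
    (EuclideanSpace.proj i : E →L[ℝ] ℝ).smulRight
      ((EuclideanSpace.proj j : E →L[ℝ] ℝ).smulRight (EuclideanSpace.single k (1 : ℝ) : E))

/-- `G` is smooth and positive definite near `p`. -/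
def RiemAt (G : MF) (p : E) : Prop :=
  ∀ᶠ y in 𝓝 p, (∀ i j, ContDiffAt ℝ ∞ (fun x => G x i j) y) ∧ (G y).PosDef

/-- The geodesic equation at `t`. -/
def Geo (G : MF) (c : ℝ → E) (t : ℝ) : Prop :=
  deriv (deriv c) t + Chr G (c t) (deriv c t) (deriv c t) = 0

/-- The linearised geodesic equation at `t` for the field `V` along `c`. -/
def Lin (G : MF) (c V : ℝ → E) (t : ℝ) : Prop :=
  deriv (deriv V) t + (2 : ℝ) • Chr G (c t) (deriv c t) (deriv V t) +
    fderiv ℝ (Chr G) (c t) (V t) (deriv c t) (deriv c t) = 0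

/-- Covariant derivative of `V` along `c`. -/
def cov (G : MF) (c V : ℝ → E) (t : ℝ) : E := deriv V t + Chr G (c t) (deriv c t) (V t)

/-- `c` is a smooth solution of the geodesic equation near `t`. -/
def GeoNear (G : MF) (c : ℝ → E) (t : ℝ) : Prop :=
  ∀ᶠ s in 𝓝 t, ContDiffAt ℝ ∞ c s ∧ Geo G c s

/-- `c` is a smooth geodesic and `V` a smooth solution of the linearised equation near `t`. -/
def JacNear (G : MF) (c V : ℝ → E) (t : ℝ) : Prop :=
  ∀ᶠ s in 𝓝 t, ContDiffAt ℝ ∞ c s ∧ Geo G c s ∧ ContDiffAt ℝ ∞ V s ∧ Lin G c V s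

/-- `ψ` is smooth and isometric from `G` to `G'` near `p`. -/
def IsomAt (G G' : MF) (ψ : E → E) (p : E) : Prop :=
  ∀ᶠ y in 𝓝 p, ContDiffAt ℝ ∞ ψ y ∧
    ∀ u v, Bil G' (ψ y) (fderiv ℝ ψ y u) (fderiv ℝ ψ y v) = Bil G y u v

/-- `f` is continuous at `s` and its lower right Dini derivative at `s` is at least `D`. -/
def LowDer (f : ℝ → ℝ) (s D : ℝ) : Prop :=
  ContinuousAt f s ∧ ∀ r < D, ∀ᶠ u in 𝓝[>] s, r < slope f s u

section Manifold

/-- Smooth Riemannian metrics on `M`. -/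
abbrev RM (M : Type*) [TopologicalSpace M] [ChartedSpace E M] [IsManifold 𝓘(ℝ, E) ∞ M] : Type _ :=
  ContMDiffRiemannianMetric 𝓘(ℝ, E) ∞ E (fun x : M => TangentSpace 𝓘(ℝ, E) x)

variable {M : Type*} [TopologicalSpace M] [ChartedSpace E M] [IsManifold 𝓘(ℝ, E) ∞ M]

/-- The inner product of `g` at `m` of two vectors given in the preferred chart at `m`. -/
def ip (g : RM M) (m : M) (u v : E) : ℝ := g.inner m u v

/-- The differential of the chart at `x`, at the point `m`, between coordinate vectors. -/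
def dch (x m : M) : E →L[ℝ] E := mfderiv 𝓘(ℝ, E) 𝓘(ℝ, E) (chartAt E x) m

/-- The differential of a map `E → M` (values in the preferred chart of the image point). -/
def dE (F : E → M) (v : E) : E →L[ℝ] E := mfderiv 𝓘(ℝ, E) 𝓘(ℝ, E) F v

/-- The velocity of a curve in the preferred chart of its current point. -/
def vel (γ : ℝ → M) (t : ℝ) : E := deriv (chartAt E (γ t) ∘ γ) t

/-- `γ` is continuous at `t`, and smooth and geodesic at `t` in every preferred chart. -/
def GeoAt (g : RM M) (γ : ℝ → M) (t : ℝ) : Prop :=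
  ContinuousAt γ t ∧ ∀ x : M, γ t ∈ (chartAt E x).source →
    ContDiffAt ℝ ∞ (chartAt E x ∘ γ) t ∧ Geo (metricInChart g x) (chartAt E x ∘ γ) t

/-- Complete geodesics. -/
def IsGeo (g : RM M) (γ : ℝ → M) : Prop := ∀ t, GeoAt g γ t

/-- The field `J` along `γ` read in the chart at `x`. -/
def fld (x : M) (γ : ℝ → M) (J : ℝ → E) : ℝ → E := fun s => dch x (γ s) (J s)

/-- `J` solves the linearised geodesic equation along `γ` in every preferred chart. -/
def IsJac (g : RM M) (γ : ℝ → M) (J : ℝ → E) : Prop :=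
  ∀ (t : ℝ) (x : M), γ t ∈ (chartAt E x).source →
    ContDiffAt ℝ ∞ (fld x γ J) t ∧ Lin (metricInChart g x) (chartAt E x ∘ γ) (fld x γ J) t

/-- No conjugate points, in terms of `IsGeo`, `IsJac`. -/
def NoConj (g : RM M) : Prop :=
  ∀ (γ : ℝ → M) (J : ℝ → E), IsGeo g γ → IsJac g γ J →
    ∀ a b : ℝ, a ≠ b → J a = 0 → J b = 0 → ∀ t, J t = 0

/-- `pm : U → M` is a local isometry from `(U, G)` to `(M, g)`. -/
structure IsParam (g : RM M) (G : MF) (U : Set E) (pm : E → M) : Prop where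
  isOpen : IsOpen U
  riem : ∀ p ∈ U, RiemAt G p
  cont : ContinuousOn pm U
  isom : ∀ p ∈ U, ∀ x : M, pm p ∈ (chartAt E x).source →
    IsomAt G (metricInChart g x) (chartAt E x ∘ pm) p

/-- `(c, V)` represents `(γ, J)` near `t` in the parametrisation `pm`. -/
def Rep (G : MF) (U : Set E) (pm : E → M) (γ : ℝ → M) (J c V : ℝ → E) (t : ℝ) : Prop :=
  ∀ᶠ s in 𝓝 t, c s ∈ U ∧ pm (c s) = γ s ∧ ContDiffAt ℝ ∞ c s ∧ Geo G c s ∧ ContDiffAt ℝ ∞ V s ∧
    Lin G c V s ∧ J s = fderiv ℝ (chartAt E (γ s) ∘ pm) (c s) (V s)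

/-- `Ex` is the exponential map of `g` at `p`. -/
structure IsExp (g : RM M) (p : M) (Ex : E → M) : Prop where
  smooth : ContMDiff 𝓘(ℝ, E) 𝓘(ℝ, E) ∞ Ex
  geo : ∀ v : E, IsGeo g (fun t : ℝ => Ex (t • v))
  zero : Ex 0 = p
  init : ∀ v : E, deriv (fun t : ℝ => chartAt E p (Ex (t • v))) 0 = v

end Manifold

/-- The deck group of a map `P : E → M`. -/
def deck {M : Type*} (P : E → M) : Subgroup (Equiv.Perm E) where
  carrier := {T | Continuous T ∧ Continuous T.symm ∧ ∀ x, P (T x) = P x}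
  mul_mem' := by
    rintro S T ⟨h1, h2, h3⟩ ⟨k1, k2, k3⟩
    refine ⟨h1.comp k1, k2.comp h2, fun x => ?_⟩
    rw [Equiv.Perm.mul_apply, h3, k3]
  one_mem' := ⟨continuous_id, continuous_id, fun _ => rfl⟩
  inv_mem' := by
    rintro T ⟨h1, h2, h3⟩
    refine ⟨h2, h1, fun x => ?_⟩
    have := h3 (T.symm x)
    rw [Equiv.apply_symm_apply] at this
    exact this.symm

theorem mem_deck {M : Type*} {P : E → M} {T : Equiv.Perm E} :
    T ∈ deck P ↔ Continuous T ∧ Continuous T.symm ∧ ∀ x, P (T x) = P x := Iff.rfl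

/-- The boundary of the unit square centred at the origin, parametrised by the polar angle
`2πθ` (measured from the second axis), at height `Z`. -/
def sq (θ Z : ℝ) : E :=
  !₂[Real.sin (2 * Real.pi * θ) /
      (2 * max |Real.sin (2 * Real.pi * θ)| |Real.cos (2 * Real.pi * θ)|),
    Real.cos (2 * Real.pi * θ) /
      (2 * max |Real.sin (2 * Real.pi * θ)| |Real.cos (2 * Real.pi * θ)|), Z]

/-- The walls `x ∈ ℤ + 1/2` or `y ∈ ℤ + 1/2`. -/
def grid : Set E := {p | (∃ a : ℤ, p 0 = a + 1 / 2) ∨ (∃ a : ℤ, p 1 = a + 1 / 2)}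

/-- The topological data from which the relations in the fundamental group are read off. -/
structure TopData (M : Type*) [TopologicalSpace M] where
  Φ : E → M
  P₁ : E → M
  P₂ : E → M
  L : ℝ
  contΦ : Continuous Φ
  perY : ∀ t y z : ℝ, Φ !₂[t, y + 1, z] = Φ !₂[t, y, z]
  perZ : ∀ t y z : ℝ, Φ !₂[t, y, z + 1] = Φ !₂[t, y, z]
  cont₁ : ContinuousOn P₁ grid
  cont₂ : ContinuousOn P₂ grid
  per₁ : ∀ p ∈ grid, ∀ a b c : ℤ, P₁ (p + !₂[(a : ℝ), b, c]) = P₁ p
  per₂ : ∀ p ∈ grid, ∀ a b c : ℤ, P₂ (p + !₂[(a : ℝ), b, c]) = P₂ p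
  left : ∀ y z : ℝ, Φ !₂[-L, y, z] = P₁ (sq y z)
  right : ∀ y z : ℝ, Φ !₂[L, y, z] = P₂ (sq (z - y) y)

end Crest.Agent.R244
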