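import Crest.Agent.R244.ExpJ
import Crest.Agent.R244.Cover
/-!
# R244: the exponential map is a covering when its differential is injective
A partial lift `ρ` of a chart segment `σ` has `(ip p ρ ρ)' = 2 ip p ρ' ρ = 2 ip (σ') (dE ρ ρ)
≤ 2 |σ'| √(ip p ρ ρ)` by the Gauss lemma, so it stays in a compact ball.
-/

set_option autoImplicit false

open scoped ContDiff Manifold Topology
open Bundle Filter Set
open Crest.GeometryTopology.CoordMetric Crest.GeometryTopology.ChartCurvature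
  Crest.GeometryTopology.Geodesic

noncomputable section

namespace Crest.Agent.R244

variable {M : Type*} [TopologicalSpace M] [ChartedSpace E M] [IsManifold 𝓘(ℝ, E) ∞ M]

theorem expCov_strict {F : E → M} (hF : ContMDiff 𝓘(ℝ, E) 𝓘(ℝ, E) ∞ F) {v : E}
    (h : Function.Injective (dE F v)) :
    ∃ e : E ≃L[ℝ] E, HasStrictFDerivAt (chartAt E (F v) ∘ F) (e : E →L[ℝ] E) v ∧
      ∀ w, e w = dE F v w := by
  have h1 := contDiffAt_chart_comp (hF v) (mem_chart_source E (F v))
  have h2 : fderiv ℝ (chartAt E (F v) ∘ F) v = dE F v := by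
    ext1 w
    rw [← dch_dE (hF v) (mem_chart_source E (F v)), dch_self]
    rfl
  have h3 := h1.hasStrictFDerivAt (by simp)
  rw [h2] at h3
  exact ⟨(LinearEquiv.ofInjectiveEndo (dE F v : E →ₗ[ℝ] E) h).toContinuousLinearEquiv, h3,
    fun _ => rfl⟩

theorem isLocalHomeomorph_of_dE {F : E → M} (hF : ContMDiff 𝓘(ℝ, E) 𝓘(ℝ, E) ∞ F)
    (h : ∀ v, Function.Injective (dE F v)) : IsLocalHomeomorph F := by
  refine IsLocalHomeomorph.mk F fun v => ?_
  obtain ⟨e, he, -⟩ := expCov_strict hF (h v)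
  refine ⟨((he.toOpenPartialHomeomorph _).restrOpen (F ⁻¹' (chartAt E (F v)).source)
    ((chartAt E (F v)).open_source.preimage hF.continuous)).trans (chartAt E (F v)).symm,
    ⟨⟨he.mem_toOpenPartialHomeomorph_source, mem_chart_source E (F v)⟩,
      (chartAt E (F v)).map_source (mem_chart_source E (F v))⟩, fun y hy => ?_⟩
  exact ((chartAt E (F v)).left_inv hy.1.2).symm

/-- A continuous lift of a smooth curve is differentiable. -/
theorem exists_hasDerivAt_lift {F : E → M} (hF : ContMDiff 𝓘(ℝ, E) 𝓘(ℝ, E) ∞ F)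
    (h : ∀ v, Function.Injective (dE F v)) {ρ : ℝ → E} {σ : ℝ → M} {t : ℝ}
    (hρ : ContinuousAt ρ t) (hσ : ContMDiffAt 𝓘(ℝ, ℝ) 𝓘(ℝ, E) ∞ σ t)
    (e : ∀ᶠ s in 𝓝 t, F (ρ s) = σ s) : ∃ w, HasDerivAt ρ w t ∧ dE F (ρ t) w = vel σ t := by
  obtain ⟨L, hL, hL'⟩ := expCov_strict hF (h (ρ t))
  have e0 : F (ρ t) = σ t := e.self_of_nhds
  have h1 : HasDerivAt (chartAt E (σ t) ∘ σ) (vel σ t) t :=
    ((contDiffAt_chart_comp hσ (mem_chart_source E (σ t))).differentiableAt (by simp)).hasDerivAt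
  have h2 := hL.to_localInverse.hasFDerivAt
  have h3 : (chartAt E (F (ρ t)) ∘ F) (ρ t) = (chartAt E (σ t) ∘ σ) t := by
    simp only [Function.comp, e0]
  rw [h3] at h2
  refine ⟨L.symm (vel σ t), (h2.comp_hasDerivAt t h1).congr_of_eventuallyEq ?_, by
    rw [← hL', ContinuousLinearEquiv.apply_symm_apply]⟩
  filter_upwards [hρ.eventually hL.eventually_left_inverse, e] with s h4 h5
  rw [← h4]
  simp only [Function.comp, h5, e0]

theorem expCov_amgm {x P C φ : ℝ} (h : x ^ 2 ≤ P * φ) (hP : P ≤ C) (hC : 0 ≤ C) (hφ : 0 ≤ φ) :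
    2 * x ≤ C + φ := by
  have h1 : P * φ ≤ C * φ := mul_le_mul_of_nonneg_right hP hφ
  refine (abs_le_of_sq_le_sq' ?_ (add_nonneg hC hφ)).2
  nlinarith [sq_nonneg (C - φ)]

theorem expCov_gronwall {φ : ℝ → ℝ} {s C : ℝ} (hs : 0 ≤ s) (hc : ContinuousOn φ (Icc 0 s))
    (hd : ∀ u ∈ Ioo 0 s, ∃ d, HasDerivAt φ d u ∧ d ≤ C + φ u) :
    φ s + C ≤ (φ 0 + C) * Real.exp s := by
  have key : ∀ u ∈ interior (Icc 0 s), ∃ d, HasDerivAt (fun u => (φ u + C) * Real.exp (-u)) d u ∧
      d ≤ 0 := by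
    intro u hu
    rw [interior_Icc] at hu
    obtain ⟨d, h1, h2⟩ := hd u hu
    refine ⟨_, (h1.add_const C).mul (hasDerivAt_neg u).exp, ?_⟩
    have := mul_le_mul_of_nonneg_right h2 (Real.exp_pos (-u)).le
    linarith
  have h1 : AntitoneOn (fun u => (φ u + C) * Real.exp (-u)) (Icc 0 s) :=
    antitoneOn_of_deriv_nonpos (convex_Icc 0 s)
      ((hc.add continuousOn_const).mul (by fun_prop))
      (fun u hu => (key u hu).choose_spec.1.differentiableAt.differentiableWithinAt)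
      fun u hu => by rw [(key u hu).choose_spec.1.deriv]; exact (key u hu).choose_spec.2
  have h2 := h1 (left_mem_Icc.2 hs) (right_mem_Icc.2 hs) hs
  simp only [neg_zero, Real.exp_zero, mul_one] at h2
  rwa [Real.exp_neg, ← div_eq_mul_inv, div_le_iff₀ (Real.exp_pos s)] at h2

theorem IsExp.isCoveringMap [T2Space M] {g : RM M} {p : M} {Ex : E → M} (h : IsExp g p Ex)
    (hi : ∀ v, Function.Injective (dE Ex v)) : IsCoveringMap Ex := by
  have hloc := isLocalHomeomorph_of_dE h.smooth hi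
  refine isCoveringMap_of_segment_lifts hloc fun q => ?_
  have hq := mem_chart_target E q
  obtain ⟨a₁, -, A, hA, hb⟩ := (riemAt_chart g hq).exists_bounds
  obtain ⟨r, hr, hball⟩ := Metric.mem_nhds_iff.1
    (inter_mem ((chartAt E q).open_target.mem_nhds hq) hb)
  refine ⟨r, hr, fun y hy => (hball hy).1, fun a ha b hb' e he => ?_⟩
  have hp := riemAt_chart g (mem_chart_target E p)
  obtain ⟨a₀, ha₀, A₀, -, hb₀⟩ := hp.exists_bounds
  have hlow := fun u => (hb₀.self_of_nhds u).1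
  have hseg : ∀ u ∈ Icc (0 : ℝ) 1, a + u • (b - a) ∈ Metric.ball (chartAt E q q) r :=
    fun u hu => (convex_ball _ _).add_smul_sub_mem ha hb' hu
  have hlin : ∀ u : ℝ, HasDerivAt (fun u : ℝ => a + u • (b - a)) (b - a) u := fun u => by
    simpa using ((hasDerivAt_id u).smul_const (b - a)).const_add a
  have hcont : ∀ u ∈ Icc (0 : ℝ) 1,
      ContinuousAt (fun u : ℝ => (chartAt E q).symm (a + u • (b - a))) u := fun u hu =>
    ContinuousAt.comp (f := fun u : ℝ => a + u • (b - a))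
      ((chartAt E q).continuousAt_symm (hball (hseg u hu)).1) (hlin u).continuousAt
  obtain ⟨B, hB⟩ : ∃ B, B = Bil (metricInChart g p) (chartAt E p p) := ⟨_, rfl⟩
  have hipB : ∀ u v, ip g p u v = B u v := fun u v => by rw [hB, ip_eq_self]
  rw [← hB] at hlow
  have hC : 0 ≤ A * ‖b - a‖ ^ 2 := by positivity
  refine exists_lift_of_confined (σ := fun u : ℝ => (chartAt E q).symm (a + u • (b - a))) hloc
    (fun u hu => (hcont u hu).continuousWithinAt) (by simpa using he)
    (isCompact_closedBall (0 : E) √((B e e + A * ‖b - a‖ ^ 2) * Real.exp 1 / a₀))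
    fun s hs ρ hρ h0 hl => ?_
  have key := expCov_gronwall (φ := fun u => B (ρ u) (ρ u)) (C := A * ‖b - a‖ ^ 2) hs.1
    ((B.continuous.comp_continuousOn hρ).clm_apply hρ) fun u hu => by
      have hu1 : u ∈ Icc (0 : ℝ) 1 := ⟨hu.1.le, hu.2.le.trans hs.2⟩
      have hn : Icc 0 s ∈ 𝓝 u := Icc_mem_nhds hu.1 hu.2
      have hsrc : (chartAt E q).symm (a + u • (b - a)) ∈ (chartAt E q).source :=
        (chartAt E q).map_target (hball (hseg u hu1)).1
      have hev : (chartAt E q ∘ fun u : ℝ => (chartAt E q).symm (a + u • (b - a))) =ᶠ[𝓝 u]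
          fun u : ℝ => a + u • (b - a) := by
        filter_upwards [(hlin u).continuousAt.eventually
          ((chartAt E q).open_target.mem_nhds (hball (hseg u hu1)).1)] with t ht
        exact (chartAt E q).right_inv ht
      have hσ : ContMDiffAt 𝓘(ℝ, ℝ) 𝓘(ℝ, E) ∞
          (fun u : ℝ => (chartAt E q).symm (a + u • (b - a))) u :=
        contMDiffAt_of_chart (hcont u hu1) hsrc
          (ContDiffAt.congr_of_eventuallyEq (by fun_prop) hev)
      obtain ⟨w, hw, hw'⟩ := exists_hasDerivAt_lift h.smooth hi (hρ.continuousAt hn) hσ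
        (Filter.mem_of_superset hn hl)
      have hd : HasDerivAt (fun u => B (ρ u) (ρ u)) (B w (ρ u) + B (ρ u) w) u :=
        (B.hasFDerivAt.comp_hasDerivAt u hw).clm_apply hw
      refine ⟨_, hd, ?_⟩
      have e1 : Ex (ρ u) = (chartAt E q).symm (a + u • (b - a)) := hl u ⟨hu.1.le, hu.2.le⟩
      have e2 : B (ρ u) w = B w (ρ u) := by rw [← hipB, ← hipB, ip_symm]
      have e3 := (riemAt_chart g (mem_chart_target E (Ex (ρ u)))).cs (dE Ex (ρ u) w)
        (dE Ex (ρ u) (ρ u))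
      rw [← ip_eq_self, ← ip_eq_self, ← ip_eq_self, h.gauss, h.gauss, hipB, hipB, hw'] at e3
      have e4 : ip g (Ex (ρ u)) (vel (fun u : ℝ => (chartAt E q).symm (a + u • (b - a))) u)
          (vel (fun u : ℝ => (chartAt E q).symm (a + u • (b - a))) u) ≤ A * ‖b - a‖ ^ 2 := by
        have e5 := dch_vel hσ hsrc
        rw [hev.deriv_eq, (hlin u).deriv] at e5
        rw [e1, ip_eq_chart g hsrc, e5, (chartAt E q).right_inv (hball (hseg u hu1)).1]
        exact ((hball (hseg u hu1)).2 _).2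
      rw [e2, ← two_mul]
      exact expCov_amgm e3 e4 hC (le_trans (by positivity) (hlow _))
  rw [h0] at key
  have h1 : 0 ≤ B e e + A * ‖b - a‖ ^ 2 := add_nonneg (le_trans (by positivity) (hlow _)) hC
  have h2 := mul_le_mul_of_nonneg_left (Real.exp_le_exp.2 hs.2) h1
  rw [mem_closedBall_zero_iff]
  refine Real.le_sqrt_of_sq_le ?_
  rw [le_div_iff₀ ha₀]
  linarith [hlow (ρ s)]

end Crest.Agent.R244
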