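import Crest.Agent.R244.Defs
/-!
# R244: one-variable lemmas
-/

set_option autoImplicit false

open scoped ContDiff Manifold Topology
open Bundle Filter Set
open Crest.GeometryTopology.CoordMetric Crest.GeometryTopology.ChartCurvature
  Crest.GeometryTopology.Geodesic

noncomputable section

namespace Crest.Agent.R244

theorem LowDer.of_hasDerivAt {f : ℝ → ℝ} {s D : ℝ} (h : HasDerivAt f D s) : LowDer f s D := by
  refine ⟨h.continuousAt, fun r hr => ?_⟩
  have h1 : Tendsto (slope f s) (𝓝[>] s) (𝓝 D) :=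
    (hasDerivAt_iff_tendsto_slope.1 h).mono_left (nhdsGT_le_nhdsNE s)
  exact h1.eventually (lt_mem_nhds hr)

theorem LowDer.congr {f f' : ℝ → ℝ} {s D : ℝ} (h : LowDer f s D) (e : f =ᶠ[𝓝 s] f') :
    LowDer f' s D := by
  refine ⟨h.1.congr e, fun r hr => ?_⟩
  have e0 : f s = f' s := e.eq_of_nhds
  filter_upwards [h.2 r hr, e.filter_mono nhdsWithin_le_nhds] with u hu hu'
  rwa [slope_def_field, hu', e0, ← slope_def_field] at hu

/-- A function that near `s` takes one of the values of two functions agreeing at `s`. -/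
theorem LowDer.of_or {f f₁ f₂ : ℝ → ℝ} {s D₁ D₂ : ℝ} (h₁ : LowDer f₁ s D₁) (h₂ : LowDer f₂ s D₂)
    (e : f₁ s = f₂ s) (h : ∀ᶠ u in 𝓝 s, f u = f₁ u ∨ f u = f₂ u) : LowDer f s (min D₁ D₂) := by
  have e0 : f s = f₁ s := by
    rcases h.self_of_nhds with h' | h'
    · exact h'
    · rw [h', e]
  refine ⟨?_, fun r hr => ?_⟩
  · rw [ContinuousAt, e0]
    intro U hU
    have a1 : f₁ ⁻¹' U ∈ 𝓝 s := h₁.1 hU
    have a2 : f₂ ⁻¹' U ∈ 𝓝 s := h₂.1 (by rw [← e]; exact hU)
    rw [mem_map]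
    filter_upwards [a1, a2, h] with u b1 b2 b3
    rcases b3 with b3 | b3
    · simpa [b3] using b1
    · simpa [b3] using b2
  · filter_upwards [h₁.2 r (hr.trans_le (min_le_left _ _)), h₂.2 r (hr.trans_le (min_le_right _ _)),
      h.filter_mono nhdsWithin_le_nhds] with u b1 b2 b3
    rw [slope_def_field] at b1 b2 ⊢
    rcases b3 with b3 | b3
    · rw [b3, e0]; exact b1
    · rw [b3, e0, e]; exact b2

/-- Monotonicity from Dini derivatives
(`image_le_of_liminf_slope_right_le_deriv_boundary` applied to `-f`). -/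
theorem monotone_of_lowDer {f : ℝ → ℝ} (h : ∀ s, ∃ D, 0 ≤ D ∧ LowDer f s D) : Monotone f := by
  intro a b hab
  have hc : Continuous f := continuous_iff_continuousAt.2 fun s => (h s).choose_spec.2.1
  have key := image_le_of_liminf_slope_right_le_deriv_boundary (f := fun x => - f x) (a := a) (b := b)
    hc.neg.continuousOn (B := fun _ => - f a) (B' := fun _ => 0) le_rfl continuousOn_const
    (fun x _ => hasDerivWithinAt_const _ _ _) (fun x _ r hr => by
      obtain ⟨D, hD, hL⟩ := h x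
      have := hL.2 (-r) (by linarith)
      refine (this.mono fun z hz => ?_).frequently
      rw [slope_def_field] at hz ⊢
      have e : (-f z - -f x) / (z - x) = - ((f z - f x) / (z - x)) := by ring
      rw [e]; linarith) (x := b) ⟨hab, le_rfl⟩
  simpa using key

theorem lt_of_lowDer {f : ℝ → ℝ} (h : ∀ s, ∃ D, 0 ≤ D ∧ LowDer f s D) {a b D : ℝ} (hab : a < b)
    (hD : 0 < D) (ha : LowDer f a D) : f a < f b := by
  have hm := monotone_of_lowDer h
  have h1 := ha.2 0 hD
  have h2 : ∀ᶠ u in 𝓝[>] a, u ∈ Ioo a b := Ioo_mem_nhdsGT hab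
  obtain ⟨u, hu1, hu2⟩ := (h1.and h2).exists
  rw [slope_def_field] at hu1
  have h3 : 0 < u - a := sub_pos.2 hu2.1
  have h4 : 0 < f u - f a := by
    by_contra hc
    rw [not_lt] at hc
    exact absurd hu1 (not_lt.2 (div_nonpos_of_nonpos_of_nonneg hc h3.le))
  have h5 := hm hu2.2.le
  linarith

/-- If `h ≥ 0`, `h' = 2 r`, `r' = k`, `r² ≤ h k` (so `√(h+ε)` is convex), `h 0 = r 0 = 0` and
`k 0 = c`, then `h 1 ≥ c`. Route: `u = √(h+ε)` has `u' = r/u` monotone, so
`u 1 - u 0 ≥ (u δ - u 0)/δ`; let `ε → 0`, then `δ → 0` using `h δ / δ² → c`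
(`r δ/δ → c` and L'Hôpital or the mean value theorem). -/
theorem le_of_sqrt_convex {h r k : ℝ → ℝ} (h0 : ∀ s, 0 ≤ h s) (hh : ∀ s, HasDerivAt h (2 * r s) s)
    (hr : ∀ s, HasDerivAt r (k s) s) (hk : ∀ s, 0 ≤ k s) (hcs : ∀ s, r s ^ 2 ≤ h s * k s)
    (e₀ : h 0 = 0) (e₁ : r 0 = 0) : k 0 ≤ h 1 := by
  -- Step 1: `h δ ≤ δ² h 1` for `δ ∈ [0, 1]`.
  have step1 : ∀ δ ∈ Icc (0 : ℝ) 1, h δ ≤ δ ^ 2 * h 1 := by
    intro δ hδ
    have A : ∀ ε : ℝ, 0 < ε → √(h δ + ε) ≤ δ * √(h 1 + ε) + (1 - δ) * √ε := by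
      intro ε hε
      have hp : ∀ s, 0 < h s + ε := fun s => by linarith [h0 s]
      have hu : ∀ s, HasDerivAt (fun s => √(h s + ε)) (r s / √(h s + ε)) s := by
        intro s
        have := ((hh s).add_const ε).sqrt (hp s).ne'
        convert this using 1
        have : 0 < √(h s + ε) := Real.sqrt_pos.2 (hp s)
        field_simp
      have hw : ∀ s, HasDerivAt (fun s => r s / √(h s + ε))
          ((k s * √(h s + ε) - r s * (r s / √(h s + ε))) / (√(h s + ε)) ^ 2) s := by
        intro s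
        exact (hr s).div (hu s) (Real.sqrt_pos.2 (hp s)).ne'
      have hmono : Monotone (fun s => r s / √(h s + ε)) := by
        refine monotone_of_deriv_nonneg (fun s => (hw s).differentiableAt) fun s => ?_
        rw [(hw s).deriv]
        have q : 0 < √(h s + ε) := Real.sqrt_pos.2 (hp s)
        refine div_nonneg ?_ (sq_nonneg _)
        have e : k s * √(h s + ε) - r s * (r s / √(h s + ε))
            = (k s * (√(h s + ε) * √(h s + ε)) - r s ^ 2) / √(h s + ε) := by
          field_simp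
        rw [e, Real.mul_self_sqrt (hp s).le]
        refine div_nonneg ?_ q.le
        nlinarith [hcs s, hk s, mul_nonneg (hk s) hε.le]
      have hconv : ConvexOn ℝ univ (fun s => √(h s + ε)) := by
        refine Monotone.convexOn_univ_of_deriv (fun s => (hu s).differentiableAt) ?_
        have : deriv (fun s => √(h s + ε)) = fun s => r s / √(h s + ε) :=
          funext fun s => (hu s).deriv
        rw [this]; exact hmono
      have := hconv.2 (mem_univ (1 : ℝ)) (mem_univ (0 : ℝ)) hδ.1 (sub_nonneg.2 hδ.2)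
        (by ring : δ + (1 - δ) = 1)
      simpa [e₀] using this
    have B : √(h δ) ≤ δ * √(h 1) := by
      have t1 : Tendsto (fun ε : ℝ => √(h δ + ε)) (𝓝[>] 0) (𝓝 (√(h δ + 0))) :=
        (Continuous.tendsto (by fun_prop) 0).mono_left nhdsWithin_le_nhds
      have t2 : Tendsto (fun ε : ℝ => δ * √(h 1 + ε) + (1 - δ) * √ε) (𝓝[>] 0)
          (𝓝 (δ * √(h 1 + 0) + (1 - δ) * √0)) :=
        (Continuous.tendsto (by fun_prop) 0).mono_left nhdsWithin_le_nhds
      have := le_of_tendsto_of_tendsto t1 t2 (by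
        filter_upwards [self_mem_nhdsWithin] with ε hε using A ε hε)
      simpa using this
    have C : √(h δ) ^ 2 ≤ (δ * √(h 1)) ^ 2 := pow_le_pow_left₀ (Real.sqrt_nonneg _) B 2
    rwa [mul_pow, Real.sq_sqrt (h0 _), Real.sq_sqrt (h0 _)] at C
  -- Step 2: for `c < k 0`, `c δ² ≤ h δ` for some `δ ∈ (0, 1]`.
  refine le_of_forall_lt_imp_le_of_dense fun c hc => ?_
  have h1 := (LowDer.of_hasDerivAt (hr 0)).2 c hc
  obtain ⟨b, hb, hb'⟩ := (mem_nhdsGT_iff_exists_Ioo_subset.1 h1)
  have hb0 : 0 < b := hb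
  set δ := min b 1 with hδ
  have hδ0 : 0 < δ := lt_min hb0 one_pos
  have hd : ∀ s, HasDerivAt (fun s => h s - c * s ^ 2) (2 * r s - c * (2 * s)) s := by
    intro s
    have h2 : HasDerivAt (fun s : ℝ => s ^ 2) (2 * s) s := by
      simpa using hasDerivAt_pow 2 s
    exact (hh s).sub (h2.const_mul c)
  have hmono : MonotoneOn (fun s => h s - c * s ^ 2) (Icc 0 δ) := by
    refine monotoneOn_of_deriv_nonneg (convex_Icc _ _)
      (fun s _ => (hd s).continuousAt.continuousWithinAt)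
      (fun s _ => (hd s).differentiableAt.differentiableWithinAt) fun s hs => ?_
    rw [interior_Icc] at hs
    rw [(hd s).deriv]
    have h2 : c < slope r 0 s := hb' ⟨hs.1, hs.2.trans_le (min_le_left _ _)⟩
    rw [slope_def_field, e₁, sub_zero, sub_zero, lt_div_iff₀ hs.1] at h2
    linarith
  have h3 := hmono ⟨le_rfl, hδ0.le⟩ ⟨hδ0.le, le_rfl⟩ hδ0.le
  simp only [e₀] at h3
  have h4 := step1 δ ⟨hδ0.le, min_le_right _ _⟩
  have h5 : 0 < δ ^ 2 := by positivity
  have h6 : δ ^ 2 * c ≤ δ ^ 2 * h 1 := by nlinarith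
  exact le_of_mul_le_mul_left h6 h5

end Crest.Agent.R244
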