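import Crest.Agent.R244.ExpM
import Crest.Agent.R244.OneVar
/-!
# R244: the differential of the exponential map
In the chart at `x`, `F (ε, s) = chartAt x (Ex (s • (v + ε • w)))` is a variation through
geodesics whose variation field is `fld x γ J` for `J s = dE Ex (s • v) (s • w)` (`dch_dE`).
With `h s = ip g (γ s) (J s) (J s)`, `r = ½ h'` is `Bil (cov V) V` in every chart.
-/

set_option autoImplicit false

open scoped ContDiff Manifold Topology
open Bundle Filter Set
open Crest.GeometryTopology.CoordMetric Crest.GeometryTopology.ChartCurvature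
  Crest.GeometryTopology.Geodesic

noncomputable section

namespace Crest.Agent.R244

variable {M : Type*} [TopologicalSpace M] [ChartedSpace E M] [IsManifold 𝓘(ℝ, E) ∞ M]

theorem expJa_contDiffAt {g : RM M} {p : M} {Ex : E → M} (h : IsExp g p Ex) {x : M} {y : E}
    (hy : Ex y ∈ (chartAt E x).source) : ContDiffAt ℝ ∞ (chartAt E x ∘ Ex) y :=
  contDiffAt_chart_comp (h.smooth y) hy

theorem expJa_ev {g : RM M} {p : M} {Ex : E → M} (h : IsExp g p Ex) {x : M} {v : E} {t : ℝ}
    (hx : Ex (t • v) ∈ (chartAt E x).source) :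
    ∀ᶠ s in 𝓝 t, Ex (s • v) ∈ (chartAt E x).source := by
  have hc : Continuous fun s : ℝ => Ex (s • v) :=
    h.smooth.continuous.comp (continuous_id.smul continuous_const)
  exact hc.continuousAt.preimage_mem_nhds ((chartAt E x).open_source.mem_nhds hx)

theorem expJa_fld {g : RM M} {p : M} {Ex : E → M} (h : IsExp g p Ex) {x : M} (v w : E) {t : ℝ}
    (hx : Ex (t • v) ∈ (chartAt E x).source) :
    fld x (fun t : ℝ => Ex (t • v)) (fun t : ℝ => dE Ex (t • v) (t • w)) =ᶠ[𝓝 t]
      fun s => fderiv ℝ (chartAt E x ∘ Ex) (s • v) (s • w) := by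
  filter_upwards [expJa_ev h hx] with s hs
  exact dch_dE (h.smooth (s • v)) hs (s • w)

theorem expJa_fderiv_smooth {g : RM M} {p : M} {Ex : E → M} (h : IsExp g p Ex) {x : M} (v : E)
    {t : ℝ} (hx : Ex (t • v) ∈ (chartAt E x).source) :
    ContDiffAt ℝ ∞ (fun s : ℝ => fderiv ℝ (chartAt E x ∘ Ex) (s • v)) t := by
  have h1 : ContDiffAt ℝ ∞ (fderiv ℝ (chartAt E x ∘ Ex)) (t • v) :=
    (expJa_contDiffAt h hx).fderiv_right (by simp)
  have h2 : ContDiffAt ℝ ∞ (fun s : ℝ => s • v) t := contDiffAt_id.smul contDiffAt_const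
  exact ContDiffAt.comp (g := fderiv ℝ (chartAt E x ∘ Ex)) t h1 h2

theorem expJa_var {φ : E → E} {v w : E} {s : ℝ} (hφ : DifferentiableAt ℝ φ (s • v)) :
    fderiv ℝ (fun z : ℝ × ℝ => φ (z.2 • (v + z.1 • w))) (0, s) (1, 0) =
      fderiv ℝ φ (s • v) (s • w) := by
  have hL : DifferentiableAt ℝ (fun z : ℝ × ℝ => z.2 • (v + z.1 • w)) (0, s) := by fun_prop
  have hφ' : DifferentiableAt ℝ φ ((fun z : ℝ × ℝ => z.2 • (v + z.1 • w)) (0, s)) := by
    simpa using hφ
  have hF : DifferentiableAt ℝ (fun z : ℝ × ℝ => φ (z.2 • (v + z.1 • w))) (0, s) :=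
    hφ'.comp (0, s) hL
  have hl : HasDerivAt (fun e : ℝ => ((e, s) : ℝ × ℝ)) (1, 0) 0 :=
    (hasDerivAt_id (0 : ℝ)).prodMk (hasDerivAt_const _ _)
  have a1 := hF.hasFDerivAt.comp_hasDerivAt (0 : ℝ) hl
  have hm : HasDerivAt (fun e : ℝ => s • (v + e • w)) (s • w) 0 := by
    have := (((hasDerivAt_id (0 : ℝ)).smul_const w).const_add v).const_smul s
    rw [one_smul] at this
    exact this
  have hφ'' : HasFDerivAt φ (fderiv ℝ φ (s • v)) ((fun e : ℝ => s • (v + e • w)) 0) := by
    simpa using hφ.hasFDerivAt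
  have a2 := hφ''.comp_hasDerivAt (0 : ℝ) hm
  exact a1.unique a2

theorem IsExp.isJac {g : RM M} {p : M} {Ex : E → M} (h : IsExp g p Ex) (v w : E) :
    IsJac g (fun t : ℝ => Ex (t • v)) (fun t : ℝ => dE Ex (t • v) (t • w)) := by
  intro t x hx
  have he := expJa_fld h v w hx
  refine ⟨?_, ?_⟩
  · refine ContDiffAt.congr_of_eventuallyEq ?_ he
    exact (expJa_fderiv_smooth h v hx).clm_apply (contDiffAt_id.smul contDiffAt_const)
  · set φ : E → E := chartAt E x ∘ Ex with hφ
    set F : ℝ × ℝ → E := fun z => φ (z.2 • (v + z.1 • w)) with hF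
    have e0 : ∀ s : ℝ, F (0, s) = φ (s • v) := fun s => by simp [hF]
    have hR : RiemAt (metricInChart g x) (F (0, t)) := by
      rw [e0]
      exact riemAt_chart g ((chartAt E x).map_source hx)
    have hL : ContDiffAt ℝ ∞ (fun z : ℝ × ℝ => z.2 • (v + z.1 • w)) (0, t) := by fun_prop
    have hφ' : ContDiffAt ℝ ∞ φ ((fun z : ℝ × ℝ => z.2 • (v + z.1 • w)) (0, t)) := by
      simpa using expJa_contDiffAt h hx
    have hFs : ContDiffAt ℝ ∞ F (0, t) :=
      ContDiffAt.comp (g := φ) (f := fun z : ℝ × ℝ => z.2 • (v + z.1 • w)) (0, t) hφ' hL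
    have hc : Continuous fun e : ℝ => Ex (t • (v + e • w)) :=
      h.smooth.continuous.comp (by fun_prop)
    have hev : ∀ᶠ e in 𝓝 (0 : ℝ), Ex (t • (v + e • w)) ∈ (chartAt E x).source :=
      hc.continuousAt.preimage_mem_nhds ((chartAt E x).open_source.mem_nhds (by simpa using hx))
    have hg : ∀ᶠ e in 𝓝 (0 : ℝ), Geo (metricInChart g x) (fun s => F (e, s)) t := by
      filter_upwards [hev] with e he'
      exact ((h.geo (v + e • w) t).2 x he').2
    refine (lin_of_variation hR hFs hg).congr ?_ ?_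
    · exact Eventually.of_forall fun s => e0 s
    · filter_upwards [he, expJa_ev h hx] with s hs hs'
      rw [hs]
      exact expJa_var ((expJa_contDiffAt h hs').differentiableAt (by simp))

theorem IsExp.dE_zero {g : RM M} {p : M} {Ex : E → M} (h : IsExp g p Ex) (w : E) :
    fderiv ℝ (chartAt E p ∘ Ex) 0 w = w := by
  have hx : Ex 0 ∈ (chartAt E p).source := by
    rw [h.zero]; exact mem_chart_source E p
  have hd : HasFDerivAt (chartAt E p ∘ Ex) (fderiv ℝ (chartAt E p ∘ Ex) 0)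
      ((fun t : ℝ => t • w) 0) := by
    simpa using ((expJa_contDiffAt h hx).differentiableAt (by simp)).hasFDerivAt
  have hm : HasDerivAt (fun t : ℝ => t • w) w 0 := by
    simpa using (hasDerivAt_id (0 : ℝ)).smul_const w
  have a := (hd.comp_hasDerivAt (0 : ℝ) hm).deriv
  rw [← a]
  exact h.init w

theorem IsExp.deriv_fld {g : RM M} {p : M} {Ex : E → M} (h : IsExp g p Ex) (v w : E) :
    deriv (fld p (fun t : ℝ => Ex (t • v)) (fun t : ℝ => dE Ex (t • v) (t • w))) 0 = w := by
  have hx : Ex ((0 : ℝ) • v) ∈ (chartAt E p).source := by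
    rw [zero_smul, h.zero]; exact mem_chart_source E p
  rw [(expJa_fld h v w hx).deriv_eq]
  have h1 := ((expJa_fderiv_smooth h v hx).differentiableAt (by simp)).hasDerivAt
  have hm : HasDerivAt (fun t : ℝ => t • w) w 0 := by
    simpa using (hasDerivAt_id (0 : ℝ)).smul_const w
  have a := (h1.clm_apply hm).deriv
  rw [a]
  simp [h.dE_zero w]

theorem IsExp.injective_of_noConj {g : RM M} {p : M} {Ex : E → M} (h : IsExp g p Ex)
    (hg : NoConj g) (v : E) : Function.Injective (dE Ex v) := by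
  rw [injective_iff_map_eq_zero]
  intro w hw
  have hz := hg _ _ (h.geo v) (h.isJac v w) 0 1 zero_ne_one (by simp) (by simpa using hw)
  have e : fld p (fun t : ℝ => Ex (t • v)) (fun t : ℝ => dE Ex (t • v) (t • w)) = fun _ => 0 := by
    funext s
    have := hz s
    simp only [fld] at this ⊢
    rw [this, map_zero]
  have a := h.deriv_fld v w
  rw [e] at a
  simpa using a.symm

theorem expJb_two {f f₁ d : ℝ → ℝ} {k t : ℝ} (e : f =ᶠ[𝓝 t] f₁)
    (h₁ : ∀ᶠ s in 𝓝 t, HasDerivAt f₁ (d s) s) (h₂ : HasDerivAt d k t) :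
    HasDerivAt f (d t) t ∧ HasDerivAt (deriv f) k t := by
  refine ⟨h₁.self_of_nhds.congr_of_eventuallyEq e, h₂.congr_of_eventuallyEq ?_⟩
  filter_upwards [e.deriv, h₁] with s h3 h4
  rw [h3, h4.deriv]

theorem expJb_near {g : RM M} {γ : ℝ → M} (hγ : IsGeo g γ) {t : ℝ} {x : M}
    (hx : γ t ∈ (chartAt E x).source) : ∀ᶠ s in 𝓝 t, γ s ∈ (chartAt E x).source ∧
      RiemAt (metricInChart g x) ((chartAt E x ∘ γ) s) := by
  filter_upwards [(hγ t).1.eventually ((chartAt E x).open_source.mem_nhds hx)] with s hs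
  exact ⟨hs, riemAt_chart g ((chartAt E x).map_source hs)⟩

theorem expJb_sq {g : RM M} {γ : ℝ → M} {J : ℝ → E} (hγ : IsGeo g γ) (hJ : IsJac g γ J) {t : ℝ}
    {x : M} (hx : γ t ∈ (chartAt E x).source) :
    HasDerivAt (fun s => ip g (γ s) (J s) (J s))
      (2 * Bil (metricInChart g x) ((chartAt E x ∘ γ) t)
        (cov (metricInChart g x) (chartAt E x ∘ γ) (fld x γ J) t) (fld x γ J t)) t ∧
    HasDerivAt (deriv fun s => ip g (γ s) (J s) (J s))
      (2 * (Bil (metricInChart g x) ((chartAt E x ∘ γ) t)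
        (cov (metricInChart g x) (chartAt E x ∘ γ) (fld x γ J) t)
        (cov (metricInChart g x) (chartAt E x ∘ γ) (fld x γ J) t) -
        secNumer (metricInChart g x) ((chartAt E x ∘ γ) t) (fld x γ J t)
          (deriv (chartAt E x ∘ γ) t))) t := by
  have h1 := expJb_near hγ hx
  have h2 := jacNear_chart hγ hJ hx
  obtain ⟨a1, a2, a3, a4⟩ := h2.self_of_nhds
  refine expJb_two (f₁ := fun s => Bil (metricInChart g x) ((chartAt E x ∘ γ) s) (fld x γ J s)
    (fld x γ J s)) (d := fun s => 2 * Bil (metricInChart g x) ((chartAt E x ∘ γ) s)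
      (cov (metricInChart g x) (chartAt E x ∘ γ) (fld x γ J) s) (fld x γ J s)) ?_ ?_
    ((hasDerivAt_covV h1.self_of_nhds.2 a1 a3 a2 a4).const_mul 2)
  · filter_upwards [h1] with s hs
    exact ip_eq_chart g hs.1 _ _
  · filter_upwards [h1, h2] with s hs hs'
    have := hs.2.hasDerivAt_bil (hs'.1.differentiableAt (by simp))
      (hs'.2.2.1.differentiableAt (by simp)) (hs'.2.2.1.differentiableAt (by simp))
    rwa [hs.2.symm (fld x γ J s), ← two_mul] at this

theorem expJb_mixed {g : RM M} {γ : ℝ → M} {J : ℝ → E} (hγ : IsGeo g γ) (hJ : IsJac g γ J) {t : ℝ}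
    {x : M} (hx : γ t ∈ (chartAt E x).source) :
    HasDerivAt (fun s => ip g (γ s) (J s) (vel γ s))
      (Bil (metricInChart g x) ((chartAt E x ∘ γ) t)
        (cov (metricInChart g x) (chartAt E x ∘ γ) (fld x γ J) t) (deriv (chartAt E x ∘ γ) t)) t ∧
    HasDerivAt (deriv fun s => ip g (γ s) (J s) (vel γ s)) 0 t := by
  have h1 := expJb_near hγ hx
  have h2 := jacNear_chart hγ hJ hx
  obtain ⟨a1, a2, a3, a4⟩ := h2.self_of_nhds
  refine expJb_two (f₁ := fun s => Bil (metricInChart g x) ((chartAt E x ∘ γ) s) (fld x γ J s)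
    (deriv (chartAt E x ∘ γ) s)) (d := fun s => Bil (metricInChart g x) ((chartAt E x ∘ γ) s)
      (cov (metricInChart g x) (chartAt E x ∘ γ) (fld x γ J) s) (deriv (chartAt E x ∘ γ) s)) ?_ ?_
    (hasDerivAt_gauss h1.self_of_nhds.2 a1 a3 a2 a4)
  · filter_upwards [h1] with s hs
    rw [ip_eq_chart g hs.1, dch_vel (hγ s).contMDiffAt hs.1]
    rfl
  · filter_upwards [h1, h2] with s hs hs'
    have h3 : DifferentiableAt ℝ (deriv (chartAt E x ∘ γ)) s :=
      (hs'.1.derivWithin (m := ∞) le_rfl).differentiableAt (by simp)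
    have := hs.2.hasDerivAt_bil (hs'.1.differentiableAt (by simp))
      (hs'.2.2.1.differentiableAt (by simp)) h3
    have h4 : cov (metricInChart g x) (chartAt E x ∘ γ) (deriv (chartAt E x ∘ γ)) s = 0 := hs'.2.1
    rwa [h4, map_zero, add_zero] at this

theorem expJb_init {g : RM M} {p : M} {Ex : E → M} (h : IsExp g p Ex) (v w : E) :
    (fun t : ℝ => Ex (t • v)) 0 ∈ (chartAt E p).source ∧
    (chartAt E p ∘ fun t : ℝ => Ex (t • v)) 0 = chartAt E p p ∧
    fld p (fun t : ℝ => Ex (t • v)) (fun t : ℝ => dE Ex (t • v) (t • w)) 0 = 0 ∧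
    cov (metricInChart g p) (chartAt E p ∘ fun t : ℝ => Ex (t • v))
      (fld p (fun t : ℝ => Ex (t • v)) (fun t : ℝ => dE Ex (t • v) (t • w))) 0 = w := by
  have h1 : fld p (fun t : ℝ => Ex (t • v)) (fun t : ℝ => dE Ex (t • v) (t • w)) 0 = 0 := by
    simp [fld]
  refine ⟨by simp [h.zero], by simp [h.zero], h1, ?_⟩
  rw [cov, h1, map_zero, add_zero, h.deriv_fld]

theorem expJb_vel {g : RM M} {p : M} {Ex : E → M} (h : IsExp g p Ex) (v : E) :
    vel (fun t : ℝ => Ex (t • v)) 1 = dE Ex v v := by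
  have h1 := (contDiffAt_chart_comp (h.smooth v) (mem_chart_source E (Ex v))).differentiableAt
    (by simp)
  have h2 := h1.hasFDerivAt.comp_hasDerivAt_of_eq 1 ((hasDerivAt_id (1 : ℝ)).smul_const v) (by simp)
  rw [← dch_dE (h.smooth v) (mem_chart_source E (Ex v)), dch_self, one_smul] at h2
  unfold vel
  simp only [one_smul]
  exact h2.deriv

/-- Non-positive curvature: `exp` does not decrease lengths (`hasDerivAt_covV`, `RiemAt.cs`,
`le_of_sqrt_convex`; at each `s` work in the preferred chart at `γ s`). -/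
theorem IsExp.expand {g : RM M} {p : M} {Ex : E → M} (h : IsExp g p Ex)
    (hg : HasNonposSectionalCurvature g) (v w : E) :
    ip g p w w ≤ ip g (Ex v) (dE Ex v w) (dE Ex v w) := by
  have hγ := h.geo v
  have hJ := h.isJac v w
  obtain ⟨i1, i2, i3, i4⟩ := expJb_init h v w
  have e0 : ip g ((fun t : ℝ => Ex (t • v)) 0) ((fun t : ℝ => dE Ex (t • v) (t • w)) 0)
      ((fun t : ℝ => dE Ex (t • v) (t • w)) 0) = 0 := by
    simp [ip_eq_self]
  have e1 : ip g ((fun t : ℝ => Ex (t • v)) 1) ((fun t : ℝ => dE Ex (t • v) (t • w)) 1)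
      ((fun t : ℝ => dE Ex (t • v) (t • w)) 1) = ip g (Ex v) (dE Ex v w) (dE Ex v w) := by
    simp only [one_smul]
  generalize (fun t : ℝ => Ex (t • v)) = γ at *
  generalize (fun t : ℝ => dE Ex (t • v) (t • w)) = J at *
  have key := fun t => expJb_sq hγ hJ (mem_chart_source E (γ t))
  have hR := fun t => (expJb_near hγ (mem_chart_source E (γ t))).self_of_nhds.2
  have hH : ∀ t, ip g (γ t) (J t) (J t) = Bil (metricInChart g (γ t)) ((chartAt E (γ t) ∘ γ) t)
      (fld (γ t) γ J t) (fld (γ t) γ J t) := fun t => ip_eq_chart g (mem_chart_source E (γ t)) _ _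
  have h0 : ∀ t, 0 ≤ ip g (γ t) (J t) (J t) := fun t => by rw [hH]; exact (hR t).nonneg _
  have hs : ∀ t, secNumer (metricInChart g (γ t)) ((chartAt E (γ t) ∘ γ) t) (fld (γ t) γ J t)
      (deriv (chartAt E (γ t) ∘ γ) t) ≤ 0 := fun t => hg (γ t) _ _
  have main := le_of_sqrt_convex (h := fun s => ip g (γ s) (J s) (J s))
    (r := fun s => deriv (fun s => ip g (γ s) (J s) (J s)) s / 2)
    (k := fun s => deriv (deriv fun s => ip g (γ s) (J s) (J s)) s / 2) h0
    (fun s => by rw [mul_div_cancel₀ _ two_ne_zero]; exact (key s).1.differentiableAt.hasDerivAt)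
    (fun s => (key s).2.differentiableAt.hasDerivAt.div_const 2)
    (fun s => by
      rw [(key s).2.deriv]
      linarith [(hR s).nonneg (cov (metricInChart g (γ s)) (chartAt E (γ s) ∘ γ) (fld (γ s) γ J) s),
        hs s])
    (fun s => by
      rw [(key s).2.deriv, (key s).1.deriv, mul_div_cancel_left₀ _ two_ne_zero,
        mul_div_cancel_left₀ _ two_ne_zero]
      refine ((hR s).cs _ _).trans ?_
      rw [← hH, mul_comm]
      exact mul_le_mul_of_nonneg_left (by linarith [hs s]) (h0 s))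
    e0 (by rw [(expJb_sq hγ hJ i1).1.deriv, i3]; simp)
  rw [(expJb_sq hγ hJ i1).2.deriv, (expJb_near hγ i1).self_of_nhds.2.secNumer_eq, i3, i4, i2,
    map_zero, sub_zero, mul_div_cancel_left₀ _ two_ne_zero, e1, ← ip_eq_self] at main
  exact main

/-- Gauss lemma: `k s = ip (J s) (γ' s)` has `k 0 = 0`, `k' = ⟨DJ, γ'⟩` constant
(`hasDerivAt_gauss`) equal to `ip p w v`; and `vel γ 1 = dE Ex v v`. -/
theorem IsExp.gauss {g : RM M} {p : M} {Ex : E → M} (h : IsExp g p Ex) (v w : E) :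
    ip g (Ex v) (dE Ex v w) (dE Ex v v) = ip g p w v := by
  have hγ := h.geo v
  have hJ := h.isJac v w
  obtain ⟨i1, i2, -, i4⟩ := expJb_init h v w
  have i5 : deriv (chartAt E p ∘ fun t : ℝ => Ex (t • v)) 0 = v := h.init v
  have e0 : ip g ((fun t : ℝ => Ex (t • v)) 0) ((fun t : ℝ => dE Ex (t • v) (t • w)) 0)
      (vel (fun t : ℝ => Ex (t • v)) 0) = 0 := by
    simp [ip_eq_self]
  have e1 : ip g ((fun t : ℝ => Ex (t • v)) 1) ((fun t : ℝ => dE Ex (t • v) (t • w)) 1)
      (vel (fun t : ℝ => Ex (t • v)) 1) = ip g (Ex v) (dE Ex v w) (dE Ex v v) := by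
    simp only [one_smul, expJb_vel h]
  generalize (fun t : ℝ => Ex (t • v)) = γ at *
  generalize (fun t : ℝ => dE Ex (t • v) (t • w)) = J at *
  have key := fun t => expJb_mixed hγ hJ (mem_chart_source E (γ t))
  have h1 : ∀ t, deriv (fun s => ip g (γ s) (J s) (vel γ s)) t = ip g p w v := fun t => by
    rw [is_const_of_deriv_eq_zero (fun s => (key s).2.differentiableAt) (fun s => (key s).2.deriv)
      t 0, (expJb_mixed hγ hJ i1).1.deriv, i4, i5, i2, ← ip_eq_self]
  have h2 : ∀ t, HasDerivAt (fun s => ip g (γ s) (J s) (vel γ s) - s * ip g p w v) 0 t := fun t => by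
    have := (key t).1.differentiableAt.hasDerivAt.sub ((hasDerivAt_id t).mul_const (ip g p w v))
    rwa [h1, one_mul, sub_self] at this
  have h3 := is_const_of_deriv_eq_zero (fun s => (h2 s).differentiableAt) (fun s => (h2 s).deriv) 1 0
  rw [e0, e1] at h3
  linarith

end Crest.Agent.R244
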