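import Crest.Agent.R244.GeoM
/-!
# R244: the exponential map is smooth
Let `Γ v` be the complete geodesic with initial data `(p, v)`. The set `S` of `t` such that
`(v, s) ↦ Γ v s` is `ContMDiffOn` an open neighbourhood of `(v₀, t)` is open; it contains `0` and is
closed: at a limit `t₁` take `q = Γ v₀ t₁` and the local flow `Ψ` of `exists_local_flow` at
`(chartAt q q, velocity)`; for `t₂ ∈ S` close to `t₁` and `v` near `v₀` the data
`(chartAt q (Γ v t₂), ∂ₜ chartAt q (Γ v t) at t₂)` are smooth in `v` and lie in the balls, and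
`Γ v t = (chartAt q).symm (Ψ (data, t - t₂))` for `|t - t₂| < ε` by `geo_unique`.
Finally `Γ v t = Γ (t • v) 1` by `IsGeo.unique` and affine reparametrisation.
-/

set_option autoImplicit false

open scoped ContDiff Manifold Topology
open Bundle Filter Set
open Crest.GeometryTopology.CoordMetric Crest.GeometryTopology.ChartCurvature
  Crest.GeometryTopology.Geodesic

noncomputable section

namespace Crest.Agent.R244

variable {M : Type*} [TopologicalSpace M] [ChartedSpace E M] [IsManifold 𝓘(ℝ, E) ∞ M]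

/-- A geodesic is given by the local flow near a parameter. -/
theorem expM_flow_eq [T2Space M] {g : RM M} {q : M} {γ : ℝ → M} (hγ : IsGeo g γ) {t₂ ε : ℝ}
    (hε : 0 < ε) (hq : γ t₂ ∈ (chartAt E q).source) {c : ℝ → E}
    (hs : ∀ t ∈ Ioo (-ε) ε, ContDiffAt ℝ ∞ c t) (h0 : c 0 = chartAt E q (γ t₂))
    (h1 : deriv c 0 = deriv (chartAt E q ∘ γ) t₂)
    (hg : ∀ t ∈ Ioo (-ε) ε, c t ∈ (chartAt E q).target ∧ Geo (metricInChart g q) c t) :
    EqOn γ (fun t => (chartAt E q).symm (c (t - t₂))) (Ioo (t₂ - ε) (t₂ + ε)) := by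
  have hmem : ∀ t ∈ Ioo (t₂ - ε) (t₂ + ε), t - t₂ ∈ Ioo (-ε) ε := fun t ht =>
    ⟨by linarith [ht.1], by linarith [ht.2]⟩
  have hev : ∀ t ∈ Ioo (t₂ - ε) (t₂ + ε), (fun s => c (1 * s + -t₂)) =ᶠ[𝓝 t]
      chartAt E q ∘ fun s => (chartAt E q).symm (c (s - t₂)) := by
    intro t ht
    filter_upwards [isOpen_Ioo.mem_nhds ht] with s hs'
    simp only [Function.comp_apply]
    rw [(chartAt E q).right_inv (hg _ (hmem s hs')).1, one_mul, sub_eq_add_neg]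
  have hsm : ∀ t ∈ Ioo (t₂ - ε) (t₂ + ε), ContDiffAt ℝ ∞ (fun s => c (1 * s + -t₂)) t := by
    intro t ht
    have h1 : ContDiffAt ℝ ∞ c (1 * t + -t₂) := by
      rw [one_mul, ← sub_eq_add_neg]; exact hs _ (hmem t ht)
    exact h1.comp t (f := fun s : ℝ => 1 * s + -t₂) (by fun_prop)
  have hgeo : ∀ t ∈ Ioo (t₂ - ε) (t₂ + ε),
      GeoAt g (fun s => (chartAt E q).symm (c (s - t₂))) t := by
    intro t ht
    refine geoAt_of_chart (x := q) ?_ ((chartAt E q).map_target (hg _ (hmem t ht)).1)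
      ((hsm t ht).congr_of_eventuallyEq (hev t ht).symm) ?_
    · have hc : ContinuousAt (fun s => c (s - t₂)) t :=
        ContinuousAt.comp (f := fun s : ℝ => s - t₂) (hs _ (hmem t ht)).continuousAt (by fun_prop)
      exact ContinuousAt.comp (f := fun s => c (s - t₂))
        ((chartAt E q).continuousAt_symm (hg _ (hmem t ht)).1) hc
    · refine Geo.congr (Geo.comp_affine ?_ ?_) (hev t ht)
      · rw [one_mul, ← sub_eq_add_neg]; exact hs _ (hmem t ht)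
      · rw [one_mul, ← sub_eq_add_neg]; exact (hg _ (hmem t ht)).2
  have ht₂ : t₂ ∈ Ioo (t₂ - ε) (t₂ + ε) := ⟨by linarith, by linarith⟩
  have e₀ : γ t₂ = (chartAt E q).symm (c (t₂ - t₂)) := by
    rw [sub_self, h0, (chartAt E q).left_inv hq]
  refine geo_unique ht₂ (fun t _ => hγ t) hgeo e₀ ?_
  apply (dch_bijective hq).1
  have h2 := dch_vel (hgeo t₂ ht₂).contMDiffAt (x := q) (by rw [← e₀]; exact hq)
  rw [← e₀] at h2
  rw [dch_vel (hγ t₂).contMDiffAt hq, h2, ← (hev t₂ ht₂).deriv_eq, ← h1]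
  have hd : HasDerivAt c (deriv c 0) (1 * t₂ + -t₂) := by
    rw [one_mul, add_neg_cancel]
    exact ((hs 0 ⟨by linarith, hε⟩).differentiableAt (by simp)).hasDerivAt
  have hl : HasDerivAt (fun s : ℝ => 1 * s + -t₂) 1 t₂ := by
    simpa using ((hasDerivAt_id t₂).const_mul 1).add_const (-t₂)
  have := (hd.scomp t₂ hl).deriv
  rw [one_smul] at this
  exact this.symm

/-- Propagation of smoothness along a geodesic. -/
theorem expM_step [T2Space M] {g : RM M} {Γ : E → ℝ → M} (h : ∀ v, IsGeo g (Γ v)) (v₀ : E)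
    (t₁ : ℝ) : ∃ δ > (0 : ℝ), ∀ t₂, |t₂ - t₁| < δ →
      Γ v₀ t₂ ∈ (chartAt E (Γ v₀ t₁)).source ∧
      ((∀ᶠ v in 𝓝 v₀, Γ v t₂ ∈ (chartAt E (Γ v₀ t₁)).source ∧
        ContDiffAt ℝ ∞ (fun v => (chartAt E (Γ v₀ t₁) (Γ v t₂),
          deriv (chartAt E (Γ v₀ t₁) ∘ Γ v) t₂)) v) →
      ∀ᶠ z in 𝓝 (v₀, t₁), ContMDiffAt 𝓘(ℝ, E × ℝ) 𝓘(ℝ, E) ∞ (fun z : E × ℝ => Γ z.1 z.2) z) := by
  set q := Γ v₀ t₁ with hq
  have hqs : q ∈ (chartAt E q).source := mem_chart_source E q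
  have hqt : chartAt E q q ∈ (chartAt E q).target := (chartAt E q).map_source hqs
  obtain ⟨ε, hε, η, hη, Ψ, hΨ, hfl⟩ := exists_local_flow (riemAt_chart g hqt)
    (deriv (chartAt E q ∘ Γ v₀) t₁) ((chartAt E q).open_target.mem_nhds hqt)
  have hsm : ContDiffAt ℝ ∞ (chartAt E q ∘ Γ v₀) t₁ := ((h v₀ t₁).2 q hqs).1
  have hc1 : ContinuousAt (deriv (chartAt E q ∘ Γ v₀)) t₁ := by
    have h1 : ContinuousAt (fderiv ℝ (chartAt E q ∘ Γ v₀)) t₁ :=
      hsm.continuousAt_fderiv (by simp)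
    exact h1.clm_apply continuousAt_const
  have hev : ∀ᶠ t in 𝓝 t₁, Γ v₀ t ∈ (chartAt E q).source ∧
      chartAt E q (Γ v₀ t) ∈ Metric.ball (chartAt E q q) η ∧
      deriv (chartAt E q ∘ Γ v₀) t ∈ Metric.ball (deriv (chartAt E q ∘ Γ v₀) t₁) η ∧
      t ∈ Metric.ball t₁ ε := by
    refine Filter.Eventually.and ?_ (Filter.Eventually.and ?_ (Filter.Eventually.and ?_ ?_))
    · exact (h v₀ t₁).1.eventually ((chartAt E q).open_source.mem_nhds hqs)
    · exact hsm.continuousAt.eventually (Metric.ball_mem_nhds _ hη)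
    · exact hc1.eventually (Metric.ball_mem_nhds _ hη)
    · exact Metric.ball_mem_nhds _ hε
  obtain ⟨δ, hδ, hb⟩ := Metric.eventually_nhds_iff.1 hev
  refine ⟨δ, hδ, fun t₂ ht₂ => ?_⟩
  obtain ⟨b1, b2, b3, b4⟩ := hb (y := t₂) (by rwa [Real.dist_eq])
  refine ⟨b1, fun hD => ?_⟩
  set D : E → E × E := fun v => (chartAt E q (Γ v t₂), deriv (chartAt E q ∘ Γ v) t₂) with hDdef
  set B : Set (E × E) := Metric.ball (chartAt E q q) η ×ˢ
    Metric.ball (deriv (chartAt E q ∘ Γ v₀) t₁) η with hB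
  have hBo : IsOpen B := Metric.isOpen_ball.prod Metric.isOpen_ball
  have hBI : IsOpen (B ×ˢ Ioo (-ε) ε) := hBo.prod isOpen_Ioo
  have hDB : ∀ᶠ v in 𝓝 v₀, D v ∈ B :=
    hD.self_of_nhds.2.continuousAt.eventually (hBo.mem_nhds ⟨b2, b3⟩)
  have ht₁ : t₁ ∈ Ioo (t₂ - ε) (t₂ + ε) := by
    rw [Metric.mem_ball, Real.dist_eq, abs_lt] at b4
    exact ⟨by linarith [b4.2], by linarith [b4.1]⟩
  have hz : ∀ᶠ z : E × ℝ in 𝓝 (v₀, t₁),
      ((Γ z.1 t₂ ∈ (chartAt E q).source ∧ ContDiffAt ℝ ∞ D z.1) ∧ D z.1 ∈ B) ∧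
        z.2 ∈ Ioo (t₂ - ε) (t₂ + ε) :=
    (hD.and hDB).prodMk_nhds (py := fun t => t ∈ Ioo (t₂ - ε) (t₂ + ε)) (isOpen_Ioo.mem_nhds ht₁)
  have heq : ∀ z : E × ℝ, ((Γ z.1 t₂ ∈ (chartAt E q).source ∧ ContDiffAt ℝ ∞ D z.1) ∧ D z.1 ∈ B) ∧
      z.2 ∈ Ioo (t₂ - ε) (t₂ + ε) →
      Γ z.1 z.2 = (chartAt E q).symm (Ψ (D z.1, z.2 - t₂)) := by
    rintro ⟨v, t⟩ ⟨⟨⟨h1, -⟩, h3⟩, h4⟩
    obtain ⟨f0, f1, f2⟩ := hfl _ h3.1 _ h3.2
    refine expM_flow_eq (h v) hε h1 (c := fun s => Ψ (D v, s)) ?_ f0 f1 f2 h4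
    intro s hs
    have h5 : ContDiffAt ℝ ∞ Ψ (D v, s) := hΨ.contDiffAt (hBI.mem_nhds ⟨h3, hs⟩)
    exact h5.comp s (f := fun s : ℝ => (D v, s)) (by fun_prop)
  filter_upwards [hz.eventually_nhds] with z hz'
  obtain ⟨⟨⟨-, h2⟩, h3⟩, h4⟩ := hz'.self_of_nhds
  have hs : z.2 - t₂ ∈ Ioo (-ε) ε := ⟨by linarith [h4.1], by linarith [h4.2]⟩
  have h5 : ContDiffAt ℝ ∞ Ψ (D z.1, z.2 - t₂) := hΨ.contDiffAt (hBI.mem_nhds ⟨h3, hs⟩)
  have h6 : ContDiffAt ℝ ∞ (fun z : E × ℝ => Ψ (D z.1, z.2 - t₂)) z :=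
    h5.comp z (f := fun z : E × ℝ => (D z.1, z.2 - t₂))
      ((h2.comp z contDiffAt_fst).prodMk (by fun_prop))
  have h7 : Ψ (D z.1, z.2 - t₂) ∈ (chartAt E q).target := ((hfl _ h3.1 _ h3.2).2.2 _ hs).1
  have h8 : ContMDiffAt 𝓘(ℝ, E) 𝓘(ℝ, E) ∞ (chartAt E q).symm (Ψ (D z.1, z.2 - t₂)) :=
    (contMDiffOn_chart_symm (I := 𝓘(ℝ, E)) (x := q)).contMDiffAt
      ((chartAt E q).open_target.mem_nhds h7)
  have h9 := h8.comp z (f := fun z : E × ℝ => Ψ (D z.1, z.2 - t₂)) h6.contMDiffAt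
  exact h9.congr_of_eventuallyEq (hz'.mono heq)

theorem contMDiff_geo_family [T2Space M] {g : RM M} {p : M} {Γ : E → ℝ → M}
    (h₀ : ∀ v, Γ v 0 = p) (h₁ : ∀ v, vel (Γ v) 0 = v) (h : ∀ v, IsGeo g (Γ v)) :
    ContMDiff 𝓘(ℝ, E × ℝ) 𝓘(ℝ, E) ∞ (fun z : E × ℝ => Γ z.1 z.2) := by
  rintro ⟨v₀, t₀⟩
  set F : E × ℝ → M := fun z => Γ z.1 z.2 with hF
  set S : Set ℝ := {t | ∀ᶠ z in 𝓝 (v₀, t), ContMDiffAt 𝓘(ℝ, E × ℝ) 𝓘(ℝ, E) ∞ F z} with hS
  have hopen : IsOpen S := by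
    rw [isOpen_iff_mem_nhds]
    intro t ht
    have hc : ContinuousAt (fun s : ℝ => (v₀, s)) t := by fun_prop
    exact hc.eventually (Filter.Eventually.eventually_nhds ht)
  have hzero : (0 : ℝ) ∈ S := by
    obtain ⟨δ, hδ, hst⟩ := expM_step h v₀ 0
    refine (hst 0 (by simpa using hδ)).2 (Filter.Eventually.of_forall fun v => ⟨?_, ?_⟩)
    · rw [h₀, h₀]; exact mem_chart_source E p
    · have : (fun v => (chartAt E (Γ v₀ 0) (Γ v 0), deriv (chartAt E (Γ v₀ 0) ∘ Γ v) 0)) =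
          fun v => (chartAt E p p, v) := by
        funext w
        have h2 := h₁ w
        rw [vel, h₀] at h2
        rw [h₀, h₀, h2]
      rw [this]
      fun_prop
  have hclosed : IsClosed S := by
    rw [← closure_subset_iff_isClosed]
    intro t₁ ht₁
    obtain ⟨δ, hδ, hst⟩ := expM_step h v₀ t₁
    obtain ⟨t₂, ht₂, hd⟩ := Metric.mem_closure_iff.1 ht₁ δ hδ
    obtain ⟨hsrc, himp⟩ := hst t₂ (by rwa [Real.dist_eq, abs_sub_comm] at hd)
    refine himp ?_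
    set q := Γ v₀ t₁ with hq
    have h1 : ∀ᶠ z in 𝓝 (v₀, t₂), F z ∈ (chartAt E q).source :=
      (Filter.Eventually.self_of_nhds ht₂).continuousAt.eventually
        ((chartAt E q).open_source.mem_nhds hsrc)
    have h2 : ∀ᶠ z in 𝓝 (v₀, t₂), F z ∈ (chartAt E q).source ∧
        ContDiffAt ℝ ∞ (chartAt E q ∘ F) z := by
      filter_upwards [h1, ht₂] with z hz hz'
      exact ⟨hz, contDiffAt_chart_comp hz' hz⟩
    have hc : ContinuousAt (fun v : E => (v, t₂)) v₀ := by fun_prop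
    have h3 := hc.eventually h2
    filter_upwards [h3.eventually_nhds] with v hv
    obtain ⟨h4, h5⟩ := hv.self_of_nhds
    refine ⟨h4, ContDiffAt.prodMk ?_ ?_⟩
    · exact h5.comp v (f := fun v : E => (v, t₂)) (by fun_prop)
    · have h6 : ContDiffAt ℝ ∞ (fderiv ℝ (chartAt E q ∘ F)) (v, t₂) :=
        h5.fderiv_right (m := ∞) (by simp)
      have h7 : ContDiffAt ℝ ∞ (fun v : E => fderiv ℝ (chartAt E q ∘ F) (v, t₂) (0, 1)) v :=
        (h6.comp v (f := fun v : E => (v, t₂)) (by fun_prop)).clm_apply contDiffAt_const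
      refine h7.congr_of_eventuallyEq ?_
      filter_upwards [hv] with w hw
      have h8 : HasFDerivAt (chartAt E q ∘ F) (fderiv ℝ (chartAt E q ∘ F) (w, t₂)) (w, t₂) :=
        (hw.2.differentiableAt (by simp)).hasFDerivAt
      have h9 : HasDerivAt (fun s : ℝ => (w, s)) ((0 : E), (1 : ℝ)) t₂ :=
        (hasDerivAt_const t₂ w).prodMk (hasDerivAt_id t₂)
      exact (h8.comp_hasDerivAt t₂ h9).deriv
  have huniv : S = univ := IsClopen.eq_univ ⟨hclosed, hopen⟩ ⟨0, hzero⟩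
  have : t₀ ∈ S := huniv ▸ mem_univ t₀
  exact Filter.Eventually.self_of_nhds this

theorem exists_isExp [CompactSpace M] [T2Space M] (g : RM M) (p : M) :
    ∃ Ex : E → M, IsExp g p Ex := by
  choose Γ h₀ h₁ h using exists_isGeo g p
  have key : ∀ (v : E) (t : ℝ), Γ (t • v) 1 = Γ v t := by
    intro v t
    have hg : IsGeo g (fun s => Γ v (t * s + 0)) := fun s => (h v _).comp_affine
    have := (h (t • v)).unique hg (by simp [h₀]) (by
      rw [vel_comp_affine (h v _), h₁]; simp [h₁])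
    simpa using congrFun this 1
  refine ⟨fun v => Γ v 1, ?_, fun v => ?_, by simpa [h₀] using key 0 0, fun v => ?_⟩
  · have hc : ContMDiff 𝓘(ℝ, E) 𝓘(ℝ, E × ℝ) ∞ (fun v : E => (v, (1 : ℝ))) :=
      ContDiff.contMDiff (by fun_prop)
    exact (contMDiff_geo_family h₀ h₁ h).comp hc
  · simp only [key]; exact h v
  · simp only [key]
    have h2 := h₁ v
    rw [vel, h₀] at h2
    exact h2

theorem IsExp.vel_zero {g : RM M} {p : M} {Ex : E → M} (h : IsExp g p Ex) (v : E) :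
    vel (fun t : ℝ => Ex (t • v)) 0 = v := by
  have h2 := h.init v
  rw [vel, zero_smul, h.zero]
  exact h2

theorem IsExp.eq_geo [T2Space M] {g : RM M} {p : M} {Ex : E → M} (h : IsExp g p Ex) {γ : ℝ → M}
    (hγ : IsGeo g γ) (e : γ 0 = p) (t : ℝ) : γ t = Ex (t • vel γ 0) := by
  have := hγ.unique (h.geo (vel γ 0)) (by rw [zero_smul, h.zero, e]) (h.vel_zero _).symm
  exact congrFun this t

end Crest.Agent.R244
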