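import Crest.Agent.R244.GlueB
import Crest.Agent.R244.Bridge1
/-!
# R244: the glued metric
`inner x := Bil (D.G (ix x)) (chartAt x x)`. In the trivialisation at `x₀` the section is
`x ↦ Bil (D.G (ix x₀)) (chartAt x₀ x)` by the isometry property `Glue.chart_comp` of the transition
maps, which is smooth (`RiemAt.contDiffAt_bil`); see `contMDiffAt_section`, `contMDiffAt_hom_bundle`,
`inCoordinates`, and the construction of `riemannianMetricVectorSpace` in Mathlib.
-/

set_option autoImplicit false

open scoped ContDiff Manifold Topology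
open Bundle Filter Set
open Crest.GeometryTopology.CoordMetric Crest.GeometryTopology.ChartCurvature
  Crest.GeometryTopology.Geodesic

noncomputable section

namespace Crest.Agent.R244

variable {M : Type} [TopologicalSpace M] [ChartedSpace E M] [IsManifold 𝓘(ℝ, E) ∞ M]

theorem glueC_key (D : Glue) {pm : Fin 3 → E → M} {ix : M → Fin 3} (h : D.TopSpec pm)
    (hc : D.ChartSpec pm ix) {x m : M} (hm : m ∈ (chartAt E x).source) (u v : E) :
    Bil (D.G (ix m)) (chartAt E m m) (b1a_sch x (chartAt E x m) u) (b1a_sch x (chartAt E x m) v) =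
      Bil (D.G (ix x)) (chartAt E x m) u v := by
  have hy : chartAt E x m ∈ (chartAt E x).target := (chartAt E x).map_source hm
  have e1 : (chartAt E x).symm (chartAt E x m) = m := (chartAt E x).left_inv hm
  have e2 : pm (ix x) (chartAt E x m) = m := by rw [← hc.symm x _ hy, e1]
  have h1 := ((D.chart_comp h hc (hc.target x hy) (x := m)
    (by rw [e2]; exact mem_chart_source E m)).1.self_of_nhds).2 u v
  have hev : (chartAt E m ∘ pm (ix x)) =ᶠ[𝓝 (chartAt E x m)] chartAt E m ∘ (chartAt E x).symm := by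
    filter_upwards [(chartAt E x).open_target.mem_nhds hy] with y hy'
    simp only [Function.comp_apply, hc.symm x y hy']
  have key : ∀ w : E, fderiv ℝ (chartAt E m ∘ pm (ix x)) (chartAt E x m) w =
      b1a_sch x (chartAt E x m) w := by
    intro w
    have h2 := dch_comp hm (mem_chart_source E m) (b1a_sch x (chartAt E x m) w)
    have h3 := b1a_dch_sch hy w
    rw [e1] at h3
    rw [h3, dch_self] at h2
    rw [hev.fderiv_eq, ← h2]
    rfl
  rw [key, key, Function.comp_apply, e2] at h1
  exact h1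

theorem Glue.exists_metric (D : Glue) {pm : Fin 3 → E → M} {ix : M → Fin 3} (h : D.TopSpec pm)
    (hc : D.ChartSpec pm ix) :
    ∃ g : RM M, ∀ x : M, ∀ u v : E, ip g x u v = Bil (D.G (ix x)) (chartAt E x x) u v := by
  have hr : ∀ x : M, RiemAt (D.G (ix x)) (chartAt E x x) := fun x =>
    D.riem _ _ (hc.target x (mem_chart_target E x))
  refine ⟨⟨fun x => (Bil (D.G (ix x)) (chartAt E x x) : E →L[ℝ] E →L[ℝ] ℝ),
    fun x v w => (hr x).symm v w, fun x v hv => (hr x).pos hv, fun x => ?_, fun x₀ => ?_⟩,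
    fun _ _ _ => rfl⟩
  · change Bornology.IsVonNBounded ℝ {v : E | Bil (D.G (ix x)) (chartAt E x x) v v < 1}
    obtain ⟨a, ha, A, -, hb⟩ := (hr x).exists_bounds
    refine (NormedSpace.isVonNBounded_ball ℝ E (1 / a + 1)).subset fun v hv => ?_
    have h1 := (hb.self_of_nhds v).1
    have h2 : Bil (D.G (ix x)) (chartAt E x x) v v < 1 := hv
    rw [mem_ball_zero_iff]
    by_contra hcon
    have h3 : 1 / a + 1 ≤ ‖v‖ := not_lt.1 hcon
    have h4 : 0 < 1 / a := by positivity
    have h5 : a * (1 / a) = 1 := by field_simp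
    have h6 : ‖v‖ ≤ ‖v‖ ^ 2 := by nlinarith
    nlinarith
  · rw [contMDiffAt_section]
    have h1 : ContMDiffAt 𝓘(ℝ, E) 𝓘(ℝ, E) ∞ (chartAt E x₀) x₀ :=
      (contMDiffOn_chart (I := 𝓘(ℝ, E)) (n := ∞) (x := x₀)).contMDiffAt
        ((chartAt E x₀).open_source.mem_nhds (mem_chart_source E x₀))
    have h2 := (hr x₀).contDiffAt_bil.contMDiffAt.comp x₀ h1
    refine h2.congr_of_eventuallyEq ?_
    filter_upwards [(chartAt E x₀).open_source.mem_nhds (mem_chart_source E x₀)] with m hm
    ext v w
    simp only [Function.comp_apply, hom_trivializationAt_apply]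
    rw [inCoordinates_apply_eq₂ (by simpa using hm) (by simpa using hm) (by simp),
      b1a_symmL hm, b1a_symmL hm, ← glueC_key D h hc hm]
    simp
    rfl

theorem Glue.metricInChart_eq (D : Glue) {pm : Fin 3 → E → M} {ix : M → Fin 3} (h : D.TopSpec pm)
    (hc : D.ChartSpec pm ix) {g : RM M}
    (hg : ∀ x : M, ∀ u v : E, ip g x u v = Bil (D.G (ix x)) (chartAt E x x) u v) (x : M) {y : E}
    (hy : y ∈ (chartAt E x).target) : metricInChart g x y = D.G (ix x) y := by
  ext i j
  have h1 := glueC_key D h hc ((chartAt E x).map_target hy) (EuclideanSpace.single i 1)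
    (EuclideanSpace.single j 1)
  rw [(chartAt E x).right_inv hy] at h1
  rw [b1a_entry, hg, h1, Bil_apply]
  simp [Pi.single_apply, Finset.sum_ite_eq']

theorem Glue.isParam (D : Glue) {pm : Fin 3 → E → M} {ix : M → Fin 3} (h : D.TopSpec pm)
    (hc : D.ChartSpec pm ix) {g : RM M}
    (hg : ∀ x : M, ∀ u v : E, ip g x u v = Bil (D.G (ix x)) (chartAt E x x) u v) (i : Fin 3) :
    IsParam g (D.G i) (D.U i) (pm i) := by
  refine ⟨D.isOpen i, D.riem i, h.cont i, fun p hp x hx => ?_⟩
  have hcont : ContinuousAt (pm i) p := (h.cont i).continuousAt ((D.isOpen i).mem_nhds hp)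
  filter_upwards [(D.chart_comp h hc hp hx).1,
    hcont.eventually_mem ((chartAt E x).open_source.mem_nhds hx)] with y hy hy'
  refine ⟨hy.1, fun u v => ?_⟩
  rw [← hy.2 u v, Bil_apply, Bil_apply, Function.comp_apply,
    D.metricInChart_eq h hc hg x ((chartAt E x).map_source hy')]

end Crest.Agent.R244

namespace Crest.Agent.R244

theorem Glue.exists_manifold (D : Glue) :
    ∃ (M : Type) (_ : TopologicalSpace M) (_ : ChartedSpace E M) (_ : IsManifold 𝓘(ℝ, E) ∞ M)
      (g : RM M) (pm : Fin 3 → E → M), T2Space M ∧ SecondCountableTopology M ∧ IsOrientable 3 M ∧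
      D.TopSpec pm ∧ ∀ i, IsParam g (D.G i) (D.U i) (pm i) := by
  obtain ⟨M, _, pm, h2, hs, h⟩ := D.exists_top
  obtain ⟨_, ix, hc⟩ := D.exists_charts h
  haveI := D.isManifold h hc
  obtain ⟨g, hg⟩ := D.exists_metric h hc
  exact ⟨M, inferInstance, inferInstance, inferInstance, g, pm, h2, hs, D.isOrientable h hc, h,
    D.isParam h hc hg⟩

end Crest.Agent.R244
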