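import Crest.Agent.R244.OmB
import Crest.Agent.R244.OneVar
/-!
# R244: monotonicity of `om` along the flow
For a branch `Ω` (`Q0 - V1 AL`, its twisted version, or `Q0`), the derivative of
`Rg + χ (Ω - Rg)` is `(1-χ) Rg' + χ Ω' + χ' τ (Ω - Rg)`. `χ ≠ 1` or `χ' ≠ 0` only happens for
`t < t₁` (product zone for `H`) or `t₂ < t` (product zone for `H.tw`, where `tw.k = 0`,
`tw.n = m₂`, `tw.m = n - m₂`); `χ ≠ 0` gives `conc` and `kR`.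
`good_L`: `ν ≠ 0` by `V1_of_nu` and `invL`. For `t < t₁` use `L_sub_Rg`; for `t₂ < t`,
`V1 = n' q²` is `≥ 0` and `≤ 0`, so `n' q = 0`, and `Rg_prod` for `H.tw` gives
`τ (Q0 - Rg) = n' τ² (z-y)² / (2 (n-m₂)²) ≤ 0`. `good_R` is the mirror image.
-/

set_option autoImplicit false

open scoped ContDiff Manifold Topology
open Bundle Filter Set
open Crest.GeometryTopology.CoordMetric Crest.GeometryTopology.ChartCurvature
  Crest.GeometryTopology.Geodesic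

noncomputable section

namespace Crest.Agent.R244

variable (Pr : Prof) {σ : ℝ → St} {s : ℝ}

theorem Prof.omC_zoneL {t : ℝ} (h : t < Pr.t₁) :
    ∀ᶠ u in 𝓝 t, Pr.H.k u = 0 ∧ Pr.H.n u = Pr.n₀ := by
  filter_upwards [Iio_mem_nhds h] with u hu using Pr.left u (le_of_lt hu)

theorem Prof.omC_zoneR {t : ℝ} (h : Pr.t₂ < t) :
    ∀ᶠ u in 𝓝 t, Pr.H.tw.k u = 0 ∧ Pr.H.tw.n u = Pr.m₂ := by
  filter_upwards [Ioi_mem_nhds h] with u hu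
  obtain ⟨h1, h2⟩ := Pr.right u (le_of_lt hu)
  refine ⟨?_, h1⟩
  show Pr.H.k u - Pr.H.m u = 0
  rw [h1, h2, sub_self]

theorem Prof.omC_twm {t : ℝ} (h : Pr.t₂ < t) : Pr.H.tw.m t = Pr.H.n t - Pr.m₂ := by
  obtain ⟨h1, h2⟩ := Pr.right t h.le
  show Pr.H.m t - 2 * Pr.H.k t + Pr.H.n t = _
  rw [h1, h2]; ring

theorem Prof.omC_twm' {t : ℝ} (h : Pr.t₂ < t) : deriv Pr.H.tw.m t = deriv Pr.H.n t := by
  have e : Pr.H.tw.m =ᶠ[𝓝 t] fun u => Pr.H.n u - Pr.m₂ := by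
    filter_upwards [Ioi_mem_nhds h] with u hu using Pr.omC_twm hu
  rw [e.deriv_eq, deriv_sub_const]

theorem Prof.omC_twm'' {t : ℝ} (h : Pr.t₂ < t) :
    deriv (deriv Pr.H.tw.m) t = deriv (deriv Pr.H.n) t := by
  have e : deriv Pr.H.tw.m =ᶠ[𝓝 t] deriv Pr.H.n := by
    filter_upwards [Ioi_mem_nhds h] with u hu using Pr.omC_twm' hu
  exact e.deriv_eq

theorem Prof.omC_V1_left {σ : St} (h : σ.t < Pr.t₁) : Pr.H.V1 σ = deriv Pr.H.m σ.t * σ.p ^ 2 := by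
  have e1 : Pr.H.k =ᶠ[𝓝 σ.t] fun _ => 0 := (Pr.omC_zoneL h).mono fun u hu => hu.1
  have e2 : Pr.H.n =ᶠ[𝓝 σ.t] fun _ => Pr.n₀ := (Pr.omC_zoneL h).mono fun u hu => hu.2
  unfold Tri.V1 Tri.W1
  rw [e1.deriv_eq, e2.deriv_eq, deriv_const, deriv_const]
  ring

theorem Prof.omC_V1_right {σ : St} (h : Pr.t₂ < σ.t) : Pr.H.V1 σ = deriv Pr.H.n σ.t * σ.q ^ 2 := by
  have e1 : Pr.H.m =ᶠ[𝓝 σ.t] fun _ => Pr.m₂ := by
    filter_upwards [Ioi_mem_nhds h] with u hu using (Pr.right u (le_of_lt hu)).1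
  have e2 : Pr.H.k =ᶠ[𝓝 σ.t] fun _ => Pr.m₂ := by
    filter_upwards [Ioi_mem_nhds h] with u hu using (Pr.right u (le_of_lt hu)).2
  unfold Tri.V1 Tri.W1
  rw [e1.deriv_eq, e2.deriv_eq, deriv_const]
  ring

theorem Prof.omC_left {σ : St} (h : σ.t < Pr.t₁) (hp : deriv Pr.H.m σ.t * σ.p = 0) :
    0 ≤ σ.τ * (σ.Q0 - Pr.H.Rg σ) := by
  rw [Pr.good.Rg_prod (Pr.omC_zoneL h)]
  have hm := Pr.good.m_pos σ.t
  have e : σ.τ * (σ.Q0 - (σ.Q0 - deriv Pr.H.m σ.t / (2 * Pr.H.m σ.t ^ 2) *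
      (σ.τ * σ.y ^ 2 - 2 * σ.a * σ.y * (Pr.H.m σ.t * σ.p)))) =
      deriv Pr.H.m σ.t * (σ.τ * σ.y) ^ 2 / (2 * Pr.H.m σ.t ^ 2) -
        σ.τ * σ.a * σ.y * (deriv Pr.H.m σ.t * σ.p) / Pr.H.m σ.t := by
    field_simp
    ring
  rw [e, hp]
  have := Pr.m_mono σ.t
  simp only [mul_zero, zero_div, sub_zero]
  positivity

theorem Prof.omC_right {σ : St} (h : Pr.t₂ < σ.t) (hq : deriv Pr.H.n σ.t * σ.q = 0) :
    σ.τ * (σ.Q0 - Pr.H.Rg σ) ≤ 0 := by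
  rw [← Pr.good.Rg_tw, Pr.good.tw.Rg_prod (σ := σ.tw) (Pr.omC_zoneR h), St.Q0_tw]
  have hm : 0 < Pr.H.tw.m σ.t := Pr.good.tw.m_pos σ.t
  have e0 : deriv Pr.H.tw.m σ.t = deriv Pr.H.n σ.t := Pr.omC_twm' h
  show σ.τ * (σ.Q0 - (σ.Q0 - deriv Pr.H.tw.m σ.t / (2 * Pr.H.tw.m σ.t ^ 2) *
      (σ.τ * (σ.z - σ.y) ^ 2 - 2 * σ.a * (σ.z - σ.y) * (Pr.H.tw.m σ.t * σ.q)))) ≤ 0
  rw [e0]
  have e : σ.τ * (σ.Q0 - (σ.Q0 - deriv Pr.H.n σ.t / (2 * Pr.H.tw.m σ.t ^ 2) *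
      (σ.τ * (σ.z - σ.y) ^ 2 - 2 * σ.a * (σ.z - σ.y) * (Pr.H.tw.m σ.t * σ.q)))) =
      deriv Pr.H.n σ.t * ((σ.τ * (σ.z - σ.y)) ^ 2 / (2 * Pr.H.tw.m σ.t ^ 2)) -
        σ.τ * σ.a * (σ.z - σ.y) * (deriv Pr.H.n σ.t * σ.q) / Pr.H.tw.m σ.t := by
    field_simp
    ring
  rw [e, hq]
  simp only [mul_zero, zero_div, sub_zero]
  exact mul_nonpos_of_nonpos_of_nonneg (Pr.n_anti σ.t) (by positivity)

theorem omC_Rg_zero (H : Tri) {σ : St} (ha : σ.a = 0) (hy : σ.y = 0) (hz : σ.z = 0) :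
    H.Rg σ = 0 := by
  simp [Tri.Rg, Tri.W1, Tri.lY, Tri.lZ, ha, hy, hz]

theorem omC_Q0_zero {σ : St} (ha : σ.a = 0) (hy : σ.y = 0) (hz : σ.z = 0) : σ.Q0 = 0 := by
  simp [St.Q0, ha, hy, hz]

theorem omC_AL_zero (H : Tri) {σ : St} (ha : σ.a = 0) (hy : σ.y = 0) : H.AL σ = 0 := by
  simp [Tri.AL, ha, hy]

theorem omC_AL_tw_zero (H : Tri) {σ : St} (ha : σ.a = 0) (hy : σ.y = 0) (hz : σ.z = 0) :
    H.AL σ.tw = 0 :=
  omC_AL_zero H ha (by show σ.z - σ.y = 0; rw [hy, hz, sub_self])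

theorem Prof.good_Rg (F : Flow Pr.H σ s) (hz : (σ s).t < Pr.t₁ ∨ Pr.t₂ < (σ s).t) :
    ∃ D, 0 ≤ D ∧ HasDerivAt (fun u => Pr.H.Rg (σ u)) D s ∧
      ((σ s).a = 0 → (σ s).y = 0 → (σ s).z = 0 → D = Pr.H.mom (σ s)) := by
  rcases hz with h | h
  · obtain ⟨D, h0, hD, hz⟩ := F.Rg_prod Pr.good (Pr.omC_zoneL h) (Pr.curv₁ _ h)
    exact ⟨D, h0, hD, fun ha hy _ => hz ha hy⟩
  · obtain ⟨D, h0, hD, hz⟩ := (F.tw Pr.good).Rg_prod Pr.good.tw (Pr.omC_zoneR h) (by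
      show 2 * Pr.H.tw.m (σ s).t * deriv (deriv Pr.H.tw.m) (σ s).t ≤ 3 * deriv Pr.H.tw.m (σ s).t ^ 2
      rw [Pr.omC_twm h, Pr.omC_twm' h, Pr.omC_twm'' h]
      exact Pr.curv₂ _ h)
    refine ⟨D, h0, ?_, fun ha hy hz' => ?_⟩
    · simpa only [Pr.good.Rg_tw] using hD
    · rw [hz ha (by show (σ s).z - (σ s).y = 0; rw [hy, hz', sub_self]), Tri.mom_tw]

theorem Prof.omC_combine (F : Flow Pr.H σ s) {Ω : ℝ → ℝ} {DΩ : ℝ} (hΩ : HasDerivAt Ω DΩ s)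
    (h0 : Pr.χ (σ s).t ≠ 0 → 0 ≤ DΩ)
    (hz : (σ s).a = 0 → (σ s).y = 0 → (σ s).z = 0 → DΩ = Pr.H.mom (σ s) ∧ Ω s = 0)
    (hl : (σ s).t < Pr.t₁ → 0 ≤ (σ s).τ * (Ω s - Pr.H.Rg (σ s)))
    (hr : Pr.t₂ < (σ s).t → (σ s).τ * (Ω s - Pr.H.Rg (σ s)) ≤ 0) :
    ∃ D, 0 ≤ D ∧ HasDerivAt (fun u => Pr.H.Rg (σ u) + Pr.χ (σ u).t * (Ω u - Pr.H.Rg (σ u))) D s ∧
      ((σ s).a = 0 → (σ s).y = 0 → (σ s).z = 0 → D = Pr.H.mom (σ s)) := by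
  have hχ : HasDerivAt (fun u => Pr.χ (σ u).t) (deriv Pr.χ (σ s).t * (σ s).τ) s :=
    (Pr.cχ.differentiable (by simp) _).hasDerivAt.comp s F.t
  have key : ∀ DR, HasDerivAt (fun u => Pr.H.Rg (σ u)) DR s →
      HasDerivAt (fun u => Pr.H.Rg (σ u) + Pr.χ (σ u).t * (Ω u - Pr.H.Rg (σ u)))
        ((1 - Pr.χ (σ s).t) * DR + Pr.χ (σ s).t * DΩ +
          deriv Pr.χ (σ s).t * ((σ s).τ * (Ω s - Pr.H.Rg (σ s)))) s := fun DR hR =>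
    (hR.add (hχ.mul (hΩ.sub hR))).congr_deriv (by simp only [Pi.sub_apply]; ring)
  have hχΩ : 0 ≤ Pr.χ (σ s).t * DΩ := by
    by_cases h : Pr.χ (σ s).t = 0
    · rw [h, zero_mul]
    · exact mul_nonneg (Pr.χ_nonneg _) (h0 h)
  by_cases hc : (σ s).t < Pr.t₁ ∨ Pr.t₂ < (σ s).t
  · obtain ⟨DR, hR0, hR, hRz⟩ := Pr.good_Rg F hc
    refine ⟨_, ?_, key DR hR, fun ha hy hz' => ?_⟩
    · have h1 : 0 ≤ (1 - Pr.χ (σ s).t) * DR := mul_nonneg (sub_nonneg.2 (Pr.χ_le _)) hR0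
      have h2 : 0 ≤ deriv Pr.χ (σ s).t * ((σ s).τ * (Ω s - Pr.H.Rg (σ s))) := by
        rcases hc with h | h
        · exact mul_nonneg (Pr.χ_left _ h) (hl h)
        · exact mul_nonneg_of_nonpos_of_nonpos (Pr.χ_right _ h) (hr h)
      linarith
    · rw [hRz ha hy hz', (hz ha hy hz').1, (hz ha hy hz').2, omC_Rg_zero _ ha hy hz']
      ring
  · rw [not_or, not_lt, not_lt] at hc
    obtain ⟨h1, h2⟩ := Pr.χ_one _ hc.1 hc.2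
    have hk := key _ (F.differentiableAt_Rg Pr.good).hasDerivAt
    rw [h1, h2] at hk
    refine ⟨DΩ, h0 (by rw [h1]; exact one_ne_zero), hk.congr_deriv (by ring),
      fun ha hy hz' => (hz ha hy hz').1⟩

theorem omC_NN_pos {H : Tri} (h : H.Good) {σ : St} (hν : H.nu σ ≠ 0) : 0 < H.NN σ := by
  have := h.m_pos σ.t
  unfold Tri.NN
  positivity

theorem Prof.good_L (F : Flow Pr.H σ s) (hp : (σ s).p ≠ 0) (hV : 0 ≤ Pr.H.V1 (σ s)) :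
    ∃ D, 0 ≤ D ∧ HasDerivAt (fun u => Pr.H.Rg (σ u) +
        Pr.χ (σ u).t * ((σ u).Q0 - Pr.H.V1 (σ u) * Pr.H.AL (σ u) - Pr.H.Rg (σ u))) D s ∧
      ((σ s).a = 0 → (σ s).y = 0 → (σ s).z = 0 → D = Pr.H.mom (σ s)) := by
  have hm := Pr.good.m_pos (σ s).t
  have hν : Pr.H.nu (σ s) ≠ 0 := by
    intro e
    have h1 := Pr.good.V1_of_nu e
    have h2 : Pr.H.k (σ s).t * (σ s).q ≠ 0 := by
      intro h
      have h3 : Pr.H.m (σ s).t * (σ s).p = 0 := by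
        unfold Tri.nu at e
        linarith
      exact mul_ne_zero hm.ne' hp h3
    have h3 := (Pr.invL (σ s).t).2 (left_ne_zero_of_mul h2)
    have h4 : 0 < (σ s).q ^ 2 := by
      have := right_ne_zero_of_mul h2
      positivity
    have := mul_neg_of_pos_of_neg h4 h3
    linarith
  have hN := omC_NN_pos Pr.good hν
  refine Pr.omC_combine F (F.hasDerivAt_L Pr.good hN.ne') (fun hχ => ?_) (fun ha hy hz => ?_)
    (fun h => ?_) (fun h => ?_)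
  · refine Pr.good.DL_nonneg ?_ (mul_nonpos_of_nonneg_of_nonpos hV (Pr.invL _).1)
    have h1 : Pr.H.V2 (σ s) ≤ 0 := Pr.conc _ hχ _ _
    have h2 := mul_nonneg hV (Pr.m_mono (σ s).t)
    have h3 := mul_nonneg (neg_nonneg.2 h1) hm.le
    linarith
  · refine ⟨Pr.H.DL_of_zero ha hy, ?_⟩
    simp only [omC_Q0_zero ha hy hz, omC_AL_zero _ ha hy, mul_zero, sub_zero]
  · show 0 ≤ (σ s).τ * ((σ s).Q0 - Pr.H.V1 (σ s) * Pr.H.AL (σ s) - Pr.H.Rg (σ s))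
    rw [Pr.good.L_sub_Rg (Pr.omC_zoneL h) hN.ne']
    have := Pr.m_mono (σ s).t
    have e : (σ s).τ * (deriv Pr.H.m (σ s).t * (σ s).τ / (2 * Pr.H.m (σ s).t) *
        ((σ s).τ * (σ s).y - Pr.H.nu (σ s) * (σ s).a) ^ 2 / Pr.H.NN (σ s)) =
        deriv Pr.H.m (σ s).t * ((σ s).τ ^ 2 / (2 * Pr.H.m (σ s).t) *
        ((σ s).τ * (σ s).y - Pr.H.nu (σ s) * (σ s).a) ^ 2 / Pr.H.NN (σ s)) := by ring
    rw [e]
    positivity
  · show (σ s).τ * ((σ s).Q0 - Pr.H.V1 (σ s) * Pr.H.AL (σ s) - Pr.H.Rg (σ s)) ≤ 0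
    have h1 := Pr.omC_V1_right h
    have h2 : Pr.H.V1 (σ s) = 0 := by
      refine le_antisymm ?_ hV
      rw [h1]
      exact mul_nonpos_of_nonpos_of_nonneg (Pr.n_anti _) (sq_nonneg _)
    have h3 : deriv Pr.H.n (σ s).t * (σ s).q = 0 := by
      rw [h2] at h1
      rcases mul_eq_zero.1 h1.symm with h4 | h4
      · rw [h4, zero_mul]
      · rw [pow_eq_zero_iff two_ne_zero] at h4
        rw [h4, mul_zero]
    rw [h2, zero_mul, sub_zero]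
    exact Pr.omC_right h h3

theorem Prof.good_R (F : Flow Pr.H σ s) (hq : (σ s).q ≠ 0) (hV : Pr.H.V1 (σ s) ≤ 0) :
    ∃ D, 0 ≤ D ∧ HasDerivAt (fun u => Pr.H.Rg (σ u) +
        Pr.χ (σ u).t * ((σ u).Q0 - Pr.H.V1 (σ u) * Pr.H.tw.AL (σ u).tw - Pr.H.Rg (σ u))) D s ∧
      ((σ s).a = 0 → (σ s).y = 0 → (σ s).z = 0 → D = Pr.H.mom (σ s)) := by
  have hm : 0 < Pr.H.tw.m (σ s).t := Pr.good.tw.m_pos (σ s).t
  have eV : ∀ σ : St, Pr.H.tw.V1 σ.tw = Pr.H.V1 σ := fun σ => Pr.good.W1_tw σ.t σ.p σ.q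
  have eV2 : ∀ σ : St, Pr.H.tw.V2 σ.tw = Pr.H.V2 σ := fun σ => Pr.good.W2_tw σ.t σ.p σ.q
  have hν : Pr.H.tw.nu (σ s).tw ≠ 0 := by
    intro e
    have h1 := Pr.good.tw.V1_of_nu e
    rw [eV] at h1
    have h2 : Pr.H.tw.k (σ s).t * (σ s).tw.q ≠ 0 := by
      intro h
      have h3 : Pr.H.tw.m (σ s).t * (σ s).q = 0 := by
        have e' : Pr.H.tw.m (σ s).t * (σ s).q + Pr.H.tw.k (σ s).t * (σ s).tw.q = 0 := e
        linarith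
      exact mul_ne_zero hm.ne' hq h3
    have h3 := (Pr.invR (σ s).t).2 (left_ne_zero_of_mul h2)
    have h4 : 0 < (σ s).tw.q ^ 2 := by
      have := right_ne_zero_of_mul h2
      positivity
    have h5 : 0 < (σ s).tw.q ^ 2 * Pr.H.tw.inv1 (σ s).tw.t := mul_pos h4 h3
    linarith
  have hN := omC_NN_pos Pr.good.tw hν
  have hD := (F.tw Pr.good).hasDerivAt_L Pr.good.tw hN.ne'
  simp only [St.Q0_tw, eV] at hD
  refine Pr.omC_combine F hD (fun hχ => ?_) (fun ha hy hz => ?_) (fun h => ?_) (fun h => ?_)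
  · refine Pr.good.tw.DL_nonneg ?_ ?_
    · rw [eV, eV2]
      exact Pr.kR _ hχ _ _ hV
    · rw [eV]
      exact mul_nonpos_of_nonpos_of_nonneg hV (Pr.invR _).1
  · refine ⟨?_, ?_⟩
    · rw [Pr.H.tw.DL_of_zero (σ := (σ s).tw) ha
        (by show (σ s).z - (σ s).y = 0; rw [hy, hz, sub_self]), Tri.mom_tw]
    · simp only [omC_Q0_zero ha hy hz, omC_AL_tw_zero _ ha hy hz, mul_zero, sub_zero]
  · show 0 ≤ (σ s).τ * ((σ s).Q0 - Pr.H.V1 (σ s) * Pr.H.tw.AL (σ s).tw - Pr.H.Rg (σ s))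
    have h1 := Pr.omC_V1_left h
    have h2 : Pr.H.V1 (σ s) = 0 := by
      refine le_antisymm hV ?_
      rw [h1]
      exact mul_nonneg (Pr.m_mono _) (sq_nonneg _)
    have h3 : deriv Pr.H.m (σ s).t * (σ s).p = 0 := by
      rw [h2] at h1
      rcases mul_eq_zero.1 h1.symm with h4 | h4
      · rw [h4, zero_mul]
      · rw [pow_eq_zero_iff two_ne_zero] at h4
        rw [h4, mul_zero]
    rw [h2, zero_mul, sub_zero]
    exact Pr.omC_left h h3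
  · show (σ s).τ * ((σ s).Q0 - Pr.H.V1 (σ s) * Pr.H.tw.AL (σ s).tw - Pr.H.Rg (σ s)) ≤ 0
    have key := Pr.good.tw.L_sub_Rg (σ := (σ s).tw) (Pr.omC_zoneR h) hN.ne'
    rw [St.Q0_tw, eV, Pr.good.Rg_tw] at key
    rw [key]
    have e0 : deriv Pr.H.tw.m (σ s).tw.t = deriv Pr.H.n (σ s).t := Pr.omC_twm' h
    have e1 : (σ s).tw.τ = (σ s).τ := rfl
    have hm' : 0 < Pr.H.tw.m (σ s).tw.t := hm
    rw [e0, e1]
    have e : (σ s).τ * (deriv Pr.H.n (σ s).t * (σ s).τ / (2 * Pr.H.tw.m (σ s).tw.t) *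
        ((σ s).τ * (σ s).tw.y - Pr.H.tw.nu (σ s).tw * (σ s).tw.a) ^ 2 / Pr.H.tw.NN (σ s).tw) =
        deriv Pr.H.n (σ s).t * ((σ s).τ ^ 2 / (2 * Pr.H.tw.m (σ s).tw.t) *
        ((σ s).τ * (σ s).tw.y - Pr.H.tw.nu (σ s).tw * (σ s).tw.a) ^ 2 /
          Pr.H.tw.NN (σ s).tw) := by ring
    rw [e]
    exact mul_nonpos_of_nonpos_of_nonneg (Pr.n_anti _) (by positivity)

theorem Prof.good_0 (F : Flow Pr.H σ s) (hp : (σ s).p = 0) (hq : (σ s).q = 0) :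
    ∃ D, 0 ≤ D ∧ HasDerivAt (fun u => Pr.H.Rg (σ u) +
        Pr.χ (σ u).t * ((σ u).Q0 - Pr.H.Rg (σ u))) D s ∧
      ((σ s).a = 0 → (σ s).y = 0 → (σ s).z = 0 → D = Pr.H.mom (σ s)) := by
  have hV2 : Pr.H.V2 (σ s) = 0 := by simp [Tri.V2, Tri.W2, hp, hq]
  have hD := F.hasDerivAt_Q0
  rw [hV2, zero_mul, zero_div, sub_zero] at hD
  exact Pr.omC_combine F hD (fun _ => Pr.good.mom_nonneg _)
    (fun ha hy hz => ⟨rfl, omC_Q0_zero ha hy hz⟩)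
    (fun h => Pr.omC_left h (by rw [hp, mul_zero])) (fun h => Pr.omC_right h (by rw [hq, mul_zero]))

theorem Prof.omC_om_L {σ : St} (h : 0 ≤ Pr.H.V1 σ) :
    Pr.om σ = Pr.H.Rg σ + Pr.χ σ.t * (σ.Q0 - Pr.H.V1 σ * Pr.H.AL σ - Pr.H.Rg σ) := by
  unfold Prof.om Prof.extra
  rw [max_eq_left h, min_eq_right h, zero_mul, sub_zero]

theorem Prof.omC_om_R {σ : St} (h : Pr.H.V1 σ ≤ 0) :
    Pr.om σ = Pr.H.Rg σ + Pr.χ σ.t * (σ.Q0 - Pr.H.V1 σ * Pr.H.tw.AL σ.tw - Pr.H.Rg σ) := by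
  unfold Prof.om Prof.extra
  rw [max_eq_right h, min_eq_left h, zero_mul, sub_zero]

/-- Cases: `p = q = 0` (`V1 = 0` near `s`); `p = 0 ≠ q` (`V1 = n' q² ≤ 0` near `s`); `q = 0 ≠ p`
(`V1 ≥ 0` near `s`); both non-zero: sign of `V1 (σ s)`, with `LowDer.of_or` when it vanishes. -/
theorem Prof.omega_lowDer (F : Flow Pr.H σ s) :
    ∃ D, 0 ≤ D ∧ LowDer (fun u => Pr.om (σ u)) s D ∧
      ((σ s).a = 0 → (σ s).y = 0 → (σ s).z = 0 → D = Pr.H.mom (σ s)) := by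
  have caseL : (σ s).p ≠ 0 → (∀ᶠ u in 𝓝 s, 0 ≤ Pr.H.V1 (σ u)) →
      ∃ D, 0 ≤ D ∧ LowDer (fun u => Pr.om (σ u)) s D ∧
      ((σ s).a = 0 → (σ s).y = 0 → (σ s).z = 0 → D = Pr.H.mom (σ s)) := by
    intro hp hV
    obtain ⟨D, h0, hD, hz⟩ := Pr.good_L F hp hV.self_of_nhds
    refine ⟨D, h0, (LowDer.of_hasDerivAt hD).congr ?_, hz⟩
    filter_upwards [hV] with u hu using (Pr.omC_om_L hu).symm
  have caseR : (σ s).q ≠ 0 → (∀ᶠ u in 𝓝 s, Pr.H.V1 (σ u) ≤ 0) →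
      ∃ D, 0 ≤ D ∧ LowDer (fun u => Pr.om (σ u)) s D ∧
      ((σ s).a = 0 → (σ s).y = 0 → (σ s).z = 0 → D = Pr.H.mom (σ s)) := by
    intro hq hV
    obtain ⟨D, h0, hD, hz⟩ := Pr.good_R F hq hV.self_of_nhds
    refine ⟨D, h0, (LowDer.of_hasDerivAt hD).congr ?_, hz⟩
    filter_upwards [hV] with u hu using (Pr.omC_om_R hu).symm
  by_cases hp : (σ s).p = 0
  · by_cases hq : (σ s).q = 0
    · obtain ⟨D, h0, hD, hz⟩ := Pr.good_0 F hp hq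
      refine ⟨D, h0, (LowDer.of_hasDerivAt hD).congr ?_, hz⟩
      filter_upwards [F.p, F.q] with u h1 h2
      have hV : Pr.H.V1 (σ u) = 0 := by simp [Tri.V1, Tri.W1, h1, h2, hp, hq]
      rw [Pr.omC_om_L hV.ge, hV, zero_mul, sub_zero]
    · refine caseR hq ?_
      filter_upwards [F.p] with u h1
      have hV : Pr.H.V1 (σ u) = deriv Pr.H.n (σ u).t * (σ u).q ^ 2 := by
        simp [Tri.V1, Tri.W1, h1, hp]
      rw [hV]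
      exact mul_nonpos_of_nonpos_of_nonneg (Pr.n_anti _) (sq_nonneg _)
  · by_cases hq : (σ s).q = 0
    · refine caseL hp ?_
      filter_upwards [F.q] with u h1
      have hV : Pr.H.V1 (σ u) = deriv Pr.H.m (σ u).t * (σ u).p ^ 2 := by
        simp [Tri.V1, Tri.W1, h1, hq]
      rw [hV]
      exact mul_nonneg (Pr.m_mono _) (sq_nonneg _)
    · have hc : ContinuousAt (fun u => Pr.H.V1 (σ u)) s := (F.hasDerivAt_V1 Pr.good).continuousAt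
      rcases lt_trichotomy (Pr.H.V1 (σ s)) 0 with h | h | h
      · exact caseR hq ((hc.eventually (gt_mem_nhds h)).mono fun u hu => le_of_lt hu)
      · obtain ⟨D₁, h1, hD₁, hz₁⟩ := Pr.good_L F hp h.ge
        obtain ⟨D₂, h2, hD₂, hz₂⟩ := Pr.good_R F hq h.le
        refine ⟨min D₁ D₂, le_min h1 h2, LowDer.of_or (LowDer.of_hasDerivAt hD₁)
          (LowDer.of_hasDerivAt hD₂) ?_ ?_, fun ha hy hz => ?_⟩
        · simp only [h, zero_mul]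
        · refine Eventually.of_forall fun u => ?_
          rcases le_total 0 (Pr.H.V1 (σ u)) with hu | hu
          · exact Or.inl (Pr.omC_om_L hu)
          · exact Or.inr (Pr.omC_om_R hu)
        · rw [hz₁ ha hy hz, hz₂ ha hy hz, min_self]
      · exact caseL hp ((hc.eventually (lt_mem_nhds h)).mono fun u hu => le_of_lt hu)

theorem Prof.omega_zero {σ : St} (ha : σ.a = 0) (hy : σ.y = 0) (hz : σ.z = 0) : Pr.om σ = 0 := by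
  unfold Prof.om Prof.extra
  rw [omC_Rg_zero _ ha hy hz, omC_Q0_zero ha hy hz, omC_AL_zero _ ha hy, omC_AL_tw_zero _ ha hy hz]
  ring

end Crest.Agent.R244
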