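import Crest.Agent.R244.Bridge2
/-!
# R244: local isometric parametrisations
`exists_rep`: with `x = γ t`, `ψ = chartAt x ∘ pm` and its local inverse `φ` (`IsomAt.inverse`), take
`c = φ ∘ chartAt x ∘ γ` and `V s = fderiv φ (chartAt x (γ s)) (fld x γ J s)`.
-/

set_option autoImplicit false

open scoped ContDiff Manifold Topology
open Bundle Filter Set
open Crest.GeometryTopology.CoordMetric Crest.GeometryTopology.ChartCurvature
  Crest.GeometryTopology.Geodesic

noncomputable section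

namespace Crest.Agent.R244

variable {M : Type*} [TopologicalSpace M] [ChartedSpace E M] [IsManifold 𝓘(ℝ, E) ∞ M]

theorem IsParam.param_continuousAt {g : RM M} {G : MF} {U : Set E} {pm : E → M}
    (h : IsParam g G U pm) {p : E} (hp : p ∈ U) : ContinuousAt pm p :=
  h.cont.continuousAt (h.isOpen.mem_nhds hp)

/-- A local inverse of `chartAt x ∘ pm`, `x = pm p`. -/
theorem IsParam.param_inv {g : RM M} {G : MF} {U : Set E} {pm : E → M} (h : IsParam g G U pm)
    {p : E} (hp : p ∈ U) :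
    ∃ φ : E → E, φ (chartAt E (pm p) (pm p)) = p ∧
      IsomAt (metricInChart g (pm p)) G φ (chartAt E (pm p) (pm p)) ∧
      ∀ᶠ z in 𝓝 (chartAt E (pm p) (pm p)), φ z ∈ U ∧ pm (φ z) = (chartAt E (pm p)).symm z := by
  obtain ⟨φ, h1, h2, -, h4⟩ :=
    (h.isom p hp (pm p) (mem_chart_source E _)).inverse (h.riem p hp)
  refine ⟨φ, h1, h2, ?_⟩
  have hφ : ContinuousAt φ (chartAt E (pm p) (pm p)) := h2.self_of_nhds.1.continuousAt
  have hφ' : Tendsto φ (𝓝 (chartAt E (pm p) (pm p))) (𝓝 p) := by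
    have := hφ.tendsto
    rwa [show φ (chartAt E (pm p) (pm p)) = p from h1] at this
  have a1 : ∀ᶠ y in 𝓝 p, y ∈ U := h.isOpen.mem_nhds hp
  have a2 : ∀ᶠ y in 𝓝 p, pm y ∈ (chartAt E (pm p)).source :=
    (h.param_continuousAt hp).eventually
      ((chartAt E (pm p)).open_source.mem_nhds (mem_chart_source E _))
  filter_upwards [hφ'.eventually a1, hφ'.eventually a2, h4] with z b1 b2 b3
  refine ⟨b1, ?_⟩
  have b4 : chartAt E (pm p) (pm (φ z)) = z := b3
  rw [← (chartAt E (pm p)).left_inv b2, b4]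

theorem IsParam.geoAt {g : RM M} {G : MF} {U : Set E} {pm : E → M} (h : IsParam g G U pm)
    {c : ℝ → E} {t : ℝ} (hc : c t ∈ U) (hs : ContDiffAt ℝ ∞ c t) (hg : Geo G c t) :
    GeoAt g (pm ∘ c) t := by
  refine ⟨(h.param_continuousAt hc).comp hs.continuousAt, fun x hx => ?_⟩
  have hi := h.isom (c t) hc x hx
  exact ⟨hi.self_of_nhds.1.comp t hs,
    hi.geo (h.riem _ hc) (riemAt_chart g ((chartAt E x).map_source hx)) hs hg⟩

theorem IsParam.ip_eq {g : RM M} {G : MF} {U : Set E} {pm : E → M} (h : IsParam g G U pm)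
    {p : E} (hp : p ∈ U) (u v : E) :
    ip g (pm p) (fderiv ℝ (chartAt E (pm p) ∘ pm) p u) (fderiv ℝ (chartAt E (pm p) ∘ pm) p v) =
      Bil G p u v := by
  rw [ip_eq_self]
  exact (h.isom p hp (pm p) (mem_chart_source E _)).self_of_nhds.2 u v

theorem IsParam.injective {g : RM M} {G : MF} {U : Set E} {pm : E → M} (h : IsParam g G U pm)
    {p : E} (hp : p ∈ U) : Function.Injective (fderiv ℝ (chartAt E (pm p) ∘ pm) p) := by
  exact ((h.isom p hp (pm p) (mem_chart_source E _)).bijective (h.riem p hp)).1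

/-- `pm` is open at points of `U`. -/
theorem IsParam.image_mem_nhds {g : RM M} {G : MF} {U : Set E} {pm : E → M} (h : IsParam g G U pm)
    {p : E} (hp : p ∈ U) {W : Set E} (hW : W ∈ 𝓝 p) : pm '' W ∈ 𝓝 (pm p) := by
  obtain ⟨φ, h1, h2, h3⟩ := h.param_inv hp
  have hφ' : Tendsto φ (𝓝 (chartAt E (pm p) (pm p))) (𝓝 p) := by
    have := h2.self_of_nhds.1.continuousAt.tendsto
    rwa [h1] at this
  have hch : Tendsto (chartAt E (pm p)) (𝓝 (pm p)) (𝓝 (chartAt E (pm p) (pm p))) :=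
    (chartAt E (pm p)).continuousAt (mem_chart_source E _)
  filter_upwards [hch.eventually h3, hch.eventually (hφ'.eventually hW),
    (chartAt E (pm p)).open_source.mem_nhds (mem_chart_source E _)] with m b1 b2 b3
  exact ⟨_, b2, by rw [b1.2, (chartAt E (pm p)).left_inv b3]⟩

theorem IsParam.exists_rep {g : RM M} {G : MF} {U : Set E} {pm : E → M} (h : IsParam g G U pm)
    {γ : ℝ → M} {J : ℝ → E} (hγ : IsGeo g γ) (hJ : IsJac g γ J) {t : ℝ} {p : E} (hp : p ∈ U)
    (e : pm p = γ t) : ∃ c V : ℝ → E, c t = p ∧ Rep G U pm γ J c V t := by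
  obtain ⟨φ, h1, h2, h3⟩ := h.param_inv hp
  rw [e] at h1 h2 h3
  set x := γ t with hx
  refine ⟨φ ∘ (chartAt E x ∘ γ), fun s => fderiv ℝ φ ((chartAt E x ∘ γ) s) (fld x γ J s), h1, ?_⟩
  have hγt : Tendsto γ (𝓝 t) (𝓝 x) := (hγ t).1
  have hch : Tendsto (chartAt E x ∘ γ) (𝓝 t) (𝓝 (chartAt E x x)) :=
    ((chartAt E x).continuousAt (mem_chart_source E _)).tendsto.comp hγt
  filter_upwards [hγt.eventually ((chartAt E x).open_source.mem_nhds (mem_chart_source E x)),
    hch.eventually h2.eventually, hch.eventually h3.eventually_nhds] with s b1 b2 b3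
  have b4 := b3.self_of_nhds
  obtain ⟨c1, c2⟩ := (hγ s).2 x b1
  obtain ⟨d1, d2⟩ := hJ s x b1
  have hφ : ContDiffAt ℝ ∞ φ ((chartAt E x ∘ γ) s) := b2.self_of_nhds.1
  have r1 : RiemAt (metricInChart g x) ((chartAt E x ∘ γ) s) :=
    riemAt_chart g ((chartAt E x).map_source b1)
  have r2 : RiemAt G (φ ((chartAt E x ∘ γ) s)) := h.riem _ b4.1
  have e1 : pm (φ ((chartAt E x ∘ γ) s)) = γ s := by
    rw [b4.2]; exact (chartAt E x).left_inv b1
  refine ⟨b4.1, e1, hφ.comp s c1, b2.geo r1 r2 c1 c2, ?_, b2.lin r1 r2 c1 d1 c2 d2, ?_⟩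
  · exact ((hφ.fderiv_right (m := ∞) (by simp)).comp s c1).clm_apply d1
  · have hi := h.isom _ b4.1 (γ s) (by rw [e1]; exact mem_chart_source E _)
    have hψ : DifferentiableAt ℝ (chartAt E (γ s) ∘ pm) (φ ((chartAt E x ∘ γ) s)) :=
      hi.self_of_nhds.1.differentiableAt (by simp)
    have e2 : (chartAt E (γ s) ∘ pm) ∘ φ =ᶠ[𝓝 ((chartAt E x ∘ γ) s)]
        chartAt E (γ s) ∘ (chartAt E x).symm := by
      filter_upwards [b3] with z hz
      simp only [Function.comp_apply, hz.2]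
    have e3 := fderiv_comp _ hψ (hφ.differentiableAt (by simp))
    rw [e2.fderiv_eq] at e3
    have e4 := dch_comp b1 (mem_chart_source E (γ s)) (J s)
    rw [dch_self] at e4
    have e5 := congrArg (fun L : E →L[ℝ] E => L (fld x γ J s)) e3
    exact e4.trans e5

theorem Rep.eventually {G : MF} {U : Set E} {pm : E → M} {γ : ℝ → M} {J c V : ℝ → E} {t : ℝ}
    (h : Rep G U pm γ J c V t) : ∀ᶠ s in 𝓝 t, Rep G U pm γ J c V s := by
  exact h.eventually_nhds

theorem Rep.jacNear {G : MF} {U : Set E} {pm : E → M} {γ : ℝ → M} {J c V : ℝ → E} {t : ℝ}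
    (h : Rep G U pm γ J c V t) : JacNear G c V t := by
  exact h.mono fun s hs => ⟨hs.2.2.1, hs.2.2.2.1, hs.2.2.2.2.1, hs.2.2.2.2.2.1⟩

theorem Rep.ip_eq {g : RM M} {G : MF} {U : Set E} {pm : E → M} (hp : IsParam g G U pm)
    {γ : ℝ → M} {J c V : ℝ → E} {t : ℝ} (h : Rep G U pm γ J c V t) :
    ∀ᶠ s in 𝓝 t, ip g (γ s) (J s) (J s) = Bil G (c s) (V s) (V s) ∧ (J s = 0 ↔ V s = 0) := by
  filter_upwards [h] with s hs
  obtain ⟨a1, a2, -, -, -, -, a7⟩ := hs
  rw [← a2] at a7 ⊢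
  refine ⟨by rw [a7]; exact hp.ip_eq a1 _ _, ?_⟩
  rw [a7]
  exact (map_eq_zero_iff _ (hp.injective a1))

/-- Two representations in a parametrisation whose fibres are cosets of a discrete translation
group differ by a constant translation. -/
theorem Rep.unique {g : RM M} {G : MF} {U : Set E} {pm : E → M} (hp : IsParam g G U pm)
    (hf : ∀ p ∈ U, ∀ q ∈ U, pm p = pm q → ∃ a b : ℤ, q = p + !₂[(0 : ℝ), a, b])
    (hU : ∀ p ∈ U, ∀ a b : ℤ, pm (p + !₂[(0 : ℝ), a, b]) = pm p)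
    {γ : ℝ → M} {J c V c' V' : ℝ → E} {t : ℝ} (h : Rep G U pm γ J c V t)
    (h' : Rep G U pm γ J c' V' t) :
    ∃ a b : ℤ, ∀ᶠ s in 𝓝 t, c' s = c s + !₂[(0 : ℝ), a, b] ∧ V' s = V s := by
  obtain ⟨a1, a2, a3, -⟩ := h.self_of_nhds
  obtain ⟨b1, b2, b3, -⟩ := h'.self_of_nhds
  obtain ⟨a, b, hab⟩ := hf _ a1 _ b1 (a2.trans b2.symm)
  refine ⟨a, b, ?_⟩
  have hd : ContinuousAt (fun s => c' s - c s) t := b3.continuousAt.sub a3.continuousAt
  have hk : ∀ k : Fin 3, ∀ᶠ s in 𝓝 t, |(c' s - c s) k - (c' t - c t) k| < 1 := by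
    intro k
    have h1 : ContinuousAt (fun s => (c' s - c s) k) t :=
      (EuclideanSpace.proj k : E →L[ℝ] ℝ).continuous.continuousAt.comp hd
    have h2 := Metric.tendsto_nhds.1 h1 1 one_pos
    simpa only [Real.dist_eq] using h2
  have int_eq : ∀ m n : ℤ, |(m : ℝ) - n| < 1 → m = n := by
    intro m n hmn
    have : |m - n| < 1 := by exact_mod_cast hmn
    have := Int.abs_lt_one_iff.1 this
    omega
  filter_upwards [h, h', hk 1, hk 2] with s hs hs' k1 k2
  obtain ⟨c1, c2, -, -, -, -, c7⟩ := hs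
  obtain ⟨d1, d2, -, -, -, -, d7⟩ := hs'
  obtain ⟨a', b', hab'⟩ := hf _ c1 _ d1 (c2.trans d2.symm)
  rw [hab, hab', add_sub_cancel_left, add_sub_cancel_left] at k1 k2
  have ea : a' = a := int_eq _ _ (by simpa using k1)
  have eb : b' = b := int_eq _ _ (by simpa using k2)
  subst ea eb
  refine ⟨hab', ?_⟩
  have e1 : (fun y => (chartAt E (γ s) ∘ pm) (y + !₂[(0 : ℝ), a', b'])) =ᶠ[𝓝 (c s)]
      chartAt E (γ s) ∘ pm := by
    filter_upwards [hp.isOpen.mem_nhds c1] with y hy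
    simp only [Function.comp_apply, hU y hy]
  have e2 := e1.fderiv_eq (𝕜 := ℝ)
  rw [fderiv_comp_add_right, ← hab'] at e2
  rw [e2, c7] at d7
  have inj := hp.injective c1
  rw [c2] at inj
  exact (inj d7).symm

end Crest.Agent.R244
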