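import Crest.Agent.R244.ModelB
import Crest.Agent.R244.OmC
import Crest.Agent.R244.Param
import Crest.Agent.R244.Coord3
/-!
# R244: the model metric has no conjugate points
`Om = ½ h' + X`, `h s = |J s|²`, `X s = Pr.extra` of the state of any neck representation at `s`
(well defined by `Rep.unique`, `Tri.st_add`), `0` if there is none. In a neck representation
`Om = Pr.om ∘ st` near `s` (`Rep.ip_eq`, `bil_eq`, `Flow.hasDerivAt_hh` at all nearby parameters);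
in a flat representation `X = 0` near `s` (`χ = 0` on the overlaps, `lt_of_rel₀`, `lt_of_rel₂`) and
`Om = Bil V' V`.
-/

set_option autoImplicit false

open scoped ContDiff Manifold Topology
open Bundle Filter Set
open Crest.GeometryTopology.CoordMetric Crest.GeometryTopology.ChartCurvature
  Crest.GeometryTopology.Geodesic

noncomputable section

namespace Crest.Agent.R244

/-- Flat metric: `Chr = 0`, so `V'' = 0`. -/
theorem flat_jac {A : Matrix (Fin 3) (Fin 3) ℝ} (hA : A.PosDef) {c V : ℝ → E} {s : ℝ}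
    (h : JacNear (fun _ => A) c V s) :
    (∀ᶠ u in 𝓝 s, HasDerivAt (fun u => Bil (fun _ => A) (c u) (V u) (V u))
      (2 * Bil (fun _ => A) (c u) (deriv V u) (V u)) u) ∧
    HasDerivAt (fun u => Bil (fun _ => A) (c u) (deriv V u) (V u))
      (Bil (fun _ => A) (c s) (deriv V s) (deriv V s)) s := by
  have hR : RiemAt (fun _ : E => A) 0 := Eventually.of_forall fun _ => ⟨fun _ _ => contDiffAt_const, hA⟩
  obtain ⟨B, hB⟩ : ∃ B, B = Bil (fun _ : E => A) 0 := ⟨_, rfl⟩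
  have e : ∀ x, Bil (fun _ : E => A) x = B := fun _ => hB.symm
  have hs : ∀ u v, B u v = B v u := fun u v => by rw [hB]; exact hR.symm u v
  simp only [e]
  constructor
  · filter_upwards [h] with u hu
    have h1 := (hu.2.2.1.differentiableAt (by simp)).hasDerivAt
    have h2 := (B.hasFDerivAt.comp_hasDerivAt u h1).clm_apply h1
    rwa [Function.comp_apply, hs (V u), ← two_mul] at h2
  · obtain ⟨-, -, h1, h2⟩ := h.self_of_nhds
    have h3 := ((h1.derivWithin (m := ∞) le_rfl).differentiableAt (by simp)).hasDerivAt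
    have h4 : deriv (deriv V) s = 0 := by simpa [Lin, Chr_const] using h2
    have h5 := (B.hasFDerivAt.comp_hasDerivAt s h3).clm_apply
      (h1.differentiableAt (by simp)).hasDerivAt
    rwa [h4, map_zero, zero_apply, zero_add] at h5

variable (Pr : Prof) {M : Type} [TopologicalSpace M] [ChartedSpace E M] [IsManifold 𝓘(ℝ, E) ∞ M]
  {g : RM M} {pm : Fin 3 → E → M} {γ : ℝ → M} {J : ℝ → E}

open Classical in
/-- The monotone quantity. -/
def Prof.Om (g : RM M) (pm : Fin 3 → E → M) (γ : ℝ → M) (J : ℝ → E) (s : ℝ) : ℝ :=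
  deriv (fun u => ip g (γ u) (J u) (J u)) s / 2 +
    if h : ∃ cV : (ℝ → E) × (ℝ → E), Rep (Pr.G 1) (Pr.U 1) (pm 1) γ J cV.1 cV.2 s then
      Pr.extra (Pr.H.st (h.choose.1 s) (deriv h.choose.1 s) (h.choose.2 s) (deriv h.choose.2 s))
    else 0

theorem Prof.Om_neck (h : Pr.glue.TopSpec pm) (hp : ∀ i, IsParam g (Pr.G i) (Pr.U i) (pm i))
    {c V : ℝ → E} {s : ℝ} (R : Rep (Pr.G 1) (Pr.U 1) (pm 1) γ J c V s) :
    Pr.Om g pm γ J =ᶠ[𝓝 s] fun u => Pr.om (Pr.H.st (c u) (deriv c u) (V u) (deriv V u)) := by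
  filter_upwards [R.eventually] with u Ru
  have hex : ∃ cV : (ℝ → E) × (ℝ → E), Rep (Pr.G 1) (Pr.U 1) (pm 1) γ J cV.1 cV.2 u := ⟨(c, V), Ru⟩
  obtain ⟨a, b, hab⟩ := Ru.unique (hp 1) (fun p h₁ q h₂ e => (h.rel 1 1 p h₁ q h₂).1 e)
    (fun p h₁ a b => ((h.rel 1 1 p h₁ _ (by
      show |(p + !₂[(0 : ℝ), a, b] : E) 0| < Pr.T + 1
      simpa using (show |p 0| < Pr.T + 1 from h₁))).2 ⟨a, b, rfl⟩).symm) hex.choose_spec
  have e1 : hex.choose.1 =ᶠ[𝓝 u] fun s => c s + !₂[(0 : ℝ), a, b] := hab.mono fun _ h => h.1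
  have e2 : hex.choose.2 =ᶠ[𝓝 u] V := hab.mono fun _ h => h.2
  have e3 : (fun u => ip g (γ u) (J u) (J u)) =ᶠ[𝓝 u]
      fun u => Pr.H.hh (Pr.H.st (c u) (deriv c u) (V u) (deriv V u)) := by
    filter_upwards [Ru.ip_eq (hp 1)] with t ht
    rw [ht.1]
    exact Pr.good.bil_eq _ _ _ _
  rw [Prof.Om, dif_pos hex, e1.self_of_nhds, e2.self_of_nhds, e1.deriv_eq, e2.deriv_eq,
    deriv_add_const, Tri.st_add, e3.deriv_eq,
    ((Pr.good.flow Ru.jacNear).hasDerivAt_hh Pr.good).deriv, mul_div_cancel_left₀ _ two_ne_zero,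
    Prof.om]

theorem Prof.noConj_const {i : Fin 3} (hi : i ≠ 1) :
    ∃ A : Matrix (Fin 3) (Fin 3) ℝ, A.PosDef ∧ Pr.G i = fun _ => A := by
  refine ⟨Pr.G i 0, (Pr.riem_G i 0).self_of_nhds.2, ?_⟩
  fin_cases i
  · rfl
  · exact absurd rfl hi
  · rfl

theorem Prof.noConj_chi {i : Fin 3} (hi : i ≠ 1) {p q : E} (hq : q ∈ Pr.U i) (h : Pr.rel 1 p i q) :
    Pr.χ (p 0) = 0 := by
  refine Pr.χ_zero _ ?_
  fin_cases i
  · have := Pr.lt_of_rel₀ hq h
    exact le_abs.2 (Or.inr (by linarith))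
  · exact absurd rfl hi
  · exact le_abs.2 (Or.inl (Pr.lt_of_rel₂ hq h).le)

theorem Prof.Om_flat (h : Pr.glue.TopSpec pm) (hp : ∀ i, IsParam g (Pr.G i) (Pr.U i) (pm i))
    {i : Fin 3} (hi : i ≠ 1) {c V : ℝ → E} {s : ℝ} (R : Rep (Pr.G i) (Pr.U i) (pm i) γ J c V s) :
    Pr.Om g pm γ J =ᶠ[𝓝 s] fun u => Bil (Pr.G i) (c u) (deriv V u) (V u) := by
  obtain ⟨A, hA, e⟩ := Pr.noConj_const hi
  filter_upwards [R.eventually] with u Ru
  have e3 : (fun u => ip g (γ u) (J u) (J u)) =ᶠ[𝓝 u]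
      fun u => Bil (fun _ => A) (c u) (V u) (V u) := by
    filter_upwards [Ru.ip_eq (hp i)] with t ht
    rw [ht.1, e]
  have hJ : JacNear (fun _ => A) c V u := e ▸ Ru.jacNear
  rw [Prof.Om, e3.deriv_eq, (flat_jac hA hJ).1.self_of_nhds.deriv,
    mul_div_cancel_left₀ _ two_ne_zero, e, add_eq_left]
  split_ifs with hex
  · obtain ⟨a1, a2, -⟩ := hex.choose_spec.self_of_nhds
    obtain ⟨b1, b2, -⟩ := Ru.self_of_nhds
    have := Pr.noConj_chi hi b1 ((h.rel 1 i _ a1 _ b1).1 (a2.trans b2.symm))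
    exact mul_eq_zero_of_left this _
  · rfl

theorem Prof.Om_lowDer (h : Pr.glue.TopSpec pm) (hp : ∀ i, IsParam g (Pr.G i) (Pr.U i) (pm i))
    {i : Fin 3} {c V : ℝ → E} {s : ℝ} (R : Rep (Pr.G i) (Pr.U i) (pm i) γ J c V s) :
    ∃ D, 0 ≤ D ∧ LowDer (Pr.Om g pm γ J) s D ∧
      (V s = 0 → Pr.Om g pm γ J s = 0 ∧ D = Bil (Pr.G i) (c s) (deriv V s) (deriv V s)) := by
  by_cases hi : i = 1
  · subst hi
    have e := Pr.Om_neck h hp R
    obtain ⟨D, h0, h1, h2⟩ := Pr.omega_lowDer (Pr.good.flow R.jacNear)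
    refine ⟨D, h0, h1.congr e.symm, fun hV => ?_⟩
    have z0 : (Pr.H.st (c s) (deriv c s) (V s) (deriv V s)).a = 0 := by rw [hV]; rfl
    have z1 : (Pr.H.st (c s) (deriv c s) (V s) (deriv V s)).y = 0 := by rw [hV]; rfl
    have z2 : (Pr.H.st (c s) (deriv c s) (V s) (deriv V s)).z = 0 := by rw [hV]; rfl
    refine ⟨by rw [e.self_of_nhds]; exact Pr.omega_zero z0 z1 z2, ?_⟩
    rw [h2 z0 z1 z2, hV]
    exact Pr.good.mom_eq _ _ _
  · have e := Pr.Om_flat h hp hi R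
    obtain ⟨A, hA, e'⟩ := Pr.noConj_const hi
    have hJ : JacNear (fun _ => A) c V s := e' ▸ R.jacNear
    have h1 := (flat_jac hA hJ).2
    rw [← e'] at h1
    refine ⟨_, (Pr.riem_G i _).nonneg _, (LowDer.of_hasDerivAt h1).congr e.symm, fun hV => ⟨?_, rfl⟩⟩
    simp only [e.self_of_nhds, hV, map_zero]

/-- If `J a = J b = 0` with `a < b`, then `Om a = Om b = 0`, so `D = 0` at `a` (`lt_of_lowDer`),
`V' a = 0`, `V = 0` near `a` (`JacNear.zero`) and `J = 0` (`IsJac.zero`). -/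
theorem Prof.noConj (h : Pr.glue.TopSpec pm) (hp : ∀ i, IsParam g (Pr.G i) (Pr.U i) (pm i)) :
    NoConj g := by
  intro γ J hγ hJ a b hab ha hb
  wlog hlt : a < b generalizing a b
  · exact this b a hab.symm hb ha (lt_of_le_of_ne (not_lt.1 hlt) hab.symm)
  have hrep : ∀ s, ∃ i c V, Rep (Pr.G i) (Pr.U i) (pm i) γ J c V s := fun s => by
    obtain ⟨i, p, h₁, e⟩ := h.surj (γ s)
    obtain ⟨c, V, -, R⟩ := (hp i).exists_rep hγ hJ h₁ e
    exact ⟨i, c, V, R⟩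
  have hall : ∀ s, ∃ D, 0 ≤ D ∧ LowDer (Pr.Om g pm γ J) s D := fun s => by
    obtain ⟨i, c, V, R⟩ := hrep s
    obtain ⟨D, h0, h1, -⟩ := Pr.Om_lowDer h hp R
    exact ⟨D, h0, h1⟩
  have hzb : Pr.Om g pm γ J b = 0 := by
    obtain ⟨i, c, V, R⟩ := hrep b
    obtain ⟨D, -, -, h2⟩ := Pr.Om_lowDer h hp R
    exact (h2 ((R.ip_eq (hp i)).self_of_nhds.2.1 hb)).1
  obtain ⟨i, c, V, R⟩ := hrep a
  obtain ⟨D, -, h1, h2⟩ := Pr.Om_lowDer h hp R
  have hV := (R.ip_eq (hp i)).self_of_nhds.2.1 ha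
  obtain ⟨h3, h4⟩ := h2 hV
  have h5 : deriv V a = 0 := by
    by_contra h5
    have := lt_of_lowDer hall hlt (h4 ▸ (Pr.riem_G i _).pos h5) h1
    rw [h3, hzb] at this
    exact lt_irrefl _ this
  refine hJ.zero hγ (a := a) ?_
  filter_upwards [R.jacNear.zero (Pr.riem_G i _) hV h5, R.ip_eq (hp i)] with s h6 h7
  exact h7.2.2 h6

end Crest.Agent.R244
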