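import Crest.Agent.R244.Deck
/-!
# R244: the boundary of the square is a commutator
With `b = Θ (1/8, 0)` over the corner `(1/2, 1/2, 0)`, lift `(s, Z) ↦ Q (1/2 + s, 1/2, Z)` and
`(s, Z) ↦ Q (1/2, 1/2 + s, Z)` to `Ψx`, `Ψy` from `b`; shifts in `s` give decks `X`, `Y`; shifts in
`Z` give `Fb` (compare along `s = 0` with `Θ (1/8, ·)`), so `X`, `Y` commute with `Fb`.
On `θ ∈ [1/8,3/8]`, `sq θ 0 = (1/2, cos/(2 sin), 0)`, so `Θ (θ,0) = Ψy (cos/(2 sin) - 1/2, 0)` and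
`Θ (3/8,0) = Y⁻¹ b`; likewise `Θ (5/8,0) = Y⁻¹X⁻¹ b`, `Θ (7/8,0) = Y⁻¹X⁻¹Y b`,
`Θ (9/8,0) = Y⁻¹X⁻¹YX b = C b`. Hence `C = ⁅Y⁻¹, X⁻¹⁆`.
-/

set_option autoImplicit false

open scoped ContDiff Manifold Topology
open Bundle Filter Set
open Crest.GeometryTopology.CoordMetric Crest.GeometryTopology.ChartCurvature
  Crest.GeometryTopology.Geodesic

noncomputable section

namespace Crest.Agent.R244

variable {M : Type*} [TopologicalSpace M]

theorem side_max_pos (φ : ℝ) : 0 < max |Real.sin φ| |Real.cos φ| := by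
  by_contra h
  push Not at h
  have h1 : Real.sin φ = 0 := abs_nonpos_iff.mp ((le_max_left _ _).trans h)
  have h2 : Real.cos φ = 0 := abs_nonpos_iff.mp ((le_max_right _ _).trans h)
  have := Real.sin_sq_add_cos_sq φ
  rw [h1, h2] at this
  norm_num at this

theorem side_sq0 (θ Z : ℝ) : sq θ Z 0 = Real.sin (2 * Real.pi * θ) /
    (2 * max |Real.sin (2 * Real.pi * θ)| |Real.cos (2 * Real.pi * θ)|) := by
  simp [sq]

theorem side_sq1 (θ Z : ℝ) : sq θ Z 1 = Real.cos (2 * Real.pi * θ) /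
    (2 * max |Real.sin (2 * Real.pi * θ)| |Real.cos (2 * Real.pi * θ)|) := by
  simp [sq]

theorem side_sq2 (θ Z : ℝ) : sq θ Z 2 = Z := by
  simp [sq]

theorem side_eta (p : E) : p = !₂[p 0, p 1, p 2] := by
  ext i
  fin_cases i <;> simp

theorem side_xp {θ : ℝ} (Z : ℝ) (h : |Real.cos (2 * Real.pi * θ)| ≤ Real.sin (2 * Real.pi * θ)) :
    sq θ Z 0 = 1 / 2 := by
  have hm := side_max_pos (2 * Real.pi * θ)
  have h0 : 0 ≤ Real.sin (2 * Real.pi * θ) := (abs_nonneg _).trans h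
  rw [side_sq0]
  rw [abs_of_nonneg h0, max_eq_left h] at hm ⊢
  field_simp

theorem side_xm {θ : ℝ} (Z : ℝ) (h : |Real.cos (2 * Real.pi * θ)| ≤ -Real.sin (2 * Real.pi * θ)) :
    sq θ Z 0 = -(1 / 2) := by
  have hm := side_max_pos (2 * Real.pi * θ)
  have h0 : Real.sin (2 * Real.pi * θ) ≤ 0 := by linarith [(abs_nonneg _).trans h]
  rw [side_sq0]
  rw [abs_of_nonpos h0, max_eq_left h] at hm ⊢
  have : Real.sin (2 * Real.pi * θ) ≠ 0 := by intro h'; rw [h'] at hm; norm_num at hm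
  field_simp

theorem side_yp {θ : ℝ} (Z : ℝ) (h : |Real.sin (2 * Real.pi * θ)| ≤ Real.cos (2 * Real.pi * θ)) :
    sq θ Z 1 = 1 / 2 := by
  have hm := side_max_pos (2 * Real.pi * θ)
  have h0 : 0 ≤ Real.cos (2 * Real.pi * θ) := (abs_nonneg _).trans h
  rw [side_sq1]
  rw [abs_of_nonneg h0, max_eq_right h] at hm ⊢
  field_simp

theorem side_ym {θ : ℝ} (Z : ℝ) (h : |Real.sin (2 * Real.pi * θ)| ≤ -Real.cos (2 * Real.pi * θ)) :
    sq θ Z 1 = -(1 / 2) := by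
  have hm := side_max_pos (2 * Real.pi * θ)
  have h0 : Real.cos (2 * Real.pi * θ) ≤ 0 := by linarith [(abs_nonneg _).trans h]
  rw [side_sq1]
  rw [abs_of_nonpos h0, max_eq_right h] at hm ⊢
  have : Real.cos (2 * Real.pi * θ) ≠ 0 := by intro h'; rw [h'] at hm; norm_num at hm
  field_simp

theorem side_trig {φ : ℝ} (h1 : Real.pi / 4 ≤ φ) (h2 : φ ≤ 3 * Real.pi / 4) :
    |Real.cos φ| ≤ Real.sin φ := by
  have hp := Real.pi_pos
  have a1 : 0 ≤ Real.sin (φ - Real.pi / 4) :=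
    Real.sin_nonneg_of_nonneg_of_le_pi (by linarith) (by linarith)
  have a2 : 0 ≤ Real.sin (φ + Real.pi / 4) :=
    Real.sin_nonneg_of_nonneg_of_le_pi (by linarith) (by linarith)
  rw [Real.sin_sub, Real.cos_pi_div_four, Real.sin_pi_div_four] at a1
  rw [Real.sin_add, Real.cos_pi_div_four, Real.sin_pi_div_four] at a2
  have s2 : 0 < Real.sqrt 2 := by positivity
  rw [abs_le]
  constructor <;> nlinarith

theorem side_seg1 {θ : ℝ} (h : θ ∈ Icc (1 / 8 : ℝ) (3 / 8)) (Z : ℝ) : sq θ Z 0 = 1 / 2 := by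
  have hp := Real.pi_pos
  exact side_xp Z (side_trig (by nlinarith [h.1]) (by nlinarith [h.2]))

theorem side_seg2 {θ : ℝ} (h : θ ∈ Icc (3 / 8 : ℝ) (5 / 8)) (Z : ℝ) : sq θ Z 1 = -(1 / 2) := by
  have hp := Real.pi_pos
  apply side_ym
  have := side_trig (φ := 2 * Real.pi * θ - Real.pi / 2) (by nlinarith [h.1]) (by nlinarith [h.2])
  rwa [Real.cos_sub_pi_div_two, Real.sin_sub_pi_div_two] at this

theorem side_seg3 {θ : ℝ} (h : θ ∈ Icc (5 / 8 : ℝ) (7 / 8)) (Z : ℝ) : sq θ Z 0 = -(1 / 2) := by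
  have hp := Real.pi_pos
  apply side_xm
  have := side_trig (φ := 2 * Real.pi * θ - Real.pi) (by nlinarith [h.1]) (by nlinarith [h.2])
  rwa [Real.cos_sub_pi, Real.sin_sub_pi, abs_neg] at this

theorem side_seg4 {θ : ℝ} (h : θ ∈ Icc (7 / 8 : ℝ) (9 / 8)) (Z : ℝ) : sq θ Z 1 = 1 / 2 := by
  have hp := Real.pi_pos
  apply side_yp
  have := side_trig (φ := 2 * Real.pi * θ + Real.pi / 2 - 2 * Real.pi) (by nlinarith [h.1])
    (by nlinarith [h.2])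
  rwa [Real.cos_sub_two_pi, Real.sin_sub_two_pi, Real.cos_add_pi_div_two, Real.sin_add_pi_div_two,
    abs_neg] at this

theorem side_sq_add_one (θ Z : ℝ) : sq (θ + 1) Z = sq θ Z := by
  have : 2 * Real.pi * (θ + 1) = 2 * Real.pi * θ + 2 * Real.pi := by ring
  simp only [sq, this, Real.sin_add_two_pi, Real.cos_add_two_pi]

theorem sq_mem_grid (θ Z : ℝ) : sq θ Z ∈ grid := by
  rcases le_total |Real.cos (2 * Real.pi * θ)| |Real.sin (2 * Real.pi * θ)| with h | h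
  · left
    rcases le_total 0 (Real.sin (2 * Real.pi * θ)) with k | k
    · rw [abs_of_nonneg k] at h
      exact ⟨0, by rw [side_xp Z h]; norm_num⟩
    · rw [abs_of_nonpos k] at h
      exact ⟨-1, by rw [side_xm Z h]; norm_num⟩
  · right
    rcases le_total 0 (Real.cos (2 * Real.pi * θ)) with k | k
    · rw [abs_of_nonneg k] at h
      exact ⟨0, by rw [side_yp Z h]; norm_num⟩
    · rw [abs_of_nonpos k] at h
      exact ⟨-1, by rw [side_ym Z h]; norm_num⟩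

theorem side_cont3 {X : Type*} [TopologicalSpace X] {f g h : X → ℝ} (hf : Continuous f)
    (hg : Continuous g) (hh : Continuous h) : Continuous fun x => (!₂[f x, g x, h x] : E) := by
  refine (PiLp.continuous_toLp 2 _).comp (continuous_pi fun i => ?_)
  fin_cases i
  · simpa using hf
  · simpa using hg
  · simpa using hh

theorem continuous_sq : Continuous fun z : ℝ × ℝ => sq z.1 z.2 := by
  have hd : Continuous fun z : ℝ × ℝ =>
      2 * max |Real.sin (2 * Real.pi * z.1)| |Real.cos (2 * Real.pi * z.1)| := by fun_prop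
  have hn : ∀ z : ℝ × ℝ,
      2 * max |Real.sin (2 * Real.pi * z.1)| |Real.cos (2 * Real.pi * z.1)| ≠ 0 := fun z =>
    (mul_pos two_pos (side_max_pos _)).ne'
  exact side_cont3 (Continuous.div (by fun_prop) hd hn) (Continuous.div (by fun_prop) hd hn)
    continuous_snd

theorem sq_eighth (Z : ℝ) : sq (1 / 8) Z = !₂[1 / 2, 1 / 2, Z] := by
  rw [side_eta (sq (1 / 8) Z), side_seg1 ⟨le_rfl, by norm_num⟩, side_sq2]
  have : sq (1 / 8) Z 1 = 1 / 2 := by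
    rw [← side_sq_add_one]
    exact side_seg4 ⟨by norm_num, by norm_num⟩ Z
  rw [this]

theorem side_seg {P : E → M} (hP : IsCoveringMap P) {F G : ℝ → E} (hF : Continuous F)
    (hG : Continuous G) {a b : ℝ} (hab : a ≤ b) (h : ∀ θ ∈ Icc a b, P (F θ) = P (G θ))
    (e : F a = G a) : F b = G b := by
  have : PreconnectedSpace (Icc a b) := Subtype.preconnectedSpace isPreconnected_Icc
  have := lift_unique hP (F := fun x : Icc a b => F x) (F' := fun x : Icc a b => G x)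
    (hF.comp continuous_subtype_val) (hG.comp continuous_subtype_val) (fun x => h x x.2)
    (a := ⟨a, le_rfl, hab⟩) e
  exact congrFun this ⟨b, hab, le_rfl⟩

/-- One wall: the lift `Ψ` along a wall, its period `X` and the commutation with `Fb`. -/
theorem side_wall {P : E → M} (hP : IsCoveringMap P) {f : ℝ × ℝ → M} (hf : Continuous f)
    (p1 : ∀ s Z, f (s + 1, Z) = f (s, Z)) (p2 : ∀ s Z, f (s, Z + 1) = f (s, Z))
    {σ : ℝ → E} (hσ : Continuous σ) (hl : ∀ Z, P (σ Z) = f (0, Z)) {Fb : deck P}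
    (hF : σ 1 = (Fb : Equiv.Perm E) (σ 0)) :
    ∃ (Ψ : ℝ → E) (X : deck P), Continuous Ψ ∧ Ψ 0 = σ 0 ∧ (∀ s, P (Ψ s) = f (s, 0)) ∧
      (∀ s, Ψ (s + 1) = (X : Equiv.Perm E) (Ψ s)) ∧ Commute Fb X := by
  obtain ⟨Ψ, hΨ, h0, hp⟩ := exists_lift hP hf (a := (0, 0)) (e := σ 0) (hl 0)
  obtain ⟨X, hX, hXe⟩ := exists_deck_of_period hP hΨ (a := fun z : ℝ × ℝ => (z.1 + 1, z.2))
    (by fun_prop) (fun z => by rw [hp, hp, p1])
  obtain ⟨T, hT, hTe⟩ := exists_deck_of_period hP hΨ (a := fun z : ℝ × ℝ => (z.1, z.2 + 1))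
    (by fun_prop) (fun z => by rw [hp, hp, p2])
  have hs : (fun Z => Ψ (0, Z)) = σ :=
    lift_unique hP (by fun_prop) hσ (fun Z => by rw [hp, hl]) (a := 0) h0
  have hTF : T = Fb := by
    refine deck_ext hP hT Fb.2 (x := σ 0) ?_
    have h1 := hTe (0, 0)
    simp only [zero_add] at h1
    rw [← hF, ← congrFun hs 1, h1, h0]
  refine ⟨fun s => Ψ (s, 0), ⟨X, hX⟩, by fun_prop, h0, fun s => hp _, fun s => hXe (s, 0), ?_⟩
  apply Subtype.ext
  refine deck_ext hP (Fb * ⟨X, hX⟩).2 (⟨X, hX⟩ * Fb).2 (x := Ψ (0, 0)) ?_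
  have h1 := hXe (0, 0)
  have h2 := hTe (0, 0)
  have h3 := hXe (0, 0 + 1)
  have h4 := hTe (0 + 1, 0)
  simp only at h1 h2 h3 h4
  simp only [Subgroup.coe_mul, Equiv.Perm.mul_apply, ← hTF]
  rw [← h1, ← h2, ← h3, ← h4]

theorem side_c (i : Fin 3) : Continuous fun θ : ℝ => sq θ 0 i := by
  have cs : Continuous fun θ : ℝ => sq θ 0 :=
    continuous_sq.comp (f := fun θ : ℝ => (θ, (0 : ℝ))) (by fun_prop)
  exact (EuclideanSpace.proj i : E →L[ℝ] ℝ).continuous.comp cs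

set_option maxHeartbeats 400000 in
theorem side_lemma {P : E → M} (hP : IsCoveringMap P) {Q : E → M} (hQ : ContinuousOn Q grid)
    (per : ∀ p ∈ grid, ∀ a b c : ℤ, Q (p + !₂[(a : ℝ), b, c]) = Q p) {Θ : ℝ × ℝ → E}
    (hΘ : Continuous Θ) (hl : ∀ θ Z, P (Θ (θ, Z)) = Q (sq θ Z)) {C Fb : deck P}
    (hC : ∀ θ Z, Θ (θ + 1, Z) = (C : Equiv.Perm E) (Θ (θ, Z)))
    (hF : ∀ θ Z, Θ (θ, Z + 1) = (Fb : Equiv.Perm E) (Θ (θ, Z))) :
    ∃ x y : deck P, Commute Fb x ∧ Commute Fb y ∧ C = x * y * x⁻¹ * y⁻¹ := by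
  have gx : ∀ s Z : ℝ, (!₂[s, 1 / 2, Z] : E) ∈ grid := fun s Z => Or.inr ⟨0, by simp⟩
  have gy : ∀ s Z : ℝ, (!₂[1 / 2, s, Z] : E) ∈ grid := fun s Z => Or.inl ⟨0, by simp⟩
  have per' : ∀ (x y z x' y' z' : ℝ) (a b c : ℤ), (!₂[x, y, z] : E) ∈ grid → x' = x + a →
      y' = y + b → z' = z + c → Q !₂[x', y', z'] = Q !₂[x, y, z] := by
    intro x y z x' y' z' a b c hg h1 h2 h3
    rw [← per _ hg a b c]
    congr 1
    ext i
    fin_cases i <;> simp [h1, h2, h3]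
  have hF0 : Θ (1 / 8, 1) = (Fb : Equiv.Perm E) (Θ (1 / 8, 0)) := by
    simpa using hF (1 / 8) 0
  obtain ⟨Ψx, X, cx, x0, xp, xe, xc⟩ := side_wall hP
    (f := fun z : ℝ × ℝ => Q !₂[1 / 2 + z.1, 1 / 2, z.2])
    (hQ.comp_continuous (side_cont3 (by fun_prop) (by fun_prop) (by fun_prop)) fun z => gx _ _)
    (fun s Z => per' _ _ _ _ _ _ 1 0 0 (gx _ _) (by push_cast; ring) (by simp) (by simp))
    (fun s Z => per' _ _ _ _ _ _ 0 0 1 (gx _ _) (by simp) (by simp) (by simp))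
    (σ := fun Z => Θ (1 / 8, Z)) (by fun_prop) (fun Z => by rw [hl, sq_eighth]; simp) hF0
  obtain ⟨Ψy, Y, cy, y0, yp, ye, yc⟩ := side_wall hP
    (f := fun z : ℝ × ℝ => Q !₂[1 / 2, 1 / 2 + z.1, z.2])
    (hQ.comp_continuous (side_cont3 (by fun_prop) (by fun_prop) (by fun_prop)) fun z => gy _ _)
    (fun s Z => per' _ _ _ _ _ _ 0 1 0 (gy _ _) (by simp) (by push_cast; ring) (by simp))
    (fun s Z => per' _ _ _ _ _ _ 0 0 1 (gy _ _) (by simp) (by simp) (by simp))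
    (σ := fun Z => Θ (1 / 8, Z)) (by fun_prop) (fun Z => by rw [hl, sq_eighth]; simp) hF0
  obtain ⟨b, hb⟩ : ∃ b, b = Θ (1 / 8, 0) := ⟨_, rfl⟩
  replace x0 : Ψx 0 = b := x0.trans hb.symm
  replace y0 : Ψy 0 = b := y0.trans hb.symm
  replace xp : ∀ s, P (Ψx s) = Q !₂[1 / 2 + s, 1 / 2, 0] := xp
  replace yp : ∀ s, P (Ψy s) = Q !₂[1 / 2, 1 / 2 + s, 0] := yp
  have cT : Continuous fun θ : ℝ => Θ (θ, 0) := by fun_prop
  have dk : ∀ (T : deck P) (e : E), P ((T : Equiv.Perm E) e) = P e := fun T e => T.2.2.2 e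
  have dc : ∀ T : deck P, Continuous (T : Equiv.Perm E) := fun T => T.2.1
  have hxm : Ψx (-1) = ((X⁻¹ : deck P) : Equiv.Perm E) b := by
    have := xe (-1)
    rw [neg_add_cancel, x0] at this
    rw [this]; simp
  have hym : Ψy (-1) = ((Y⁻¹ : deck P) : Equiv.Perm E) b := by
    have := ye (-1)
    rw [neg_add_cancel, y0] at this
    rw [this]; simp
  have hxp : Ψx 1 = (X : Equiv.Perm E) b := by simpa [x0] using xe 0
  have hyp : Ψy 1 = (Y : Equiv.Perm E) b := by simpa [y0] using ye 0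
  have e18x : sq (1 / 8) 0 0 = 1 / 2 := by rw [sq_eighth]; simp
  have e18y : sq (1 / 8) 0 1 = 1 / 2 := by rw [sq_eighth]; simp
  have e98x : sq (9 / 8) 0 0 = 1 / 2 := by
    rw [show (9 / 8 : ℝ) = 1 / 8 + 1 by norm_num, side_sq_add_one, e18x]
  have e38x : sq (3 / 8) 0 0 = 1 / 2 := side_seg1 ⟨by norm_num, le_rfl⟩ 0
  have e38y : sq (3 / 8) 0 1 = -(1 / 2) := side_seg2 ⟨le_rfl, by norm_num⟩ 0
  have e58x : sq (5 / 8) 0 0 = -(1 / 2) := side_seg3 ⟨le_rfl, by norm_num⟩ 0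
  have e58y : sq (5 / 8) 0 1 = -(1 / 2) := side_seg2 ⟨by norm_num, le_rfl⟩ 0
  have e78x : sq (7 / 8) 0 0 = -(1 / 2) := side_seg3 ⟨by norm_num, le_rfl⟩ 0
  have e78y : sq (7 / 8) 0 1 = 1 / 2 := side_seg4 ⟨le_rfl, by norm_num⟩ 0
  have s1 : Θ (3 / 8, 0) = ((Y⁻¹ : deck P) : Equiv.Perm E) b := by
    have := side_seg hP cT (G := fun θ => Ψy (sq θ 0 1 - 1 / 2))
      (cy.comp ((side_c 1).sub continuous_const))
      (a := 1 / 8) (b := 3 / 8) (by norm_num)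
      (fun θ hθ => by
        rw [hl, yp, side_eta (sq θ 0), side_seg1 hθ, side_sq2]
        congr 1; ext i; fin_cases i <;> simp)
      (by simp only [e18y, sub_self, y0, hb])
    rw [this, e38y, ← hym]; norm_num
  have s2 : Θ (5 / 8, 0) = ((Y⁻¹ * X⁻¹ : deck P) : Equiv.Perm E) b := by
    have := side_seg hP cT
      (G := fun θ => ((Y⁻¹ : deck P) : Equiv.Perm E) (Ψx (sq θ 0 0 - 1 / 2)))
      ((dc _).comp (cx.comp ((side_c 0).sub continuous_const))) (a := 3 / 8) (b := 5 / 8) (by norm_num)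
      (fun θ hθ => by
        rw [hl, dk, xp, side_eta (sq θ 0), side_seg2 hθ, side_sq2]
        exact per' _ _ _ _ _ _ 0 (-1) 0 (gx _ _) (by simp) (by norm_num) (by simp))
      (by simp only [e38x, sub_self, x0, s1])
    rw [this, e58x, show -(1 / 2) - 1 / 2 = (-1 : ℝ) by norm_num, hxm]; simp
  have s3 : Θ (7 / 8, 0) = ((Y⁻¹ * X⁻¹ * Y : deck P) : Equiv.Perm E) b := by
    have := side_seg hP cT
      (G := fun θ => ((Y⁻¹ * X⁻¹ : deck P) : Equiv.Perm E) (Ψy (sq θ 0 1 + 1 / 2)))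
      ((dc _).comp (cy.comp ((side_c 1).add continuous_const))) (a := 5 / 8) (b := 7 / 8) (by norm_num)
      (fun θ hθ => by
        rw [hl, dk, yp, side_eta (sq θ 0), side_seg3 hθ, side_sq2]
        exact per' _ _ _ _ _ _ (-1) (-1) 0 (gy _ _) (by norm_num) (by simp; ring) (by simp))
      (by simp only [e58y, neg_add_cancel, y0, s2])
    rw [this, e78y, show (1 / 2 + 1 / 2 : ℝ) = 1 by norm_num, hyp]; simp
  have s4 : Θ (9 / 8, 0) = ((Y⁻¹ * X⁻¹ * Y * X : deck P) : Equiv.Perm E) b := by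
    have := side_seg hP cT
      (G := fun θ => ((Y⁻¹ * X⁻¹ * Y : deck P) : Equiv.Perm E) (Ψx (sq θ 0 0 + 1 / 2)))
      ((dc _).comp (cx.comp ((side_c 0).add continuous_const))) (a := 7 / 8) (b := 9 / 8) (by norm_num)
      (fun θ hθ => by
        rw [hl, dk, xp, side_eta (sq θ 0), side_seg4 hθ, side_sq2]
        exact per' _ _ _ _ _ _ (-1) 0 0 (gx _ _) (by simp; ring) (by simp) (by simp))
      (by simp only [e78x, neg_add_cancel, x0, s3])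
    rw [this, e98x, show (1 / 2 + 1 / 2 : ℝ) = 1 by norm_num, hxp]; simp
  refine ⟨Y⁻¹, X⁻¹, yc.inv_right, xc.inv_right, ?_⟩
  rw [inv_inv, inv_inv]
  apply Subtype.ext
  refine deck_ext hP C.2 (Y⁻¹ * X⁻¹ * Y * X).2 (x := b) ?_
  rw [← s4, hb, ← hC]; norm_num

/-- Lift `Φ` to `Φ'`; the periods give commuting decks `Ty`, `Tz`. Side 1:
`Θ (θ,Z) = Φ' (-L, θ, Z)`, `C = Ty`, `Fb = Tz`. Side 2: `Θ (θ,Z) = Φ' (L, Z, θ + Z)`, `C = Tz`,
`Fb = Tz Ty`. Take `f₁ = Tz`, `f₂ = Tz Ty`. -/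
theorem exists_decks (D : TopData M) {P : E → M} (hP : IsCoveringMap P) (h0 : P 0 = D.Φ 0)
    {P₀ : E → M} (hP₀ : IsCoveringMap P₀) {v : E} (hv : v ≠ 0)
    (hv' : ∀ s : ℝ, P₀ (s • v) = D.Φ !₂[-D.L, 1 / 8, s]) :
    ∃ f₁ x₁ y₁ f₂ x₂ y₂ : deck P, Commute f₁ x₁ ∧ Commute f₁ y₁ ∧ Commute f₂ x₂ ∧ Commute f₂ y₂ ∧
      f₂ = f₁ * (x₁ * y₁ * x₁⁻¹ * y₁⁻¹) ∧ f₁ = x₂ * y₂ * x₂⁻¹ * y₂⁻¹ ∧ f₁ ≠ 1 := by
  have hz : (!₂[0, 0, 0] : E) = 0 := by
    ext i; fin_cases i <;> simp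
  obtain ⟨F, hF, -, hp⟩ := exists_lift hP
    (f := fun z : ℝ × ℝ × ℝ => D.Φ !₂[z.1, z.2.1, z.2.2])
    (D.contΦ.comp (side_cont3 (by fun_prop) (by fun_prop) (by fun_prop)))
    (a := (0, 0, 0)) (e := 0) (by rw [h0]; simp only [hz])
  obtain ⟨Ty, hTy, ey⟩ := exists_deck_of_period hP hF
    (a := fun z : ℝ × ℝ × ℝ => (z.1, z.2.1 + 1, z.2.2)) (by fun_prop)
    (fun z => by rw [hp, hp]; exact D.perY _ _ _)
  obtain ⟨Tz, hTz, ez⟩ := exists_deck_of_period hP hF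
    (a := fun z : ℝ × ℝ × ℝ => (z.1, z.2.1, z.2.2 + 1)) (by fun_prop)
    (fun z => by rw [hp, hp]; exact D.perZ _ _ _)
  obtain ⟨x₁, y₁, a1, a2, a3⟩ := side_lemma hP D.cont₁ D.per₁
    (Θ := fun z : ℝ × ℝ => F (-D.L, z.1, z.2)) (by fun_prop)
    (fun θ Z => by rw [hp]; exact D.left _ _) (C := ⟨Ty, hTy⟩) (Fb := ⟨Tz, hTz⟩)
    (fun θ Z => ey (-D.L, θ, Z)) (fun θ Z => ez (-D.L, θ, Z))
  obtain ⟨x₂, y₂, b1, b2, b3⟩ := side_lemma hP D.cont₂ D.per₂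
    (Θ := fun z : ℝ × ℝ => F (D.L, z.2, z.1 + z.2)) (by fun_prop)
    (fun θ Z => by rw [hp]; simpa using D.right Z (θ + Z)) (C := ⟨Tz, hTz⟩)
    (Fb := ⟨Tz, hTz⟩ * ⟨Ty, hTy⟩)
    (fun θ Z => by
      have := ez (D.L, Z, θ + Z)
      simp only at this ⊢
      rw [← this]; congr 3; ring)
    (fun θ Z => by
      have h1 := ez (D.L, Z + 1, θ + Z)
      have h2 := ey (D.L, Z, θ + Z)
      simp only [Subgroup.coe_mul, Equiv.Perm.mul_apply] at h1 h2 ⊢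
      rw [← h2, ← h1]; congr 3; ring)
  refine ⟨⟨Tz, hTz⟩, x₁, y₁, ⟨Tz, hTz⟩ * ⟨Ty, hTy⟩, x₂, y₂, a1, a2, b1, b2, by rw [a3], b3, ?_⟩
  intro h1
  have h2 : Tz = 1 := congrArg Subtype.val h1
  refine hv (eq_zero_of_closed_lift hP.continuous hP₀ (σ := fun s => F (-D.L, 1 / 8, s))
    (by fun_prop) (fun s => by rw [hp, hv']) ?_)
  have := ez (-D.L, 1 / 8, 0)
  simpa [h2] using this

end Crest.Agent.R244
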