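import Crest.Agent.R244.ModelB
import Crest.Agent.R244.Side
/-!
# R244: auxiliary lemmas for the map `Phi` (radial interpolation, periodicity)
-/

set_option autoImplicit false

open scoped ContDiff Manifold Topology
open Bundle Filter Set

noncomputable section

namespace Crest.Agent.R244

/-- Radial interpolation between the circle of radius `r` and the unit square. -/
def phiaRad (r l θ Z : ℝ) : E :=
  (1 - l) • (!₂[r * Real.sin (2 * Real.pi * θ), r * Real.cos (2 * Real.pi * θ), Z] : E) +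
    l • sq θ Z

theorem phia_sq_le {x : ℝ} (hx : |x| ≤ 1 / 2) (a : ℤ) : x ^ 2 ≤ (x - a) ^ 2 := by
  rw [abs_le] at hx
  rcases lt_trichotomy a 0 with h | h | h
  · have : (a : ℝ) ≤ -1 := by exact_mod_cast (by omega : a ≤ -1)
    nlinarith
  · simp [h]
  · have : (1 : ℝ) ≤ a := by exact_mod_cast (by omega : 1 ≤ a)
    nlinarith

theorem phiaRad_mem {ρ r l : ℝ} (hρ : 0 ≤ ρ) (hr : ρ < r) (hr' : r ≤ 1 / 2) (h0 : 0 ≤ l)
    (h1 : l ≤ 1) (θ Z : ℝ) : phiaRad r l θ Z ∈ Prof.holes ρ := by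
  intro a b
  set s := Real.sin (2 * Real.pi * θ) with hs
  set c := Real.cos (2 * Real.pi * θ) with hc
  set μ := max |s| |c| with hμ
  have hμ0 : 0 < μ := side_max_pos _
  have hμ1 : μ ≤ 1 := max_le (Real.abs_sin_le_one _) (Real.abs_cos_le_one _)
  set R := (1 - l) * r + l / (2 * μ) with hR
  have e0 : phiaRad r l θ Z 0 = R * s := by
    simp only [phiaRad, PiLp.add_apply, PiLp.smul_apply, smul_eq_mul, side_sq0, ← hs, ← hc, ← hμ]
    simp only [Matrix.cons_val_zero, hR]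
    ring
  have e1 : phiaRad r l θ Z 1 = R * c := by
    simp only [phiaRad, PiLp.add_apply, PiLp.smul_apply, smul_eq_mul, side_sq1, ← hs, ← hc, ← hμ]
    simp only [Matrix.cons_val_one, Matrix.cons_val_zero, hR]
    ring
  have hr0 : 0 ≤ r := hρ.trans hr.le
  have hRr : r ≤ R := by
    have : l * r ≤ l / (2 * μ) := by
      rw [le_div_iff₀ (by positivity)]
      have : r * (2 * μ) ≤ 1 := by nlinarith
      nlinarith
    rw [hR]; linarith
  have hRμ : R * μ ≤ 1 / 2 := by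
    have e : R * μ = (1 - l) * (r * μ) + l / 2 := by rw [hR]; field_simp
    have : r * μ ≤ 1 / 2 := by nlinarith
    rw [e]; nlinarith
  have hR0 : 0 ≤ R := hr0.trans hRr
  have b0 : |R * s| ≤ 1 / 2 := by
    rw [abs_mul, abs_of_nonneg hR0]
    exact (mul_le_mul_of_nonneg_left (le_max_left _ _) hR0).trans hRμ
  have b1 : |R * c| ≤ 1 / 2 := by
    rw [abs_mul, abs_of_nonneg hR0]
    exact (mul_le_mul_of_nonneg_left (le_max_right _ _) hR0).trans hRμ
  have k0 := phia_sq_le b0 a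
  have k1 := phia_sq_le b1 b
  have k2 : (R * s) ^ 2 + (R * c) ^ 2 = R ^ 2 := by
    have := Real.sin_sq_add_cos_sq (2 * Real.pi * θ)
    rw [← hs, ← hc] at this
    linear_combination R ^ 2 * this
  have k3 : ρ ^ 2 < R ^ 2 := by nlinarith
  rw [e0, e1]
  linarith

theorem phiaRad_add_one (r l θ Z : ℝ) : phiaRad r l (θ + 1) Z = phiaRad r l θ Z := by
  simp only [phiaRad, side_sq_add_one, mul_add, mul_one, Real.sin_add_two_pi, Real.cos_add_two_pi]

theorem phiaRad_Z (r l θ Z : ℝ) :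
    phiaRad r l θ (Z + 1) = phiaRad r l θ Z + !₂[((0 : ℤ) : ℝ), ((0 : ℤ) : ℝ), ((1 : ℤ) : ℝ)] := by
  ext i
  fin_cases i
  · simp [phiaRad, sq]
  · simp [phiaRad, sq]
  · simp [phiaRad, sq]; ring

theorem phiaRad_zero (r θ Z : ℝ) : phiaRad r 0 θ Z =
    !₂[r * Real.sin (2 * Real.pi * θ), r * Real.cos (2 * Real.pi * θ), Z] := by
  simp [phiaRad]

theorem phiaRad_one (r θ Z : ℝ) : phiaRad r 1 θ Z = sq θ Z := by
  simp [phiaRad]

theorem continuous_phiaRad {X : Type*} [TopologicalSpace X] (r : ℝ) {l θ Z : X → ℝ}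
    (hl : Continuous l) (hθ : Continuous θ) (hZ : Continuous Z) :
    Continuous fun x => phiaRad r (l x) (θ x) (Z x) := by
  have a1 : Continuous fun x => (!₂[r * Real.sin (2 * Real.pi * θ x),
      r * Real.cos (2 * Real.pi * θ x), Z x] : E) := side_cont3 (by fun_prop) (by fun_prop) hZ
  have a2 : Continuous fun x => sq (θ x) (Z x) :=
    Continuous.comp (g := fun z : ℝ × ℝ => sq z.1 z.2) (f := fun x => (θ x, Z x)) continuous_sq
      (hθ.prodMk hZ)
  have a3 : Continuous fun x => 1 - l x := continuous_const.sub hl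
  exact (a3.smul a1).add (hl.smul a2)

variable (Pr : Prof) {M : Type} [TopologicalSpace M] {pm : Fin 3 → E → M}

theorem Prof.phia_lam_nonneg (s : ℝ) : 0 ≤ Pr.lam s := le_max_left _ _

theorem Prof.phia_lam_le (s : ℝ) : Pr.lam s ≤ 1 := max_le zero_le_one (min_le_left _ _)

theorem Prof.phia_continuous_lam : Continuous Pr.lam := by
  unfold Prof.lam
  fun_prop

theorem Prof.phia_mem₀ {l : ℝ} (h0 : 0 ≤ l) (h1 : l ≤ 1) (θ Z : ℝ) :
    phiaRad (Pr.r₁ (-Pr.T - 1 / 2)) l θ Z ∈ Pr.U 0 := by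
  have hb := Pr.hb₁
  refine phiaRad_mem (ρ := Pr.r₁ (-Pr.T)) ?_ ?_ ?_ h0 h1 θ Z
  · exact div_nonneg (by linarith) (by positivity)
  · exact div_lt_div_of_pos_right (by linarith) (by positivity)
  · unfold Prof.r₁
    rw [div_le_iff₀ (by positivity)]
    linarith

theorem Prof.phia_mem₂ {l : ℝ} (h0 : 0 ≤ l) (h1 : l ≤ 1) (θ Z : ℝ) :
    phiaRad (Pr.r₂ (Pr.T + 1 / 2)) l θ Z ∈ Pr.U 2 := by
  have hb := Pr.hb₂
  refine phiaRad_mem (ρ := Pr.r₂ Pr.T) ?_ ?_ ?_ h0 h1 θ Z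
  · exact div_nonneg (by linarith) (by positivity)
  · exact div_lt_div_of_pos_right (by linarith) (by positivity)
  · unfold Prof.r₂
    rw [div_le_iff₀ (by positivity)]
    linarith

theorem Prof.phia_Phi_eq {M : Type*} (pm : Fin 3 → E → M) (p : E) : Pr.Phi pm p =
    if p 0 ≤ -Pr.T - 1 / 2 then
      pm 0 (phiaRad (Pr.r₁ (-Pr.T - 1 / 2)) (Pr.lam (-p 0)) (p 1) (p 2))
    else if p 0 ≤ Pr.T + 1 / 2 then pm 1 p
    else pm 2 (phiaRad (Pr.r₂ (Pr.T + 1 / 2)) (Pr.lam (p 0)) (p 2 - p 1) (p 1)) := rfl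

theorem Prof.phia_per₀ (h : Pr.glue.TopSpec pm) {p : E} (hp : p ∈ Pr.U 0) (a b c : ℤ) :
    pm 0 (p + !₂[(a : ℝ), b, c]) = pm 0 p :=
  ((h.rel 0 0 p hp _ (Pr.add_mem_U (by decide) hp a b c)).2 ⟨a, b, c, add_sub_cancel_left _ _⟩).symm

theorem Prof.phia_per₂ (h : Pr.glue.TopSpec pm) {p : E} (hp : p ∈ Pr.U 2) (a b c : ℤ) :
    pm 2 (p + !₂[(a : ℝ), b, c]) = pm 2 p :=
  ((h.rel 2 2 p hp _ (Pr.add_mem_U (by decide) hp a b c)).2 ⟨a, b, c, add_sub_cancel_left _ _⟩).symm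

theorem Prof.phia_per₁ (h : Pr.glue.TopSpec pm) {p : E} (hp : |p 0| < Pr.T + 1) (a b : ℤ) :
    pm 1 (p + !₂[(0 : ℝ), a, b]) = pm 1 p := by
  have hq : p + !₂[(0 : ℝ), a, b] ∈ Pr.U 1 := by
    show |(p + !₂[(0 : ℝ), a, b] : E) 0| < Pr.T + 1
    simpa using hp
  exact ((h.rel 1 1 p hp _ hq).2 ⟨a, b, rfl⟩).symm

theorem phia_lat_zero : lat 0 := ⟨0, 0, 0, by ext i; fin_cases i <;> simp⟩

theorem Prof.phia_pol₁ (h : Pr.glue.TopSpec pm) {p : E} (hp : |p 0| < Pr.T + 1)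
    (hp' : p 0 < -Pr.T) : pm 0 (Pr.pol₁ p) = pm 1 p :=
  (h.rel 0 1 _ (Pr.pol₁_mem hp hp') p hp).2 ⟨hp'.le, by rw [sub_self]; exact phia_lat_zero⟩

theorem Prof.phia_pol₂ (h : Pr.glue.TopSpec pm) {p : E} (hp : |p 0| < Pr.T + 1)
    (hp' : Pr.T < p 0) : pm 2 (Pr.pol₂ p) = pm 1 p :=
  (h.rel 2 1 _ (Pr.pol₂_mem hp hp') p hp).2 ⟨hp'.le, by rw [sub_self]; exact phia_lat_zero⟩

theorem Prof.phia_continuous (h : Pr.glue.TopSpec pm) : Continuous (Pr.Phi pm) := by
  have hT := Pr.T_pos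
  have c0 : Continuous fun p : E => p 0 := by fun_prop
  have c1 : Continuous fun p : E => p 1 := by fun_prop
  have c2 : Continuous fun p : E => p 2 := by fun_prop
  have f0 : Continuous fun p : E =>
      pm 0 (phiaRad (Pr.r₁ (-Pr.T - 1 / 2)) (Pr.lam (-p 0)) (p 1) (p 2)) :=
    (h.cont 0).comp_continuous
      (continuous_phiaRad _ (Pr.phia_continuous_lam.comp c0.neg) c1 c2)
      fun p => Pr.phia_mem₀ (Pr.phia_lam_nonneg _) (Pr.phia_lam_le _) _ _
  have f2 : Continuous fun p : E =>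
      pm 2 (phiaRad (Pr.r₂ (Pr.T + 1 / 2)) (Pr.lam (p 0)) (p 2 - p 1) (p 1)) :=
    (h.cont 2).comp_continuous
      (continuous_phiaRad _ (Pr.phia_continuous_lam.comp c0) (c2.sub c1) c1)
      fun p => Pr.phia_mem₂ (Pr.phia_lam_nonneg _) (Pr.phia_lam_le _) _ _
  have f1 : Continuous fun p : E =>
      pm 1 !₂[max (-Pr.T - 1 / 2) (min (Pr.T + 1 / 2) (p 0)), p 1, p 2] := by
    refine (h.cont 1).comp_continuous (side_cont3 (by fun_prop) c1 c2) fun p => ?_
    show |max (-Pr.T - 1 / 2) (min (Pr.T + 1 / 2) (p 0))| < Pr.T + 1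
    rw [abs_lt]
    exact ⟨lt_max_of_lt_left (by linarith),
      max_lt (by linarith) ((min_le_left _ _).trans_lt (by linarith))⟩
  have mid : ∀ p : E, -Pr.T - 1 / 2 ≤ p 0 → p 0 ≤ Pr.T + 1 / 2 →
      (!₂[max (-Pr.T - 1 / 2) (min (Pr.T + 1 / 2) (p 0)), p 1, p 2] : E) = p := by
    intro p h1 h2
    rw [min_eq_right h2, max_eq_right h1]
    exact (side_eta p).symm
  have g1 := f1.if_le f2 c0 (continuous_const (y := Pr.T + 1 / 2)) (by
    intro p hp
    rw [mid p (by linarith) hp.le, ← Pr.phia_pol₂ h (by rw [hp, abs_lt]; constructor <;> linarith)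
      (by linarith)]
    have : Pr.lam (p 0) = 0 := by simp [Prof.lam, hp]
    rw [this, phiaRad_zero, Prof.pol₂, hp])
  have g0 := f0.if_le g1 c0 (continuous_const (y := -Pr.T - 1 / 2)) (by
    intro p hp
    rw [if_pos (by linarith), mid p hp.ge (by linarith),
      ← Pr.phia_pol₁ h (by rw [hp, abs_lt]; constructor <;> linarith) (by linarith)]
    have : Pr.lam (-p 0) = 0 := by
      have e : -p 0 - Pr.T - 1 / 2 = 0 := by linarith
      rw [Prof.lam, e, min_eq_right zero_le_one, max_self]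
    rw [this, phiaRad_zero, Prof.pol₁, hp])
  refine g0.congr fun p => ?_
  rw [Pr.phia_Phi_eq]
  split_ifs with h1 h2
  · rfl
  · rw [mid p (by linarith) h2]
  · rfl

theorem Prof.phia_perY (h : Pr.glue.TopSpec pm) (t y z : ℝ) :
    Pr.Phi pm !₂[t, y + 1, z] = Pr.Phi pm !₂[t, y, z] := by
  rw [Pr.phia_Phi_eq, Pr.phia_Phi_eq]
  simp only [Matrix.cons_val_zero, Matrix.cons_val_one, Matrix.cons_val]
  split_ifs with h1 h2
  · rw [phiaRad_add_one]
  · rw [← Pr.phia_per₁ h (p := !₂[t, y, z]) (by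
      show |t| < Pr.T + 1
      rw [abs_lt]; constructor <;> linarith) 1 0]
    congr 1
    ext i
    fin_cases i <;> simp
  · rw [← phiaRad_add_one, phiaRad_Z,
      Pr.phia_per₂ h (Pr.phia_mem₂ (Pr.phia_lam_nonneg _) (Pr.phia_lam_le _) _ _)]
    congr 2
    ring

theorem Prof.phia_perZ (h : Pr.glue.TopSpec pm) (t y z : ℝ) :
    Pr.Phi pm !₂[t, y, z + 1] = Pr.Phi pm !₂[t, y, z] := by
  rw [Pr.phia_Phi_eq, Pr.phia_Phi_eq]
  simp only [Matrix.cons_val_zero, Matrix.cons_val_one, Matrix.cons_val]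
  split_ifs with h1 h2
  · rw [phiaRad_Z, Pr.phia_per₀ h (Pr.phia_mem₀ (Pr.phia_lam_nonneg _) (Pr.phia_lam_le _) _ _)]
  · rw [← Pr.phia_per₁ h (p := !₂[t, y, z]) (by
      show |t| < Pr.T + 1
      rw [abs_lt]; constructor <;> linarith) 0 1]
    congr 1
    ext i
    fin_cases i <;> simp
  · rw [show z + 1 - y = z - y + 1 by ring, phiaRad_add_one]

theorem Prof.phia_left {M : Type*} (pm : Fin 3 → E → M) (y z : ℝ) :
    Pr.Phi pm !₂[-(Pr.T + 2), y, z] = pm 0 (sq y z) := by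
  rw [Pr.phia_Phi_eq]
  simp only [Matrix.cons_val_zero, Matrix.cons_val_one, Matrix.cons_val]
  have e : Pr.lam (- -(Pr.T + 2)) = 1 := by
    unfold Prof.lam
    rw [min_eq_left (by linarith), max_eq_right zero_le_one]
  rw [if_pos (by linarith), e, phiaRad_one]

theorem Prof.phia_right {M : Type*} (pm : Fin 3 → E → M) (y z : ℝ) :
    Pr.Phi pm !₂[Pr.T + 2, y, z] = pm 2 (sq (z - y) y) := by
  have hT := Pr.T_pos
  rw [Pr.phia_Phi_eq]
  simp only [Matrix.cons_val_zero, Matrix.cons_val_one, Matrix.cons_val]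
  have e : Pr.lam (Pr.T + 2) = 1 := by
    unfold Prof.lam
    rw [min_eq_left (by linarith), max_eq_right zero_le_one]
  rw [if_neg (by linarith), if_neg (by linarith), e, phiaRad_one]

theorem Prof.phia_topData (h : Pr.glue.TopSpec pm) :
    ∃ D : TopData M, D.Φ = Pr.Phi pm ∧ D.P₁ = pm 0 :=
  ⟨{ Φ := Pr.Phi pm
     P₁ := pm 0
     P₂ := pm 2
     L := Pr.T + 2
     contΦ := Pr.phia_continuous h
     perY := Pr.phia_perY h
     perZ := Pr.phia_perZ h
     cont₁ := (h.cont 0).mono Pr.grid_subset₀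
     cont₂ := (h.cont 2).mono Pr.grid_subset₂
     per₁ := fun _ hp a b c => Pr.phia_per₀ h (Pr.grid_subset₀ hp) a b c
     per₂ := fun _ hp a b c => Pr.phia_per₂ h (Pr.grid_subset₂ hp) a b c
     left := Pr.phia_left pm
     right := Pr.phia_right pm }, rfl, rfl⟩

end Crest.Agent.R244
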