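import Crest.Agent.R244.ModelB
import Crest.Agent.R244.Side
/-!
# R244: surjectivity of `Phi` on the two pieces
-/

set_option autoImplicit false

open scoped ContDiff Manifold Topology
open Bundle Filter Set
open Crest.GeometryTopology.CoordMetric Crest.GeometryTopology.ChartCurvature
  Crest.GeometryTopology.Geodesic

noncomputable section

namespace Crest.Agent.R244

/-- Polar coordinates about the nearest lattice line. -/
theorem phib_polar {r R : ℝ} (hr : 0 ≤ r) {q : E} (hq : q ∈ Prof.holes r) :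
    ∃ (a b : ℤ) (θ ρ : ℝ), r < ρ ∧ q 0 - a = ρ * Real.sin (2 * Real.pi * θ) ∧
      q 1 - b = ρ * Real.cos (2 * Real.pi * θ) ∧ (R ≤ ρ → ∃ l, 0 ≤ l ∧ l ≤ 1 ∧ (l = 0 → ρ = R) ∧
        ∀ Z, (1 - l) * (R * Real.sin (2 * Real.pi * θ)) + l * sq θ Z 0 = q 0 - a ∧
          (1 - l) * (R * Real.cos (2 * Real.pi * θ)) + l * sq θ Z 1 = q 1 - b) := by
  set z : ℂ := ⟨q 1 - round (q 1), q 0 - round (q 0)⟩ with hz
  have e : 2 * Real.pi * (z.arg / (2 * Real.pi)) = z.arg := by field_simp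
  have hs : q 0 - round (q 0) = ‖z‖ * Real.sin z.arg := (Complex.norm_mul_sin_arg z).symm
  have hc : q 1 - round (q 1) = ‖z‖ * Real.cos z.arg := (Complex.norm_mul_cos_arg z).symm
  refine ⟨round (q 0), round (q 1), z.arg / (2 * Real.pi), ‖z‖, ?_, by rw [e, hs], by rw [e, hc],
    fun hR => ?_⟩
  · refine lt_of_pow_lt_pow_left₀ 2 (norm_nonneg _) ((hq (round (q 0)) (round (q 1))).trans_eq ?_)
    rw [hs, hc]
    linear_combination ‖z‖ ^ 2 * Real.sin_sq_add_cos_sq z.arg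
  · have hm := side_max_pos z.arg
    have hle : ‖z‖ ≤ 1 / (2 * max |Real.sin z.arg| |Real.cos z.arg|) := by
      have h1 := abs_sub_round (q 0)
      have h2 := abs_sub_round (q 1)
      rw [hs, abs_mul, abs_norm] at h1
      rw [hc, abs_mul, abs_norm] at h2
      rw [le_div_iff₀ (by positivity)]
      rcases max_choice |Real.sin z.arg| |Real.cos z.arg| with h | h <;> rw [h] <;> linarith
    obtain ⟨m, l, hm0, hl0, hml, h⟩ := Icc_subset_segment (𝕜 := ℝ) (⟨hR, hle⟩ : ‖z‖ ∈ Icc _ _)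
    obtain rfl : m = 1 - l := by linarith
    simp only [smul_eq_mul] at h
    refine ⟨l, hl0, by linarith, fun h0 => by rw [← h, h0]; ring, fun Z => ?_⟩
    rw [side_sq0, side_sq1, e, hs, hc, ← h]
    constructor <;> ring

variable (Pr : Prof) {M : Type} [TopologicalSpace M] {pm : Fin 3 → E → M}

theorem phib_shift (h : Pr.glue.TopSpec pm) {i : Fin 3} (hi : i ≠ 1) {q q' : E} (hq : q ∈ Pr.U i)
    {a b : ℤ} (h0 : q' 0 = q 0 - a) (h1 : q' 1 = q 1 - b) (h2 : q' 2 = q 2) : pm i q' = pm i q := by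
  have e : q' = q + !₂[((-a : ℤ) : ℝ), (-b : ℤ), (0 : ℤ)] := by
    ext k
    fin_cases k <;> simp [h0, h1, h2, sub_eq_add_neg]
  refine (h.rel i i _ (e ▸ Pr.add_mem_U hi hq _ _ _) _ hq).2 ?_
  have : lat (q - q') := ⟨a, b, 0, by
    ext k
    fin_cases k <;> simp [h0, h1, h2]⟩
  fin_cases i
  exacts [this, absurd rfl hi, this]

theorem phib_neck₁ (h : Pr.glue.TopSpec pm) {p : E} (hp : p ∈ Pr.U 1) (ht : p 0 < -Pr.T) :
    pm 1 p = pm 0 (Pr.pol₁ p) :=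
  (h.rel 1 0 _ hp _ (Pr.pol₁_mem hp ht)).2 ⟨ht.le, 0, 0, 0, by ext k; fin_cases k <;> simp⟩

theorem phib_neck₂ (h : Pr.glue.TopSpec pm) {p : E} (hp : p ∈ Pr.U 1) (ht : Pr.T < p 0) :
    pm 1 p = pm 2 (Pr.pol₂ p) :=
  (h.rel 1 2 _ hp _ (Pr.pol₂_mem hp ht)).2 ⟨ht.le, 0, 0, 0, by ext k; fin_cases k <;> simp⟩

theorem phib_lam {l : ℝ} (h0 : 0 ≤ l) (h1 : l ≤ 1) : Pr.lam (Pr.T + 1 / 2 + l) = l := by
  rw [Prof.lam, show Pr.T + 1 / 2 + l - Pr.T - 1 / 2 = l by ring, min_eq_right h1, max_eq_right h0]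

theorem phib_surj₀ (h : Pr.glue.TopSpec pm) {q : E} (hq : q ∈ Pr.U 0) :
    ∃ p : E, |p 0| ≤ Pr.T + 2 ∧ Pr.Phi pm p = pm 0 q := by
  have hT := Pr.T_pos
  have hb := Pr.hb₁
  obtain ⟨a, b, θ, ρ, h1, hs, hc, hl⟩ := phib_polar (R := Pr.r₁ (-Pr.T - 1 / 2))
    (by unfold Prof.r₁; exact div_nonneg (by linarith) (by positivity)) hq
  rcases lt_or_ge ρ (Pr.r₁ (-Pr.T - 1 / 2)) with h2 | h2
  · rw [Prof.r₁, div_lt_iff₀ (by positivity)] at h1
    rw [Prof.r₁, lt_div_iff₀ (by positivity)] at h2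
    set p : E := !₂[Pr.b₁ - Pr.T - ρ * (4 * (Pr.b₁ + 1)), θ, q 2] with hp
    have p0 : p 0 = Pr.b₁ - Pr.T - ρ * (4 * (Pr.b₁ + 1)) := rfl
    have hr : Pr.r₁ (p 0) = ρ := by rw [Prof.r₁, p0]; field_simp; ring
    refine ⟨p, abs_le.2 ⟨by linarith, by linarith⟩, ?_⟩
    rw [Prof.Phi, if_neg (by linarith), if_pos (by linarith),
      phib_neck₁ Pr h (abs_lt.2 ⟨by linarith, by linarith⟩ : |p 0| < _) (by linarith)]
    exact phib_shift Pr h (by decide) hq (a := a) (b := b) (by rw [hs, ← hr]; rfl)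
      (by rw [hc, ← hr]; rfl) rfl
  · obtain ⟨l, l0, l1, -, hl⟩ := hl h2
    set p : E := !₂[-(Pr.T + 1 / 2 + l), θ, q 2] with hp
    have p0 : p 0 = -(Pr.T + 1 / 2 + l) := rfl
    refine ⟨p, abs_le.2 ⟨by linarith, by linarith⟩, ?_⟩
    rw [Prof.Phi, if_pos (by linarith), p0, neg_neg, phib_lam Pr l0 l1]
    refine phib_shift Pr h (by decide) hq (hl (q 2)).1 (hl (q 2)).2 ?_
    change (1 - l) * q 2 + l * q 2 = q 2
    ring

theorem phib_surj₂ (h : Pr.glue.TopSpec pm) {q : E} (hq : q ∈ Pr.U 2) :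
    ∃ p : E, |p 0| ≤ Pr.T + 2 ∧ Pr.Phi pm p = pm 2 q := by
  have hT := Pr.T_pos
  have hb := Pr.hb₂
  obtain ⟨a, b, θ, ρ, h1, hs, hc, hl⟩ := phib_polar (R := Pr.r₂ (Pr.T + 1 / 2))
    (by unfold Prof.r₂; exact div_nonneg (by linarith) (by positivity)) hq
  have e : θ + q 2 - q 2 = θ := by ring
  rcases le_or_gt ρ (Pr.r₂ (Pr.T + 1 / 2)) with h2 | h2
  · rw [Prof.r₂, div_lt_iff₀ (by positivity)] at h1
    rw [Prof.r₂, le_div_iff₀ (by positivity)] at h2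
    set p : E := !₂[ρ * (4 * (Pr.b₂ + 1)) - Pr.b₂ + Pr.T, q 2, θ + q 2] with hp
    have p0 : p 0 = ρ * (4 * (Pr.b₂ + 1)) - Pr.b₂ + Pr.T := rfl
    have hr : Pr.r₂ (p 0) = ρ := by rw [Prof.r₂, p0]; field_simp; ring
    refine ⟨p, abs_le.2 ⟨by linarith, by linarith⟩, ?_⟩
    rw [Prof.Phi, if_neg (by linarith), if_pos (by linarith),
      phib_neck₂ Pr h (abs_lt.2 ⟨by linarith, by linarith⟩ : |p 0| < _) (by linarith)]
    exact phib_shift Pr h (by decide) hq (a := a) (b := b) (by rw [hs, ← hr, ← e]; rfl)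
      (by rw [hc, ← hr, ← e]; rfl) rfl
  · obtain ⟨l, l0, l1, l2, hl⟩ := hl h2.le
    have l3 : 0 < l := l0.lt_of_ne fun h0 => h2.ne' (l2 h0.symm)
    set p : E := !₂[Pr.T + 1 / 2 + l, q 2, θ + q 2] with hp
    have p0 : p 0 = Pr.T + 1 / 2 + l := rfl
    refine ⟨p, abs_le.2 ⟨by linarith, by linarith⟩, ?_⟩
    rw [Prof.Phi, if_neg (by linarith), if_neg (by linarith), p0, phib_lam Pr l0 l1]
    rw [← e] at hl
    refine phib_shift Pr h (by decide) hq (hl (q 2)).1 (hl (q 2)).2 ?_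
    change (1 - l) * q 2 + l * q 2 = q 2
    ring

theorem phib_surj (h : Pr.glue.TopSpec pm) (x : M) :
    ∃ p : E, |p 0| ≤ Pr.T + 2 ∧ Pr.Phi pm p = x := by
  obtain ⟨i, q, hq, rfl⟩ := h.surj x
  fin_cases i
  · exact phib_surj₀ Pr h hq
  · change ∃ p : E, _ ∧ _ = pm 1 q
    by_cases h1 : q 0 ≤ -Pr.T - 1 / 2
    · rw [phib_neck₁ Pr h hq (by linarith)]
      exact phib_surj₀ Pr h (Pr.pol₁_mem hq (by linarith))
    by_cases h2 : q 0 ≤ Pr.T + 1 / 2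
    · exact ⟨q, by linarith [show |q 0| < Pr.T + 1 from hq], by rw [Prof.Phi, if_neg h1, if_pos h2]⟩
    · rw [phib_neck₂ Pr h hq (by linarith)]
      exact phib_surj₂ Pr h (Pr.pol₂_mem hq (by linarith))
  · exact phib_surj₂ Pr h hq

end Crest.Agent.R244
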