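import Crest.Agent.R244.ModelB
import Crest.Agent.R244.Side
import Crest.Agent.R244.PhibAux
import Crest.Agent.R244.PhiaAux
/-!
# R244: the map `Phi`
The points fed to `pm 0`, `pm 2` lie on the ray of direction `(sin, cos)`, in the closed unit square,
at radius `≥ r₁ (-T - 1/2) > r₁ (-T)`, hence in `U 0` (resp. `U 2`).
Surjectivity: a point of `U 0` is, up to an integer translation, in the closed square at radius
`ρ > r₁ (-T)` with a polar angle `θ`; if `ρ ≤ r₁ (-T - 1/2)` it is `pol₁` of a neck point with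
`t ∈ [-T - 1/2, -T)`, otherwise solve for `lam`. Neck points with `|t| > T + 1/2` are points of the
pieces. Finally reduce `y, z` mod `1`.
-/

set_option autoImplicit false

open scoped ContDiff Manifold Topology
open Bundle Filter Set
open Crest.GeometryTopology.CoordMetric Crest.GeometryTopology.ChartCurvature
  Crest.GeometryTopology.Geodesic

noncomputable section

namespace Crest.Agent.R244

variable (Pr : Prof) {M : Type} [TopologicalSpace M] {pm : Fin 3 → E → M}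

theorem Prof.rad₁_mem {l : ℝ} (h0 : 0 ≤ l) (h1 : l ≤ 1) (y z : ℝ) :
    (1 - l) • Pr.pol₁ !₂[-Pr.T - 1 / 2, y, z] + l • sq y z ∈ Pr.U 0 :=
  Pr.phia_mem₀ h0 h1 y z

theorem Prof.rad₂_mem {l : ℝ} (h0 : 0 ≤ l) (h1 : l ≤ 1) (y z : ℝ) :
    (1 - l) • Pr.pol₂ !₂[Pr.T + 1 / 2, y, z] + l • sq (z - y) y ∈ Pr.U 2 :=
  Pr.phia_mem₂ h0 h1 (z - y) y

theorem Prof.continuous_Phi (h : Pr.glue.TopSpec pm) : Continuous (Pr.Phi pm) :=
  Pr.phia_continuous h

theorem Prof.Phi_perY (h : Pr.glue.TopSpec pm) (t y z : ℝ) :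
    Pr.Phi pm !₂[t, y + 1, z] = Pr.Phi pm !₂[t, y, z] :=
  Pr.phia_perY h t y z

theorem Prof.Phi_perZ (h : Pr.glue.TopSpec pm) (t y z : ℝ) :
    Pr.Phi pm !₂[t, y, z + 1] = Pr.Phi pm !₂[t, y, z] :=
  Pr.phia_perZ h t y z

theorem Prof.exists_topData (h : Pr.glue.TopSpec pm) :
    ∃ D : TopData M, D.Φ = Pr.Phi pm ∧ D.P₁ = pm 0 :=
  Pr.phia_topData h

theorem Prof.surj₀ (h : Pr.glue.TopSpec pm) {q : E} (hq : q ∈ Pr.U 0) :
    ∃ p : E, |p 0| ≤ Pr.T + 2 ∧ Pr.Phi pm p = pm 0 q := by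
  exact phib_surj₀ Pr h hq

theorem Prof.surj₂ (h : Pr.glue.TopSpec pm) {q : E} (hq : q ∈ Pr.U 2) :
    ∃ p : E, |p 0| ≤ Pr.T + 2 ∧ Pr.Phi pm p = pm 2 q := by
  exact phib_surj₂ Pr h hq

theorem Prof.surj_Phi (h : Pr.glue.TopSpec pm) (x : M) :
    ∃ p : E, |p 0| ≤ Pr.T + 2 ∧ p 1 ∈ Icc (0 : ℝ) 1 ∧ p 2 ∈ Icc (0 : ℝ) 1 ∧ Pr.Phi pm p = x := by
  obtain ⟨p, hp, rfl⟩ := phib_surj Pr h x
  have h1 : Function.Periodic (fun y => Pr.Phi pm !₂[p 0, y, Int.fract (p 2)]) 1 := fun y =>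
    Pr.Phi_perY h _ _ _
  have h2 : Function.Periodic (fun z => Pr.Phi pm !₂[p 0, p 1, z]) 1 := fun z => Pr.Phi_perZ h _ _ _
  have e1 := h1.sub_int_mul_eq (x := p 1) ⌊p 1⌋
  have e2 := h2.sub_int_mul_eq (x := p 2) ⌊p 2⌋
  rw [mul_one] at e1 e2
  exact ⟨!₂[p 0, Int.fract (p 1), Int.fract (p 2)], hp, ⟨Int.fract_nonneg _, (Int.fract_lt_one _).le⟩,
    ⟨Int.fract_nonneg _, (Int.fract_lt_one _).le⟩, e1.trans (e2.trans (congrArg _ (side_eta p).symm))⟩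

theorem Prof.compactSpace (h : Pr.glue.TopSpec pm) : CompactSpace M := by
  have hK : IsCompact (Icc (-(Pr.T + 2)) (Pr.T + 2) ×ˢ Icc (0 : ℝ) 1 ×ˢ Icc (0 : ℝ) 1) :=
    isCompact_Icc.prod (isCompact_Icc.prod isCompact_Icc)
  refine isCompact_univ_iff.1 ((hK.image ((Pr.continuous_Phi h).comp (side_cont3 continuous_fst
    continuous_snd.fst continuous_snd.snd))).of_isClosed_subset isClosed_univ fun x _ => ?_)
  obtain ⟨p, h0, h1, h2, rfl⟩ := Pr.surj_Phi h x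
  exact ⟨(p 0, p 1, p 2), ⟨abs_le.1 h0, h1, h2⟩, congrArg _ (side_eta p).symm⟩

theorem Prof.connectedSpace (h : Pr.glue.TopSpec pm) : ConnectedSpace M := by
  exact Function.Surjective.connectedSpace (fun x => (phib_surj Pr h x).imp fun _ => And.right)
    (Pr.continuous_Phi h)

end Crest.Agent.R244
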