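import Crest.Agent.R244.ProfA
/-!
# R244: existence of the profile
With `φ = smoothTransition`, `I, K` from `exists_primitives`: `μL` = flare for `A = 1`, `d = 1/8`;
`m₂ = 1 + (1 - I 1)/8`, `κ = m₂ / K 1`, `d = 32 κ²`, `N = 1000 (κ+1)(κ+d+1) + 3`, `μR` = flare for
`A = N + 4 d`, slope `d`. Put `m t = μL (-t) - I t / 8`, `k t = κ K t`,
`n t = m₂ + μR (t - 1) + d ((t - I t) - (1 - I 1))`, `t₁ = 0`, `t₂ = 1`, `T = 4`, `b₁ = bL + 1`,
`b₂ = bR`, `n₀ = n 0`. On `-2 < t < 3`: `m' = (1-φ)/8`, `k' = κ φ (1-φ)`, `n' = -d φ`.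
-/

set_option autoImplicit false

open scoped ContDiff Manifold Topology
open Bundle Filter Set
open Crest.GeometryTopology.CoordMetric Crest.GeometryTopology.ChartCurvature
  Crest.GeometryTopology.Geodesic

noncomputable section

namespace Crest.Agent.R244

theorem profB_deriv_affine {μ : ℝ → ℝ} {A d : ℝ} (h : ∀ s, s ≤ 2 → μ s = A - d * s) {s : ℝ}
    (hs : s < 2) : deriv μ s = -d := by
  have e : μ =ᶠ[𝓝 s] fun u => A - d * u := by
    filter_upwards [Iio_mem_nhds hs] with u hu using h u (le_of_lt hu)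
  rw [e.deriv_eq]
  have : HasDerivAt (fun u : ℝ => A - d * u) (-d) s := by
    simpa using ((hasDerivAt_id s).const_mul d).const_sub A
  exact this.deriv

theorem profB_invR_left {m m' n : ℝ} (hm : 0 < m) (hm' : 0 < m') (hn : 0 < n) :
    0 < m' - 2 * (0 - m) * (0 - m') / (m - 2 * 0 + n) +
      (m' - 2 * 0 + 0) * (0 - m) ^ 2 / (m - 2 * 0 + n) ^ 2 := by
  have h : m' - 2 * (0 - m) * (0 - m') / (m - 2 * 0 + n) +
      (m' - 2 * 0 + 0) * (0 - m) ^ 2 / (m - 2 * 0 + n) ^ 2 = m' * (n / (m + n)) ^ 2 := by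
    have : m + n ≠ 0 := by positivity
    simp only [mul_zero, sub_zero, add_zero]
    field_simp
    ring
  rw [h]
  positivity

theorem exists_prof : Nonempty Prof := by
  obtain ⟨I, K, cI, cK, dI, dK, hneg, hone, hK1, hmid⟩ := exists_primitives
  obtain ⟨χ, cχ, χ0, χ1, χs, χo, χl, χr⟩ := exists_cutoff
  obtain ⟨μL, bL, hbL, cL, aL, pL, dL, fL, kL⟩ :=
    exists_flare (A := 1) (d := 1 / 8) (by norm_num) (by norm_num) (by norm_num)
  obtain ⟨hI1, hI1', -⟩ := hmid 1 zero_le_one le_rfl
  obtain ⟨m₂, hm₂⟩ : ∃ m₂ : ℝ, m₂ = 1 + (1 - I 1) / 8 := ⟨_, rfl⟩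
  have hm₂1 : 1 ≤ m₂ := by rw [hm₂]; linarith
  have hm₂2 : m₂ ≤ 9 / 8 := by rw [hm₂]; linarith
  obtain ⟨κ, hκdef⟩ : ∃ κ : ℝ, κ = m₂ / K 1 := ⟨_, rfl⟩
  have hκ : 0 < κ := by rw [hκdef]; exact div_pos (by linarith) hK1
  have hκK : κ * K 1 = m₂ := by rw [hκdef]; field_simp
  obtain ⟨d, hddef⟩ : ∃ d : ℝ, d = 32 * κ ^ 2 := ⟨_, rfl⟩
  have hd : 0 < d := by rw [hddef]; positivity
  have hd' : 32 * κ ^ 2 ≤ d := hddef.ge
  obtain ⟨N, hNdef⟩ : ∃ N : ℝ, N = 1000 * (κ + 1) * (κ + d + 1) + 3 := ⟨_, rfl⟩
  have hN0 : 0 ≤ 1000 * (κ + 1) * (κ + d + 1) := by positivity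
  have hN3 : 3 ≤ N := by rw [hNdef]; linarith
  obtain ⟨μR, bR, hbR, cR, aR, pR, dR, fR, kR⟩ :=
    exists_flare (A := N + 4 * d) (d := d) hd (by linarith) (by linarith)
  obtain ⟨m, hmdef⟩ : ∃ m : ℝ → ℝ, m = fun t => μL (-t) - I t / 8 := ⟨_, rfl⟩
  obtain ⟨k, hkdef⟩ : ∃ k : ℝ → ℝ, k = fun t => κ * K t := ⟨_, rfl⟩
  obtain ⟨n, hndef⟩ : ∃ n : ℝ → ℝ,
    n = fun t => m₂ + μR (t - 1) + d * ((t - I t) - (1 - I 1)) := ⟨_, rfl⟩
  have φ0 := Real.smoothTransition.nonneg
  have φ1 := Real.smoothTransition.le_one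
  have cφ : ContDiff ℝ ∞ Real.smoothTransition := Real.smoothTransition.contDiff
  have dφ : ∀ t, HasDerivAt Real.smoothTransition (deriv Real.smoothTransition t) t := fun t =>
    (cφ.differentiable (by simp) t).hasDerivAt
  have φ'0 : ∀ t, 0 ≤ deriv Real.smoothTransition t := fun t =>
    le_trans (mul_nonneg (φ0 t) (sub_nonneg.2 (φ1 t))) (smoothTransition_deriv_ge t)
  have dμL : ∀ t, HasDerivAt μL (deriv μL t) t := fun t =>
    (cL.differentiable (by simp) t).hasDerivAt
  have dμR : ∀ t, HasDerivAt μR (deriv μR t) t := fun t =>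
    (cR.differentiable (by simp) t).hasDerivAt
  have ddμL : ∀ t, HasDerivAt (deriv μL) (deriv (deriv μL) t) t := fun t =>
    ((cL.contDiffAt.derivWithin (m := 1) (by norm_cast)).differentiableAt (by simp)).hasDerivAt
  have ddμR : ∀ t, HasDerivAt (deriv μR) (deriv (deriv μR) t) t := fun t =>
    ((cR.contDiffAt.derivWithin (m := 1) (by norm_cast)).differentiableAt (by simp)).hasDerivAt
  -- smoothness
  have cm : ContDiff ℝ ∞ m := by
    rw [hmdef]; exact (cL.comp contDiff_neg).sub (cI.div_const 8)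
  have ck : ContDiff ℝ ∞ k := by
    rw [hkdef]; exact contDiff_const.mul cK
  have cn : ContDiff ℝ ∞ n := by
    rw [hndef]
    exact (contDiff_const.add (cR.comp (contDiff_id.sub contDiff_const))).add
      (contDiff_const.mul ((contDiff_id.sub cI).sub contDiff_const))
  -- first derivatives
  have dm : ∀ t, HasDerivAt m (-deriv μL (-t) - Real.smoothTransition t / 8) t := by
    intro t
    rw [hmdef]
    have h1 : HasDerivAt (fun t => μL (-t)) (deriv μL (-t) * (-1)) t :=
      (dμL (-t)).comp t (hasDerivAt_neg t)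
    exact (h1.sub ((dI t).div_const 8)).congr_deriv (by ring)
  have dk : ∀ t, HasDerivAt k
      (κ * Real.smoothTransition t * (1 - Real.smoothTransition t)) t := by
    intro t
    rw [hkdef]
    exact ((dK t).const_mul κ).congr_deriv (by ring)
  have dn : ∀ t, HasDerivAt n (deriv μR (t - 1) + d * (1 - Real.smoothTransition t)) t := by
    intro t
    rw [hndef]
    have h1 : HasDerivAt (fun t => μR (t - 1)) (deriv μR (t - 1) * 1) t :=
      (dμR (t - 1)).comp t ((hasDerivAt_id t).sub_const 1)
    have h2 : HasDerivAt (fun t => d * ((t - I t) - (1 - I 1)))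
        (d * (1 - Real.smoothTransition t)) t :=
      (((hasDerivAt_id t).sub (dI t)).sub_const (1 - I 1)).const_mul d
    exact ((h1.const_add m₂).add h2).congr_deriv (by ring)
  have m'core : ∀ t, -2 < t → deriv m t = (1 - Real.smoothTransition t) / 8 := by
    intro t ht
    rw [(dm t).deriv, profB_deriv_affine aL (by linarith)]
    ring
  have m'left : ∀ t, t ≤ 0 → deriv m t = -deriv μL (-t) := by
    intro t ht
    rw [(dm t).deriv, Real.smoothTransition.zero_of_nonpos ht]
    ring
  have k' : ∀ t, deriv k t = κ * Real.smoothTransition t * (1 - Real.smoothTransition t) :=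
    fun t => (dk t).deriv
  have n'core : ∀ t, t < 3 → deriv n t = -d * Real.smoothTransition t := by
    intro t ht
    rw [(dn t).deriv, profB_deriv_affine aR (by linarith)]
    ring
  have n'right : ∀ t, 1 ≤ t → deriv n t = deriv μR (t - 1) := by
    intro t ht
    rw [(dn t).deriv, Real.smoothTransition.one_of_one_le ht]
    ring
  -- second derivatives
  have m''core : ∀ t, -2 < t → deriv (deriv m) t = -deriv Real.smoothTransition t / 8 := by
    intro t ht
    have e : deriv m =ᶠ[𝓝 t] fun u => (1 - Real.smoothTransition u) / 8 := by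
      filter_upwards [Ioi_mem_nhds ht] with u hu using m'core u hu
    rw [e.deriv_eq]
    exact (((dφ t).const_sub 1).div_const 8).deriv
  have m''left : ∀ t, t < 0 → deriv (deriv m) t = deriv (deriv μL) (-t) := by
    intro t ht
    have e : deriv m =ᶠ[𝓝 t] fun u => -deriv μL (-u) := by
      filter_upwards [Iio_mem_nhds ht] with u hu using m'left u (le_of_lt hu)
    rw [e.deriv_eq]
    have h1 : HasDerivAt (fun u => deriv μL (-u)) (deriv (deriv μL) (-t) * (-1)) t :=
      (ddμL (-t)).comp t (hasDerivAt_neg t)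
    have h2 : HasDerivAt (fun u => -deriv μL (-u)) (-(deriv (deriv μL) (-t) * (-1))) t := h1.neg
    rw [h2.deriv]
    ring
  have k'' : ∀ t, deriv (deriv k) t =
      κ * deriv Real.smoothTransition t * (1 - 2 * Real.smoothTransition t) := by
    intro t
    have e : deriv k = fun u => κ * Real.smoothTransition u * (1 - Real.smoothTransition u) :=
      funext k'
    rw [e]
    have h1 : HasDerivAt (fun u => κ * Real.smoothTransition u * (1 - Real.smoothTransition u))
        (κ * deriv Real.smoothTransition t * (1 - Real.smoothTransition t) +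
          κ * Real.smoothTransition t * (-deriv Real.smoothTransition t)) t :=
      ((dφ t).const_mul κ).mul ((dφ t).const_sub 1)
    rw [h1.deriv]
    ring
  have n''core : ∀ t, t < 3 → deriv (deriv n) t = -d * deriv Real.smoothTransition t := by
    intro t ht
    have e : deriv n =ᶠ[𝓝 t] fun u => -d * Real.smoothTransition u := by
      filter_upwards [Iio_mem_nhds ht] with u hu using n'core u hu
    rw [e.deriv_eq]
    exact ((dφ t).const_mul (-d)).deriv
  have n''right : ∀ t, 1 < t → deriv (deriv n) t = deriv (deriv μR) (t - 1) := by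
    intro t ht
    have e : deriv n =ᶠ[𝓝 t] fun u => deriv μR (u - 1) := by
      filter_upwards [Ioi_mem_nhds ht] with u hu using n'right u (le_of_lt hu)
    rw [e.deriv_eq]
    exact ((ddμR (t - 1)).comp_sub_const t 1).deriv
  -- values
  have mleft : ∀ t, t ≤ 0 → m t = μL (-t) := by
    intro t ht
    rw [hmdef]; simp only [(hneg t ht).1]; ring
  have mcore : ∀ t, -2 ≤ t → m t = 1 + (t - I t) / 8 := by
    intro t ht
    rw [hmdef]; simp only [aL (-t) (by linarith)]; ring
  have mright : ∀ t, 1 ≤ t → m t = m₂ := by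
    intro t ht
    rw [mcore t (by linarith), (hone t ht).1, hm₂]; ring
  have kleft : ∀ t, t ≤ 0 → k t = 0 := by
    intro t ht
    rw [hkdef]; simp only [(hneg t ht).2]; ring
  have kright : ∀ t, 1 ≤ t → k t = m₂ := by
    intro t ht
    rw [hkdef]; simp only [(hone t ht).2]; exact hκK
  have kval : ∀ t, k t = κ * K t := fun t => by rw [hkdef]
  have ncore : ∀ t, t ≤ 3 → n t = m₂ + N + 4 * d + d * I 1 - d * I t := by
    intro t ht
    rw [hndef]; simp only [aR (t - 1) (by linarith)]; ring
  have nleft : ∀ t, t ≤ 0 → n t = m₂ + N + 4 * d + d * I 1 := by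
    intro t ht
    rw [ncore t (by linarith), (hneg t ht).1]; ring
  have nright : ∀ t, 1 ≤ t → n t = m₂ + μR (t - 1) := by
    intro t ht
    rw [hndef]; simp only [(hone t ht).1]; ring
  have hn0 : N ≤ m₂ + N + 4 * d + d * I 1 := by
    have := mul_nonneg hd.le hI1
    linarith
  have mid : ∀ t, 0 ≤ t → t ≤ 1 → 1 ≤ m t ∧ 0 ≤ k t ∧ k t ≤ m₂ ∧ m₂ + N ≤ n t ∧
      k t ≤ κ * Real.smoothTransition t ∧
      |k t - m t| ≤ (κ + 1) * (1 - Real.smoothTransition t) := by
    intro t h0 h1
    obtain ⟨a1, a2, a3, a4, a5, a6, a7, a8⟩ := hmid t h0 h1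
    have b1 : d * I t ≤ d := by nlinarith
    have b2 := mul_nonneg hd.le hI1
    have b3 : κ * K t ≤ κ * K 1 := mul_le_mul_of_nonneg_left a5 hκ.le
    have b4 : κ * (K 1 - K t) ≤ κ * (1 - Real.smoothTransition t) :=
      mul_le_mul_of_nonneg_left a6 hκ.le
    have b5 : 0 ≤ κ * (1 - Real.smoothTransition t) := mul_nonneg hκ.le (sub_nonneg.2 (φ1 t))
    have b6 := φ1 t
    rw [mcore t (by linarith), ncore t (by linarith), kval]
    refine ⟨by linarith, mul_nonneg hκ.le a3, by linarith, by linarith,
      mul_le_mul_of_nonneg_left a4 hκ.le, abs_le.2 ⟨?_, ?_⟩⟩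
    · linarith
    · linarith
  have mpos : ∀ t, 0 < m t := by
    intro t
    rcases le_total t 0 with h | h
    · rw [mleft t h]; exact pL _
    · rcases le_total t 1 with h' | h'
      · linarith [(mid t h h').1]
      · rw [mright t h']; linarith
  have mtw : ∀ t, 0 ≤ t → t ≤ 1 → N - 3 ≤ m t - 2 * k t + n t := by
    intro t h0 h1
    obtain ⟨a1, -, a3, a4, -⟩ := mid t h0 h1
    linarith
  have mtw1 : ∀ t, -1 < t → t < 2 → 1 ≤ m t - 2 * k t + n t := by
    intro t h0 h1
    rcases le_total t 0 with h | h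
    · rw [kleft t h, nleft t h]; linarith [mpos t]
    · rcases le_total t 1 with h' | h'
      · obtain ⟨a1, -, a3, a4, -⟩ := mid t h h'
        linarith
      · rw [mright t h', kright t h', nright t h', aR (t - 1) (by linarith)]
        nlinarith
  have dm' : ∀ t, HasDerivAt m (deriv m t) t := fun t => (dm t).differentiableAt.hasDerivAt
  have dk' : ∀ t, HasDerivAt k (deriv k t) t := fun t => (dk t).differentiableAt.hasDerivAt
  have dn' : ∀ t, HasDerivAt n (deriv n t) t := fun t => (dn t).differentiableAt.hasDerivAt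
  have twm' : ∀ t, deriv (fun t => m t - 2 * k t + n t) t =
      deriv m t - 2 * deriv k t + deriv n t := fun t =>
    (((dm' t).sub ((dk' t).const_mul 2)).add (dn' t)).deriv
  have twk' : ∀ t, deriv (fun t => k t - m t) t = deriv k t - deriv m t := fun t =>
    ((dk' t).sub (dm' t)).deriv
  refine ⟨{
    H := ⟨m, k, n⟩
    χ := χ
    T := 4
    b₁ := bL + 1
    b₂ := bR
    n₀ := m₂ + N + 4 * d + d * I 1
    m₂ := m₂
    t₁ := 0
    t₂ := 1
    good := ⟨cm, ck, cn, mpos, ?_⟩
    cχ := cχ
    hb₁ := by linarith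
    hb₂ := hbR
    ht₁ := by norm_num
    ht := by norm_num
    ht₂ := by norm_num
    left := fun t ht => ⟨kleft t ht, nleft t ht⟩
    right := fun t ht => ⟨mright t ht, kright t ht⟩
    flat₁ := ?_
    flat₂ := ?_
    curv₁ := ?_
    curv₂ := ?_
    m_mono := ?_
    n_anti := ?_
    invL := ?_
    invR := ?_
    χ_nonneg := χ0
    χ_le := χ1
    χ_zero := ?_
    χ_one := χo
    χ_left := χl
    χ_right := χr
    conc := ?_
    kR := ?_ }⟩
  · intro t
    show 0 < m t * n t - k t ^ 2
    rcases le_total t 0 with h | h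
    · rw [kleft t h, nleft t h]
      have := mul_pos (mpos t) (show 0 < m₂ + N + 4 * d + d * I 1 by linarith)
      linarith
    · rcases le_total t 1 with h' | h'
      · obtain ⟨a1, a2, a3, a4, -⟩ := mid t h h'
        have b1 : k t ^ 2 ≤ 2 := by nlinarith
        have b2 : 3 ≤ m t * n t := by nlinarith
        linarith
      · rw [mright t h', kright t h', nright t h']
        have := mul_pos (show 0 < m₂ by linarith) (pR (t - 1))
        nlinarith
  · intro t ht
    show m t = _
    rw [mleft t (by linarith), fL (-t) (by linarith)]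
    congr 3
    ring
  · intro t ht
    show n t - m₂ = _
    rw [nright t (by linarith), fR (t - 1) (by linarith), add_sub_cancel_left]
    congr 3
    ring
  · intro t ht
    show 2 * m t * deriv (deriv m) t ≤ 3 * deriv m t ^ 2
    rw [mleft t ht.le, m''left t ht, m'left t ht.le, neg_sq]
    exact kL _
  · intro t ht
    show 2 * (n t - m₂) * deriv (deriv n) t ≤ 3 * deriv n t ^ 2
    rw [nright t ht.le, n''right t ht, n'right t ht.le, add_sub_cancel_left]
    exact kR _
  · intro t
    show 0 ≤ deriv m t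
    rcases le_total t 0 with h | h
    · rw [m'left t h]; linarith [dL (-t)]
    · rw [m'core t (by linarith)]; linarith [φ1 t]
  · intro t
    show deriv n t ≤ 0
    rcases le_total t 1 with h | h
    · rw [n'core t (by linarith)]; nlinarith [φ0 t]
    · rw [n'right t h]; exact (dR _).le
  · intro t
    show deriv n t - 2 * k t * deriv k t / m t + deriv m t * k t ^ 2 / m t ^ 2 ≤ 0 ∧
      (k t ≠ 0 → deriv n t - 2 * k t * deriv k t / m t + deriv m t * k t ^ 2 / m t ^ 2 < 0)
    rcases le_or_gt t 0 with h | h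
    · rw [kleft t h, n'core t (by linarith), Real.smoothTransition.zero_of_nonpos h]
      simp
    · have key : deriv n t - 2 * k t * deriv k t / m t + deriv m t * k t ^ 2 / m t ^ 2 < 0 := by
        rcases le_total t 1 with h' | h'
        · obtain ⟨a1, a2, -, -, a5, -⟩ := mid t h.le h'
          rw [n'core t (by linarith), k', m'core t (by linarith)]
          exact core_invL (Real.smoothTransition.pos_of_pos h) (φ1 t) hκ hd' a1 a2 a5
        · rw [n'right t h', k', m'core t (by linarith), Real.smoothTransition.one_of_one_le h']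
          simpa using dR (t - 1)
      exact ⟨key.le, fun _ => key⟩
  · intro t
    show 0 ≤ deriv m t - 2 * (k t - m t) * deriv (fun t => k t - m t) t / (m t - 2 * k t + n t) +
        deriv (fun t => m t - 2 * k t + n t) t * (k t - m t) ^ 2 / (m t - 2 * k t + n t) ^ 2 ∧
      (k t - m t ≠ 0 →
        0 < deriv m t - 2 * (k t - m t) * deriv (fun t => k t - m t) t / (m t - 2 * k t + n t) +
        deriv (fun t => m t - 2 * k t + n t) t * (k t - m t) ^ 2 / (m t - 2 * k t + n t) ^ 2)
    rw [twm', twk']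
    rcases le_or_gt 1 t with h | h
    · rw [kright t h, mright t h, m'core t (by linarith), Real.smoothTransition.one_of_one_le h]
      simp
    · have key : 0 < deriv m t - 2 * (k t - m t) * (deriv k t - deriv m t) / (m t - 2 * k t + n t) +
          (deriv m t - 2 * deriv k t + deriv n t) * (k t - m t) ^ 2 /
            (m t - 2 * k t + n t) ^ 2 := by
        rcases le_total t 0 with h' | h'
        · have e1 : deriv k t = 0 := by
            rw [k', Real.smoothTransition.zero_of_nonpos h']; ring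
          have e2 : deriv n t = 0 := by
            rw [n'core t (by linarith), Real.smoothTransition.zero_of_nonpos h']; ring
          rw [e1, e2, kleft t h']
          refine profB_invR_left (mpos t) ?_ ?_
          · rw [m'left t h']; linarith [dL (-t)]
          · rw [nleft t h']; linarith
        · obtain ⟨-, -, -, -, -, a6⟩ := mid t h' h.le
          have a7 := mtw t h' h.le
          rw [n'core t (by linarith), k', m'core t (by linarith)]
          exact core_invR (φ0 t) (Real.smoothTransition.lt_one_of_lt_one h) hκ hd a6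
            (by rw [hNdef] at a7; linarith)
      exact ⟨key.le, fun _ => key⟩
  · intro t ht
    by_contra hne
    obtain ⟨h1, h2⟩ := χs t hne
    have : |t| < 4 := abs_lt.2 ⟨by linarith, by linarith⟩
    linarith
  · intro t ht p q
    obtain ⟨h1, h2⟩ := χs t ht
    show deriv (deriv m) t * p ^ 2 + 2 * deriv (deriv k) t * p * q + deriv (deriv n) t * q ^ 2 ≤ 0
    rw [m''core t (by linarith), k'', n''core t (by linarith)]
    exact core_conc (φ0 t) (φ1 t) (φ'0 t) hκ hd'
  · intro t ht p q hW
    obtain ⟨h1, h2⟩ := χs t ht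
    change deriv m t * p ^ 2 + 2 * deriv k t * p * q + deriv n t * q ^ 2 ≤ 0 at hW
    show 0 ≤ -(deriv (deriv m) t * p ^ 2 + 2 * deriv (deriv k) t * p * q +
        deriv (deriv n) t * q ^ 2) * (m t - 2 * k t + n t) +
      (deriv m t * p ^ 2 + 2 * deriv k t * p * q + deriv n t * q ^ 2) *
        deriv (fun t => m t - 2 * k t + n t) t
    rw [twm', m''core t (by linarith), k'', n''core t (by linarith)]
    rw [n'core t (by linarith), k', m'core t (by linarith)] at hW ⊢
    exact core_kR (φ0 t) (φ1 t) (smoothTransition_deriv_ge t) hκ hd' (mtw1 t h1 h2) hW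

end Crest.Agent.R244
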