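import Crest.Agent.R244.NoNpc
import Crest.Agent.R244.NoConj
import Crest.Agent.R244.Phi
import Crest.Agent.R244.GlueC
import Crest.Agent.R244.ProfB
/-!
# R244: assembly
-/

set_option autoImplicit false

open scoped ContDiff Manifold Topology
open Bundle Filter Set
open Crest.GeometryTopology.CoordMetric Crest.GeometryTopology.ChartCurvature
  Crest.GeometryTopology.Geodesic

noncomputable section

namespace Crest.Agent.R244

/-- The vertical line through the corner of the first piece is a radial geodesic. -/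
theorem Prof.exists_radial (Pr : Prof) {M : Type} [TopologicalSpace M] [ChartedSpace E M]
    [IsManifold 𝓘(ℝ, E) ∞ M] [T2Space M] [CompactSpace M] {g : RM M} {pm : Fin 3 → E → M}
    (h : Pr.glue.TopSpec pm) (hp : ∀ i, IsParam g (Pr.G i) (Pr.U i) (pm i)) (hg : NoConj g) :
    ∃ P₀ : E → M, IsCoveringMap P₀ ∧ ∃ v : E, v ≠ 0 ∧
      ∀ s : ℝ, P₀ (s • v) = pm 0 !₂[1 / 2, 1 / 2, s] := by
  set c : ℝ → E := fun s => !₂[1 / 2, 1 / 2, s] with hc
  have hmem : ∀ s, c s ∈ Pr.U 0 := fun s => Pr.grid_subset₀ (Or.inl ⟨0, by simp [hc]⟩)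
  have hce : c = fun s : ℝ => (!₂[1 / 2, 1 / 2, 0] : E) + s • (!₂[0, 0, 1] : E) := by
    funext s
    ext i
    fin_cases i <;> simp [hc]
  have hd : ∀ s, HasDerivAt c (!₂[0, 0, 1] : E) s := by
    intro s
    rw [hce]
    simpa using ((hasDerivAt_id s).smul_const (!₂[0, 0, 1] : E)).const_add
      (!₂[1 / 2, 1 / 2, 0] : E)
  have hd' : deriv c = fun _ => (!₂[0, 0, 1] : E) := funext fun s => (hd s).deriv
  have hsm : ContDiff ℝ ∞ c := by
    rw [hce]
    exact contDiff_const.add (contDiff_id.smul contDiff_const)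
  have hgeo : IsGeo g (pm 0 ∘ c) := by
    intro t
    refine (hp 0).geoAt (hmem t) hsm.contDiffAt ?_
    have hG : Pr.G 0 = fun _ => Matrix.diagonal
        ![(4 * (Pr.b₁ + 1)) ^ 2, (4 * (Pr.b₁ + 1)) ^ 2, 1 / Pr.n₀] := rfl
    rw [hG]
    simp [Geo, Chr_const, hd']
  obtain ⟨Ex, hEx⟩ := exists_isExp g (pm 0 (c 0))
  have key : ∀ s : ℝ, Ex (s • vel (pm 0 ∘ c) 0) = pm 0 (c s) := fun s =>
    (hEx.eq_geo hgeo rfl s).symm
  refine ⟨Ex, hEx.isCoveringMap (hEx.injective_of_noConj hg), vel (pm 0 ∘ c) 0, fun h0 => ?_, key⟩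
  have e : pm 0 (c 0) = pm 0 (c (1 / 2)) := by
    rw [← key, ← key, h0, smul_zero, smul_zero]
  have r := (h.rel 0 0 _ (hmem 0) _ (hmem (1 / 2))).1 e
  obtain ⟨a, b, k, hk⟩ : lat (c (1 / 2) - c 0) := r
  have h2 := congrArg (fun v : E => v 2) hk
  simp [hc] at h2
  have h3 : (2 * k : ℤ) = 1 := by
    have : (2 * k : ℝ) = 1 := by rw [← h2]; norm_num
    exact_mod_cast this
  omega

theorem main :
    ∃ (M : Type) (_ : TopologicalSpace M) (_ : ChartedSpace E M) (_ : IsManifold 𝓘(ℝ, E) ∞ M),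
      T2Space M ∧ SecondCountableTopology M ∧ CompactSpace M ∧ ConnectedSpace M ∧
      IsOrientable 3 M ∧ (∃ g : RM M, NoConjugatePoints g) ∧
      ∀ g : RM M, ¬ HasNonposSectionalCurvature g := by
  obtain ⟨Pr⟩ := exists_prof
  obtain ⟨M, _, _, _, g, pm, h2, hs, ho, h, hp⟩ := Pr.glue.exists_manifold
  haveI := Pr.compactSpace h
  have hg : NoConj g := Pr.noConj h hp
  obtain ⟨P₀, hP₀, v, hv, hv'⟩ := Pr.exists_radial h hp hg
  obtain ⟨D, -, hD⟩ := Pr.exists_topData h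
  refine ⟨M, inferInstance, inferInstance, inferInstance, h2, hs, inferInstance,
    Pr.connectedSpace h, ho, ⟨g, hg.noConjugatePoints⟩, not_nonpos D hP₀ hv fun s => ?_⟩
  rw [hv', D.left, hD, sq_eighth]

end Crest.Agent.R244
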