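import Crest.Agent.R244.ModelDefs
/-!
# R244: the flare profile
-/

set_option autoImplicit false

open scoped ContDiff Topology
open Filter Set

noncomputable section

namespace Crest.Agent.R244

/-- The slope of the flare. -/
def flSl (A d s : ℝ) : ℝ :=
  (1 - Real.smoothTransition (s - 2)) * (d / 2 * (A - d * s) ^ (-(3 / 2) : ℝ)) +
    2 * Real.pi * Real.smoothTransition (s - 2)

theorem fl_pos {A d : ℝ} (hd : 0 < d) (h1 : 1 / 2 ≤ A - 3 * d) (h2 : d ≤ A - 3 * d) {s : ℝ}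
    (hs : s < 7 / 2) : 0 < A - d * s := by
  nlinarith

theorem fl_psi' {A d s : ℝ} (h : 0 < A - d * s) :
    HasDerivAt (fun s => (A - d * s) ^ (-(1 / 2) : ℝ)) (d / 2 * (A - d * s) ^ (-(3 / 2) : ℝ)) s := by
  have h1 : HasDerivAt (fun s => A - d * s) (-d) s := by
    simpa using ((hasDerivAt_id s).const_mul d).const_sub A
  have := h1.rpow_const (p := (-(1 / 2) : ℝ)) (Or.inl h.ne')
  convert this using 1
  rw [show (-(1 / 2) : ℝ) - 1 = -(3 / 2) by norm_num]
  ring

theorem fl_psi'' {A d s : ℝ} (h : 0 < A - d * s) :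
    HasDerivAt (fun s => d / 2 * (A - d * s) ^ (-(3 / 2) : ℝ))
      (d / 2 * (3 * d / 2 * (A - d * s) ^ (-(5 / 2) : ℝ))) s := by
  have h1 : HasDerivAt (fun s => A - d * s) (-d) s := by
    simpa using ((hasDerivAt_id s).const_mul d).const_sub A
  have := (h1.rpow_const (p := (-(3 / 2) : ℝ)) (Or.inl h.ne')).const_mul (d / 2)
  refine this.congr_deriv ?_
  rw [show (-(3 / 2) : ℝ) - 1 = -(5 / 2) by norm_num]
  ring

theorem flSl_of_ge {A d s : ℝ} (hs : 3 ≤ s) : flSl A d s = 2 * Real.pi := by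
  rw [flSl, Real.smoothTransition.one_of_one_le (by linarith)]
  ring

theorem flSl_of_le {A d s : ℝ} (hs : s ≤ 2) :
    flSl A d s = d / 2 * (A - d * s) ^ (-(3 / 2) : ℝ) := by
  rw [flSl, Real.smoothTransition.zero_of_nonpos (by linarith)]
  ring

theorem contDiff_flSl {A d : ℝ} (hd : 0 < d) (h1 : 1 / 2 ≤ A - 3 * d) (h2 : d ≤ A - 3 * d) :
    ContDiff ℝ ∞ (flSl A d) := by
  rw [contDiff_iff_contDiffAt]
  intro s
  rcases lt_or_ge s (7 / 2) with hs | hs
  · have hβ : ContDiffAt ℝ ∞ (fun s : ℝ => Real.smoothTransition (s - 2)) s :=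
      (Real.smoothTransition.contDiff.comp (contDiff_id.sub contDiff_const)).contDiffAt
    have hl : ContDiffAt ℝ ∞ (fun s : ℝ => A - d * s) s := by fun_prop
    exact ((contDiffAt_const.sub hβ).mul (contDiffAt_const.mul
      (hl.rpow_const_of_ne (fl_pos hd h1 h2 hs).ne'))).add (contDiffAt_const.mul hβ)
  · refine (contDiffAt_const (c := 2 * Real.pi)).congr_of_eventuallyEq ?_
    filter_upwards [lt_mem_nhds (show (3 : ℝ) < s by linarith)] with u hu
    exact flSl_of_ge hu.le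

theorem fl_slope_le {A d : ℝ} (hd : 0 < d) (h1 : 1 / 2 ≤ A - 3 * d) (h2 : d ≤ A - 3 * d) {s : ℝ}
    (hs : s ≤ 3) : d / 2 * (A - d * s) ^ (-(3 / 2) : ℝ) ≤ 2 * Real.pi := by
  set x := A - d * s with hx
  have hx1 : A - 3 * d ≤ x := by nlinarith
  have hx0 : 0 < x := by linarith
  have e : x ^ (-(3 / 2) : ℝ) = x⁻¹ * (√x)⁻¹ := by
    rw [Real.sqrt_eq_rpow, ← Real.rpow_neg hx0.le, ← Real.rpow_neg_one, ← Real.rpow_add hx0]
    norm_num
  have hs1 : 1 / 2 ≤ √x := Real.le_sqrt_of_sq_le (by linarith)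
  have h3 : d * x⁻¹ ≤ 1 := by
    rw [← div_eq_mul_inv, div_le_one hx0]; linarith
  have h4 : (√x)⁻¹ ≤ 2 := by
    rw [inv_le_comm₀ (by linarith) (by norm_num)]; linarith
  have h5 : 0 ≤ (√x)⁻¹ := by positivity
  have := Real.pi_gt_three
  rw [e]
  nlinarith [mul_le_mul h3 h4 h5 zero_le_one]

theorem flSl_pos {A d : ℝ} (hd : 0 < d) (h1 : 1 / 2 ≤ A - 3 * d) (h2 : d ≤ A - 3 * d) (s : ℝ) :
    0 < flSl A d s := by
  rcases le_or_gt 3 s with hs | hs
  · rw [flSl_of_ge hs]; positivity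
  · have h0 := fl_pos hd h1 h2 (show s < 7 / 2 by linarith)
    have hp : 0 < d / 2 * (A - d * s) ^ (-(3 / 2) : ℝ) := by positivity
    have hle := fl_slope_le hd h1 h2 hs.le
    have b0 := Real.smoothTransition.nonneg (s - 2)
    have b1 := Real.smoothTransition.le_one (s - 2)
    unfold flSl
    nlinarith

theorem deriv_flSl_nonneg {A d : ℝ} (hd : 0 < d) (h1 : 1 / 2 ≤ A - 3 * d) (h2 : d ≤ A - 3 * d)
    (s : ℝ) : 0 ≤ deriv (flSl A d) s := by
  rcases lt_or_ge 3 s with hs | hs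
  · have : flSl A d =ᶠ[𝓝 s] fun _ => 2 * Real.pi := by
      filter_upwards [lt_mem_nhds hs] with u hu
      exact flSl_of_ge hu.le
    rw [this.deriv_eq]; simp
  · have h0 := fl_pos hd h1 h2 (show s < 7 / 2 by linarith)
    have hβ : HasDerivAt (fun s : ℝ => Real.smoothTransition (s - 2))
        (deriv Real.smoothTransition (s - 2)) s := by
      have hd' : DifferentiableAt ℝ Real.smoothTransition (s - 2) :=
        (Real.smoothTransition.contDiff (n := 1)).differentiable (by norm_num) _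
      exact hd'.hasDerivAt.comp_sub_const s 2
    have hb : 0 ≤ deriv Real.smoothTransition (s - 2) := Real.smoothTransition.monotone.deriv_nonneg
    have H := ((hβ.const_sub 1).mul (fl_psi'' h0)).add (hβ.const_mul (2 * Real.pi))
    have e : deriv (flSl A d) s = _ := H.deriv
    rw [e]
    have hle := fl_slope_le hd h1 h2 hs
    have b1 := Real.smoothTransition.le_one (s - 2)
    have hp : 0 ≤ d / 2 * (3 * d / 2 * (A - d * s) ^ (-(5 / 2) : ℝ)) := by positivity
    nlinarith [mul_nonneg (sub_nonneg.2 b1) hp, mul_nonneg hb (sub_nonneg.2 hle)]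

theorem exists_flare' {A d : ℝ} (hd : 0 < d) (h1 : 1 / 2 ≤ A - 3 * d) (h2 : d ≤ A - 3 * d) :
    ∃ (μ : ℝ → ℝ) (b : ℝ), 0 < b ∧ ContDiff ℝ ∞ μ ∧ (∀ s, s ≤ 2 → μ s = A - d * s) ∧
      (∀ s, 0 < μ s) ∧ (∀ s, deriv μ s < 0) ∧
      (∀ s, 3 ≤ s → μ s = 1 / (2 * Real.pi * (b + s - 3)) ^ 2) ∧
      ∀ s, 2 * μ s * deriv (deriv μ) s ≤ 3 * deriv μ s ^ 2 := by
  have hc := contDiff_flSl hd h1 h2
  set a : ℝ → ℝ := fun s => (A - d * 2) ^ (-(1 / 2) : ℝ) + ∫ u in (2 : ℝ)..s, flSl A d u with ha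
  have ha' : ∀ s, HasDerivAt a (flSl A d s) s := fun s =>
    (hc.continuous.integral_hasStrictDerivAt 2 s).hasDerivAt.const_add _
  have hda : deriv a = flSl A d := funext fun s => (ha' s).deriv
  have hca : ContDiff ℝ ∞ a := by
    rw [contDiff_infty_iff_deriv]
    exact ⟨fun s => (ha' s).differentiableAt, hda ▸ hc⟩
  have hle : ∀ s, s ≤ 2 → a s = (A - d * s) ^ (-(1 / 2) : ℝ) := by
    intro s hs
    have : ∫ u in s..(2 : ℝ), flSl A d u =
        (A - d * 2) ^ (-(1 / 2) : ℝ) - (A - d * s) ^ (-(1 / 2) : ℝ) := by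
      refine intervalIntegral.integral_eq_sub_of_hasDerivAt (f := fun s => (A - d * s) ^ (-(1 / 2) : ℝ))
        (fun u hu => ?_) (hc.continuous.intervalIntegrable _ _)
      rw [uIcc_of_le hs] at hu
      rw [flSl_of_le hu.2]
      exact fl_psi' (fl_pos hd h1 h2 (by linarith [hu.2]))
    simp only [ha]
    rw [intervalIntegral.integral_symm, this]
    ring
  have hmono : StrictMono a := strictMono_of_deriv_pos fun s => hda ▸ flSl_pos hd h1 h2 s
  have hpos : ∀ s, 0 < a s := by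
    intro s
    rcases le_total s 2 with hs | hs
    · rw [hle s hs]
      exact Real.rpow_pos_of_pos (fl_pos hd h1 h2 (by linarith)) _
    · refine lt_of_lt_of_le ?_ (hmono.monotone hs)
      rw [hle 2 le_rfl]
      exact Real.rpow_pos_of_pos (fl_pos hd h1 h2 (by linarith)) _
  have hge : ∀ s, 3 ≤ s → a s = a 3 + 2 * Real.pi * (s - 3) := by
    intro s hs
    have e1 : ∫ u in (3 : ℝ)..s, flSl A d u = a s - a 3 :=
      intervalIntegral.integral_eq_sub_of_hasDerivAt (fun u _ => ha' u)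
        (hc.continuous.intervalIntegrable _ _)
    have e2 : ∫ u in (3 : ℝ)..s, flSl A d u = ∫ _ in (3 : ℝ)..s, 2 * Real.pi := by
      refine intervalIntegral.integral_congr fun u hu => ?_
      rw [uIcc_of_le hs] at hu
      exact flSl_of_ge hu.1
    rw [e2] at e1
    simp at e1
    linarith
  have hμ' : ∀ s, HasDerivAt (fun s => ((a s) ^ 2)⁻¹) (-2 * flSl A d s / a s ^ 3) s := by
    intro s
    have := ((ha' s).pow 2).inv (pow_pos (hpos s) 2).ne'
    refine this.congr_deriv ?_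
    have := (hpos s).ne'
    simp only [Pi.pow_apply]
    field_simp
    norm_num
    ring
  have hdμ : deriv (fun s => ((a s) ^ 2)⁻¹) = fun s => -2 * flSl A d s / a s ^ 3 :=
    funext fun s => (hμ' s).deriv
  refine ⟨fun s => ((a s) ^ 2)⁻¹, a 3 / (2 * Real.pi), div_pos (hpos 3) (by positivity),
    (hca.pow 2).inv fun s => (pow_pos (hpos s) 2).ne', fun s hs => ?_,
    fun s => inv_pos.2 (pow_pos (hpos s) 2), fun s => ?_, fun s hs => ?_, fun s => ?_⟩
  · have h0 := fl_pos hd h1 h2 (show s < 7 / 2 by linarith)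
    simp only [hle s hs]
    rw [← Real.rpow_natCast, ← Real.rpow_mul h0.le, ← Real.rpow_neg h0.le]
    norm_num
  · rw [hdμ]
    exact div_neg_of_neg_of_pos (by linarith [flSl_pos hd h1 h2 s]) (pow_pos (hpos s) 3)
  · simp only [hge s hs]
    rw [one_div]
    congr 2
    have := Real.pi_pos.ne'
    field_simp
    ring
  · rw [hdμ]
    have hs' : HasDerivAt (flSl A d) (deriv (flSl A d) s) s :=
      (hc.differentiable (by norm_num) s).hasDerivAt
    have H := (hs'.const_mul (-2)).div ((ha' s).pow 3) (pow_pos (hpos s) 3).ne'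
    have e : deriv (fun s => -2 * flSl A d s / a s ^ 3) s = _ := H.deriv
    rw [e]
    have h0 := hpos s
    have hn := deriv_flSl_nonneg hd h1 h2 s
    simp only [Pi.pow_apply]
    rw [← sub_nonneg]
    have : 3 * (-2 * flSl A d s / a s ^ 3) ^ 2 - 2 * (a s ^ 2)⁻¹ *
        ((-2 * deriv (flSl A d) s * a s ^ 3 -
          -2 * flSl A d s * ((3 : ℕ) * a s ^ (3 - 1) * flSl A d s)) / (a s ^ 3) ^ 2) =
        4 * deriv (flSl A d) s / a s ^ 5 := by
      field_simp
      push_cast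
      ring
    rw [this]
    positivity

end Crest.Agent.R244
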