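import Crest.Agent.R244.Bridge2
/-!
# R244: uniqueness and global existence of geodesics
-/

set_option autoImplicit false

open scoped ContDiff Manifold Topology
open Bundle Filter Set
open Crest.GeometryTopology.CoordMetric Crest.GeometryTopology.ChartCurvature
  Crest.GeometryTopology.Geodesic

noncomputable section

namespace Crest.Agent.R244

variable {M : Type*} [TopologicalSpace M] [ChartedSpace E M] [IsManifold 𝓘(ℝ, E) ∞ M]

theorem geoMa_geoNear {g : RM M} {γ : ℝ → M} {t : ℝ} {x : M} (h : ∀ᶠ s in 𝓝 t, GeoAt g γ s)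
    (hx : γ t ∈ (chartAt E x).source) : GeoNear (metricInChart g x) (chartAt E x ∘ γ) t := by
  have hc : ContinuousAt γ t := h.self_of_nhds.1
  filter_upwards [h, hc.eventually_mem ((chartAt E x).open_source.mem_nhds hx)] with s hs hsx
  exact hs.2 x hsx

theorem geoMa_local {g : RM M} {γ γ' : ℝ → M} {t : ℝ} (h : ∀ᶠ s in 𝓝 t, GeoAt g γ s)
    (h' : ∀ᶠ s in 𝓝 t, GeoAt g γ' s) (e₀ : γ t = γ' t)
    (e₁ : deriv (chartAt E (γ t) ∘ γ) t = deriv (chartAt E (γ t) ∘ γ') t) : γ =ᶠ[𝓝 t] γ' := by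
  have hx : γ t ∈ (chartAt E (γ t)).source := mem_chart_source E (γ t)
  have hx' : γ' t ∈ (chartAt E (γ t)).source := e₀ ▸ hx
  have key := GeoNear.unique (riemAt_chart g ((chartAt E (γ t)).map_source hx))
    (geoMa_geoNear h hx) (geoMa_geoNear h' hx') (by simp only [Function.comp_apply, ← e₀]) e₁
  filter_upwards [key,
    h.self_of_nhds.1.eventually_mem ((chartAt E (γ t)).open_source.mem_nhds hx),
    h'.self_of_nhds.1.eventually_mem ((chartAt E (γ t)).open_source.mem_nhds hx')] with s hs h1 h2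
  exact (chartAt E (γ t)).injOn h1 h2 hs

/-- Uniqueness on an interval: the set where `γ, γ'` agree to first order (equivalently, agree
near the point) is open by `GeoNear.unique` and closed by continuity in a chart. -/
theorem geo_unique [T2Space M] {g : RM M} {γ γ' : ℝ → M} {a b t₀ : ℝ} (ht : t₀ ∈ Ioo a b)
    (h : ∀ t ∈ Ioo a b, GeoAt g γ t) (h' : ∀ t ∈ Ioo a b, GeoAt g γ' t) (e₀ : γ t₀ = γ' t₀)
    (e₁ : vel γ t₀ = vel γ' t₀) : EqOn γ γ' (Ioo a b) := by
  have hn : ∀ t ∈ Ioo a b, ∀ᶠ s in 𝓝 t, GeoAt g γ s := fun t ht => by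
    filter_upwards [isOpen_Ioo.mem_nhds ht] with s hs using h s hs
  have hn' : ∀ t ∈ Ioo a b, ∀ᶠ s in 𝓝 t, GeoAt g γ' s := fun t ht => by
    filter_upwards [isOpen_Ioo.mem_nhds ht] with s hs using h' s hs
  have hsub : Ioo a b ⊆ {t | γ =ᶠ[𝓝 t] γ'} := by
    refine isPreconnected_Ioo.subset_of_closure_inter_subset isOpen_setOfPred_eventually_nhds
      ⟨t₀, ht, ?_⟩ ?_
    · refine geoMa_local (hn _ ht) (hn' _ ht) e₀ ?_
      have := e₁
      unfold vel at this
      rw [this, e₀]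
    · rintro t ⟨hcl, htI⟩
      have hfr : ∃ᶠ s in 𝓝 t, γ =ᶠ[𝓝 s] γ' := mem_closure_iff_frequently.1 hcl
      have e₀' : γ t = γ' t :=
        tendsto_nhds_unique_of_frequently_eq (h t htI).1 (h' t htI).1
          (hfr.mono fun s hs => hs.self_of_nhds)
      have hx : γ t ∈ (chartAt E (γ t)).source := mem_chart_source E (γ t)
      have hx' : γ' t ∈ (chartAt E (γ t)).source := e₀' ▸ hx
      refine geoMa_local (hn _ htI) (hn' _ htI) e₀' ?_
      have c1 : ContinuousAt (deriv (chartAt E (γ t) ∘ γ)) t :=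
        (((h t htI).2 _ hx).1.derivWithin (m := 0) (by simp)).continuousAt
      have c2 : ContinuousAt (deriv (chartAt E (γ t) ∘ γ')) t :=
        (((h' t htI).2 _ hx').1.derivWithin (m := 0) (by simp)).continuousAt
      refine tendsto_nhds_unique_of_frequently_eq c1 c2 (hfr.mono fun s hs => ?_)
      exact (hs.fun_comp (chartAt E (γ t))).deriv_eq
  intro t ht
  exact (hsub ht).self_of_nhds

theorem IsGeo.unique [T2Space M] {g : RM M} {γ γ' : ℝ → M} (h : IsGeo g γ) (h' : IsGeo g γ')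
    (e₀ : γ 0 = γ' 0) (e₁ : vel γ 0 = vel γ' 0) : γ = γ' := by
  funext t
  have ht : t ∈ Ioo (-(|t| + 1)) (|t| + 1) :=
    ⟨by linarith [neg_abs_le t], by linarith [le_abs_self t]⟩
  have h0 : (0 : ℝ) ∈ Ioo (-(|t| + 1)) (|t| + 1) :=
    ⟨by linarith [abs_nonneg t], by linarith [abs_nonneg t]⟩
  exact geo_unique h0 (fun s _ => h s) (fun s _ => h' s) e₀ e₁ ht

theorem geoMa_ip_vel {g : RM M} {γ : ℝ → M} {t : ℝ} {x : M} (h : GeoAt g γ t)
    (hx : γ t ∈ (chartAt E x).source) :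
    ip g (γ t) (vel γ t) (vel γ t) = Bil (metricInChart g x) ((chartAt E x ∘ γ) t)
      (deriv (chartAt E x ∘ γ) t) (deriv (chartAt E x ∘ γ) t) := by
  rw [ip_eq_chart g hx, dch_vel h.contMDiffAt hx]
  rfl

theorem geoMa_hasDerivAt {g : RM M} {γ : ℝ → M} {t : ℝ} (h : ∀ᶠ s in 𝓝 t, GeoAt g γ s) :
    HasDerivAt (fun s => ip g (γ s) (vel γ s) (vel γ s)) 0 t := by
  have hx : γ t ∈ (chartAt E (γ t)).source := mem_chart_source E (γ t)
  have ht := h.self_of_nhds
  obtain ⟨hc, hg⟩ := ht.2 _ hx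
  have hd : DifferentiableAt ℝ (deriv (chartAt E (γ t) ∘ γ)) t :=
    (hc.derivWithin (m := 1) (by norm_cast)).differentiableAt (by simp)
  have key := (riemAt_chart g ((chartAt E (γ t)).map_source hx)).hasDerivAt_bil
    (c := chartAt E (γ t) ∘ γ) (hc.differentiableAt (by simp)) hd hd
  have hcov : cov (metricInChart g (γ t)) (chartAt E (γ t) ∘ γ) (deriv (chartAt E (γ t) ∘ γ)) t
      = 0 := hg
  rw [hcov] at key
  simp only [map_zero, zero_apply, add_zero] at key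
  refine key.congr_of_eventuallyEq ?_
  filter_upwards [h, ht.1.eventually_mem ((chartAt E (γ t)).open_source.mem_nhds hx)]
    with s hs hsx
  exact geoMa_ip_vel hs hsx

/-- Constant speed. -/
theorem geo_speed {g : RM M} {γ : ℝ → M} {a b s t : ℝ} (h : ∀ t ∈ Ioo a b, GeoAt g γ t)
    (hs : s ∈ Ioo a b) (ht : t ∈ Ioo a b) :
    ip g (γ s) (vel γ s) (vel γ s) = ip g (γ t) (vel γ t) (vel γ t) := by
  have hd : ∀ u ∈ Ioo a b, HasDerivAt (fun s => ip g (γ s) (vel γ s) (vel γ s)) 0 u :=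
    fun u hu => geoMa_hasDerivAt (by
      filter_upwards [isOpen_Ioo.mem_nhds hu] with s hs using h s hs)
  exact isOpen_Ioo.is_const_of_deriv_eq_zero isPreconnected_Ioo
    (fun u hu => (hd u hu).differentiableAt.differentiableWithinAt)
    (fun u hu => (hd u hu).deriv) hs ht

theorem geoMb_chart {g : RM M} {q : M} {c : ℝ → E} {a b : ℝ}
    (hs : ∀ t ∈ Ioo a b, ContDiffAt ℝ ∞ c t)
    (hg : ∀ t ∈ Ioo a b, c t ∈ (chartAt E q).target ∧ Geo (metricInChart g q) c t)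
    {t : ℝ} (ht : t ∈ Ioo a b) :
    GeoAt g (fun s => (chartAt E q).symm (c s)) t ∧
      dch q ((chartAt E q).symm (c t)) (vel (fun s => (chartAt E q).symm (c s)) t) = deriv c t := by
  have hev : c =ᶠ[𝓝 t] chartAt E q ∘ fun s => (chartAt E q).symm (c s) := by
    filter_upwards [isOpen_Ioo.mem_nhds ht] with s hs'
    simp only [Function.comp_apply]
    rw [(chartAt E q).right_inv (hg s hs').1]
  have hsrc : (chartAt E q).symm (c t) ∈ (chartAt E q).source :=
    (chartAt E q).map_target (hg t ht).1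
  have hgeo : GeoAt g (fun s => (chartAt E q).symm (c s)) t :=
    geoAt_of_chart (x := q)
      (ContinuousAt.comp (f := c) ((chartAt E q).continuousAt_symm (hg t ht).1)
        (hs t ht).continuousAt) hsrc
      ((hs t ht).congr_of_eventuallyEq hev.symm) ((hg t ht).2.congr hev)
  exact ⟨hgeo, by rw [dch_vel hgeo.contMDiffAt hsrc, hev.deriv_eq]⟩

theorem geoMb_local (g : RM M) (q : M) :
    ∃ ε > (0 : ℝ), ∃ δ > (0 : ℝ), ∀ᶠ p in 𝓝 q, ∀ v : E, ip g p v v ≤ δ →
      ∃ γ : ℝ → M, γ 0 = p ∧ vel γ 0 = v ∧ ∀ t ∈ Ioo (-ε) ε, GeoAt g γ t := by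
  have hqs : q ∈ (chartAt E q).source := mem_chart_source E q
  have hqt : chartAt E q q ∈ (chartAt E q).target := (chartAt E q).map_source hqs
  obtain ⟨ε, hε, η, hη, Ψ, hΨ, hfl⟩ := exists_local_flow (riemAt_chart g hqt) 0
    ((chartAt E q).open_target.mem_nhds hqt)
  obtain ⟨a, ha, A, -, hb⟩ := (riemAt_chart g hqt).exists_bounds
  have hc : ContinuousAt (chartAt E q) q := (chartAt E q).continuousAt hqs
  refine ⟨ε, hε, a * η ^ 2 / 2, by positivity, ?_⟩
  filter_upwards [(chartAt E q).open_source.mem_nhds hqs, hc.eventually hb,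
    hc.eventually (Metric.ball_mem_nhds _ hη)] with p hp hpb hpη v hv
  set u := dch q p v with hu
  have hu1 : u ∈ Metric.ball (0 : E) η := by
    rw [mem_ball_zero_iff]
    have h1 := (hpb u).1
    rw [← ip_eq_chart g hp] at h1
    have h2 : ‖u‖ ^ 2 < η ^ 2 := by
      have h3 : 0 < a * η ^ 2 := by positivity
      nlinarith
    exact lt_of_pow_lt_pow_left₀ 2 hη.le h2
  obtain ⟨f0, f1, f2⟩ := hfl _ hpη _ hu1
  have hs : ∀ t ∈ Ioo (-ε) ε, ContDiffAt ℝ ∞ (fun s => Ψ ((chartAt E q p, u), s)) t := by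
    intro t ht
    have h5 : ContDiffAt ℝ ∞ Ψ ((chartAt E q p, u), t) :=
      hΨ.contDiffAt (((Metric.isOpen_ball.prod Metric.isOpen_ball).prod isOpen_Ioo).mem_nhds
        ⟨⟨hpη, hu1⟩, ht⟩)
    exact h5.comp t (f := fun s : ℝ => ((chartAt E q p, u), s)) (by fun_prop)
  have e0 : (chartAt E q).symm (Ψ ((chartAt E q p, u), 0)) = p := by
    rw [f0, (chartAt E q).left_inv hp]
  refine ⟨fun s => (chartAt E q).symm (Ψ ((chartAt E q p, u), s)), e0, ?_,
    fun t ht => (geoMb_chart hs f2 ht).1⟩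
  have h6 := (geoMb_chart hs f2 (t := 0) ⟨by linarith, hε⟩).2
  rw [e0, f1] at h6
  exact (dch_bijective hp).1 h6

/-- Uniform existence time for slow geodesics (`exists_local_flow` at `(chartAt q q, 0)`,
`RiemAt.exists_bounds`, compactness). -/
theorem exists_uniform_time [CompactSpace M] (g : RM M) :
    ∃ ε > (0 : ℝ), ∃ δ > (0 : ℝ), ∀ (p : M) (v : E), ip g p v v ≤ δ →
      ∃ γ : ℝ → M, γ 0 = p ∧ vel γ 0 = v ∧ ∀ t ∈ Ioo (-ε) ε, GeoAt g γ t := by
  choose ε hε δ hδ hU using geoMb_local g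
  obtain ⟨T, hT⟩ := CompactSpace.elim_nhds_subcover _ hU
  have hev : ∀ᶠ r in 𝓝[>] (0 : ℝ), ∀ q ∈ T, r ≤ ε q ∧ r ≤ δ q := by
    rw [Finset.eventually_all]
    intro q _
    exact nhdsWithin_le_nhds ((eventually_le_nhds (hε q)).and (eventually_le_nhds (hδ q)))
  obtain ⟨r, hr, hr0⟩ := (hev.and self_mem_nhdsWithin).exists
  refine ⟨r, hr0, r, hr0, fun p v hv => ?_⟩
  have hp : p ∈ (⊤ : Set M) := trivial
  rw [← hT] at hp
  simp only [mem_iUnion] at hp
  obtain ⟨q, hq, hpq⟩ := hp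
  obtain ⟨γ, h0, h1, h2⟩ := hpq v (hv.trans (hr q hq).2)
  exact ⟨γ, h0, h1, fun t ht =>
    h2 t ⟨by linarith [ht.1, (hr q hq).1], by linarith [ht.2, (hr q hq).1]⟩⟩

theorem geoMb_vel_congr {γ γ' : ℝ → M} {t : ℝ} (e : γ =ᶠ[𝓝 t] γ') : vel γ t = vel γ' t := by
  rw [vel, vel, e.eq_of_nhds]
  exact (e.fun_comp _).deriv_eq

theorem geoMb_glue [T2Space M] {g : RM M} {γ β : ℝ → M} {a b c d s : ℝ} (hac : a ≤ c) (hbd : b ≤ d)
    (hs : s ∈ Ioo c b) (hγ : ∀ t ∈ Ioo a b, GeoAt g γ t) (hβ : ∀ t ∈ Ioo c d, GeoAt g β t)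
    (e₀ : γ s = β s) (e₁ : vel γ s = vel β s) :
    ∃ γ' : ℝ → M, EqOn γ' γ (Ioo a b) ∧ EqOn γ' β (Ioo c d) ∧ ∀ t ∈ Ioo a d, GeoAt g γ' t := by
  have he : EqOn γ β (Ioo c b) :=
    geo_unique hs (fun t ht => hγ t ⟨hac.trans_lt ht.1, ht.2⟩)
      (fun t ht => hβ t ⟨ht.1, ht.2.trans_le hbd⟩) e₀ e₁
  have h1 : EqOn (fun t => if t < s then γ t else β t) γ (Ioo a b) := by
    intro t ht
    by_cases h : t < s
    · simp [h]
    · simp only [h, if_false]
      exact (he ⟨hs.1.trans_le (not_lt.1 h), ht.2⟩).symm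
  have h2 : EqOn (fun t => if t < s then γ t else β t) β (Ioo c d) := by
    intro t ht
    by_cases h : t < s
    · simp only [h, if_true]
      exact he ⟨ht.1, h.trans hs.2⟩
    · simp [h]
  refine ⟨_, h1, h2, fun t ht => ?_⟩
  by_cases h : t < b
  · exact (hγ t ⟨ht.1, h⟩).congr (h1.eventuallyEq_of_mem (isOpen_Ioo.mem_nhds ⟨ht.1, h⟩)).symm
  · have hc : c < t := (hs.1.trans hs.2).trans_le (not_lt.1 h)
    exact (hβ t ⟨hc, ht.2⟩).congr (h2.eventuallyEq_of_mem (isOpen_Ioo.mem_nhds ⟨hc, ht.2⟩)).symm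

theorem geoMb_slow [T2Space M] {g : RM M} {ε δ : ℝ} (hε : 0 < ε)
    (H : ∀ (p : M) (v : E), ip g p v v ≤ δ →
      ∃ γ : ℝ → M, γ 0 = p ∧ vel γ 0 = v ∧ ∀ t ∈ Ioo (-ε) ε, GeoAt g γ t)
    {p : M} {v : E} (hv : ip g p v v ≤ δ) :
    ∃ γ : ℝ → M, γ 0 = p ∧ vel γ 0 = v ∧ IsGeo g γ := by
  have H' : ∀ (s : ℝ) (p : M) (v : E), ip g p v v ≤ δ →
      ∃ γ : ℝ → M, γ s = p ∧ vel γ s = v ∧ ∀ t ∈ Ioo (s - ε) (s + ε), GeoAt g γ t := by
    intro s p v hv
    obtain ⟨γ, h0, h1, h2⟩ := H p v hv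
    have e : (1 : ℝ) * s + -s = 0 := by ring
    refine ⟨fun t => γ (1 * t + -s), by simp only [e, h0], ?_, fun t ht => ?_⟩
    · rw [vel_comp_affine (g := g) (by rw [e]; exact h2 0 ⟨by linarith, hε⟩), e, h1, one_smul]
    · exact (h2 _ ⟨by linarith [ht.1], by linarith [ht.2]⟩).comp_affine
  have step : ∀ r : ℝ, ε ≤ r →
      (∃ γ : ℝ → M, γ 0 = p ∧ vel γ 0 = v ∧ ∀ t ∈ Ioo (-r) r, GeoAt g γ t) →
      ∃ γ : ℝ → M, γ 0 = p ∧ vel γ 0 = v ∧ ∀ t ∈ Ioo (-(r + ε / 2)) (r + ε / 2), GeoAt g γ t := by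
    rintro r hr ⟨γ, h0, h1, h2⟩
    have z : (0 : ℝ) ∈ Ioo (-r) r := ⟨by linarith, by linarith⟩
    have sp : ∀ s ∈ Ioo (-r) r, ip g (γ s) (vel γ s) (vel γ s) ≤ δ := fun s hs => by
      rw [geo_speed h2 hs z, h1, h0]; exact hv
    obtain ⟨β, b0, b1, b2⟩ := H' (r - ε / 2) _ _ (sp (r - ε / 2) ⟨by linarith, by linarith⟩)
    obtain ⟨α, a0, a1, a2⟩ := H' (-r + ε / 2) _ _ (sp (-r + ε / 2) ⟨by linarith, by linarith⟩)
    obtain ⟨γ₁, c1, -, c3⟩ := geoMb_glue (a := -r) (b := r) (c := r - ε) (d := r + ε / 2)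
      (s := r - ε / 2) (by linarith) (by linarith) ⟨by linarith, by linarith⟩ h2
      (fun t ht => b2 t ⟨by linarith [ht.1], by linarith [ht.2]⟩) b0.symm b1.symm
    have m : -r + ε / 2 ∈ Ioo (-r) r := ⟨by linarith, by linarith⟩
    obtain ⟨γ₂, -, d2, d3⟩ := geoMb_glue (γ := α) (β := γ₁) (a := -(r + ε / 2)) (b := -r + ε)
      (c := -r) (d := r + ε / 2) (s := -r + ε / 2) (by linarith) (by linarith)
      ⟨by linarith, by linarith⟩ (fun t ht => a2 t ⟨by linarith [ht.1], by linarith [ht.2]⟩) c3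
      (a0.trans (c1 m).symm)
      (a1.trans (geoMb_vel_congr (c1.eventuallyEq_of_mem (isOpen_Ioo.mem_nhds m))).symm)
    have e : γ₂ =ᶠ[𝓝 0] γ :=
      (d2.eventuallyEq_of_mem (isOpen_Ioo.mem_nhds ⟨by linarith, by linarith⟩)).trans
        (c1.eventuallyEq_of_mem (isOpen_Ioo.mem_nhds z))
    exact ⟨γ₂, e.eq_of_nhds.trans h0, (geoMb_vel_congr e).trans h1, d3⟩
  have ind : ∀ n : ℕ, ∃ γ : ℝ → M, γ 0 = p ∧ vel γ 0 = v ∧
      ∀ t ∈ Ioo (-(ε + n * (ε / 2))) (ε + n * (ε / 2)), GeoAt g γ t := by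
    intro n
    induction n with
    | zero => simpa using H p v hv
    | succ n ih =>
      have h1 := step _ (by have : 0 ≤ (n : ℝ) * (ε / 2) := by positivity
                            linarith) ih
      have e : ε + ((n + 1 : ℕ) : ℝ) * (ε / 2) = ε + n * (ε / 2) + ε / 2 := by push_cast; ring
      rw [e]; exact h1
  have all : ∀ R : ℝ, ∃ γ : ℝ → M, γ 0 = p ∧ vel γ 0 = v ∧ ∀ t ∈ Ioo (-R) R, GeoAt g γ t := by
    intro R
    obtain ⟨n, hn⟩ := exists_nat_ge (R / (ε / 2))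
    rw [div_le_iff₀ (by positivity)] at hn
    obtain ⟨γ, h0, h1, h2⟩ := ind n
    exact ⟨γ, h0, h1, fun t ht => h2 t ⟨by linarith [ht.1], by linarith [ht.2]⟩⟩
  choose Γ h0 h1 h2 using all
  have hev : ∀ t : ℝ, (fun u => Γ (|u| + 1) u) =ᶠ[𝓝 t] Γ (|t| + 1) := by
    intro t
    have ht : t ∈ Ioo (-(|t| + 1)) (|t| + 1) :=
      ⟨by linarith [neg_abs_le t], by linarith [le_abs_self t]⟩
    filter_upwards [isOpen_Ioo.mem_nhds ht] with u hu
    have m1 : min (|u| + 1) (|t| + 1) ≤ |u| + 1 := min_le_left _ _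
    have m2 : min (|u| + 1) (|t| + 1) ≤ |t| + 1 := min_le_right _ _
    have m3 : |u| < min (|u| + 1) (|t| + 1) :=
      lt_min (by linarith) (abs_lt.2 ⟨hu.1, hu.2⟩)
    have m4 : 0 ≤ |u| := abs_nonneg u
    exact geo_unique (a := -min (|u| + 1) (|t| + 1)) (b := min (|u| + 1) (|t| + 1)) (t₀ := 0)
      ⟨by linarith, by linarith⟩
      (fun s hs => h2 _ s ⟨by linarith [hs.1], by linarith [hs.2]⟩)
      (fun s hs => h2 _ s ⟨by linarith [hs.1], by linarith [hs.2]⟩)
      ((h0 _).trans (h0 _).symm) ((h1 _).trans (h1 _).symm) (abs_lt.1 m3)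
  refine ⟨fun u => Γ (|u| + 1) u, h0 _, (geoMb_vel_congr (hev 0)).trans (h1 _), fun t => ?_⟩
  exact (h2 _ t ⟨by linarith [neg_abs_le t], by linarith [le_abs_self t]⟩).congr (hev t).symm

/-- Global existence: extend by steps of `ε/2` using constant speed and uniqueness (as in Mathlib's
`exists_isMIntegralCurve_of_isMIntegralCurveOn`), then rescale the parameter. -/
theorem exists_isGeo [CompactSpace M] [T2Space M] (g : RM M) (p : M) (v : E) :
    ∃ γ : ℝ → M, γ 0 = p ∧ vel γ 0 = v ∧ IsGeo g γ := by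
  obtain ⟨ε, hε, δ, hδ, H⟩ := exists_uniform_time g
  set K := ip g p v v with hK
  set c := δ / (|K| + δ) with hc
  have hK0 : 0 ≤ |K| := abs_nonneg K
  have hc0 : 0 < c := by positivity
  have hc1 : c ≤ 1 := by rw [hc, div_le_one (by positivity)]; linarith
  have hc2 : c * |K| ≤ δ := by
    rw [hc, div_mul_eq_mul_div, div_le_iff₀ (by positivity)]; nlinarith
  have hv : ip g p (c • v) (c • v) ≤ δ := by
    have e : ip g p (c • v) (c • v) = c * (c * K) := by
      rw [hK, ip_eq_self, ip_eq_self]; simp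
    have h1 : c * K ≤ c * |K| := mul_le_mul_of_nonneg_left (le_abs_self K) hc0.le
    have h2 : 0 ≤ c * |K| := by positivity
    rw [e]; nlinarith
  obtain ⟨γ, h0, h1, h2⟩ := geoMb_slow hε H hv
  refine ⟨fun t => γ (c⁻¹ * t + 0), by simp [h0], ?_, fun t => (h2 _).comp_affine⟩
  rw [vel_comp_affine (h2 _)]
  simp [h1, smul_smul, inv_mul_cancel₀ hc0.ne']

/-- Slow geodesics starting near `q` stay near `q` for unit time (in the chart at `q` the Euclidean
speed is at most `√(δ/a)` while the curve is in a small closed ball; first exit time). -/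
theorem short_geo [T2Space M] (g : RM M) (q : M) {U : Set M} (hU : U ∈ 𝓝 q) :
    ∃ W ∈ 𝓝 q, ∃ δ > (0 : ℝ), ∀ γ : ℝ → M, IsGeo g γ → γ 0 ∈ W →
      ip g (γ 0) (vel γ 0) (vel γ 0) ≤ δ → ∀ t ∈ Icc (0 : ℝ) 1, γ t ∈ U := by
  have hq : q ∈ (chartAt E q).source := mem_chart_source E q
  have hp : chartAt E q q ∈ (chartAt E q).target := mem_chart_target E q
  obtain ⟨a, ha, A, -, hb⟩ := (riemAt_chart g hp).exists_bounds
  have hU' : ∀ᶠ y in 𝓝 (chartAt E q q), (chartAt E q).symm y ∈ U :=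
    ((chartAt E q).continuousAt_symm hp).eventually_mem (by rw [(chartAt E q).left_inv hq]; exact hU)
  obtain ⟨r, hr, hball⟩ := Metric.nhds_basis_closedBall.eventually_iff.1
    (hb.and (hU'.and ((chartAt E q).open_target.mem_nhds hp)))
  -- the compact set
  set p := chartAt E q q with hpdef
  have hKc : IsClosed ((chartAt E q).symm '' Metric.closedBall p r) := by
    refine IsCompact.isClosed ((isCompact_closedBall p r).image_of_continuousOn ?_)
    exact (chartAt E q).continuousOn_symm.mono fun y hy => (hball hy).2.2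
  have hKmem : ∀ m ∈ (chartAt E q).symm '' Metric.closedBall p r,
      m ∈ (chartAt E q).source ∧ chartAt E q m ∈ Metric.closedBall p r ∧ m ∈ U := by
    rintro m ⟨y, hy, rfl⟩
    refine ⟨(chartAt E q).map_target (hball hy).2.2, ?_, (hball hy).2.1⟩
    rw [(chartAt E q).right_inv (hball hy).2.2]
    exact hy
  have hmemK : ∀ m ∈ (chartAt E q).source, chartAt E q m ∈ Metric.closedBall p r →
      m ∈ (chartAt E q).symm '' Metric.closedBall p r := fun m hm hm' =>
    ⟨_, hm', (chartAt E q).left_inv hm⟩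
  refine ⟨{m | m ∈ (chartAt E q).source ∧ chartAt E q m ∈ Metric.ball p (r / 2)}, ?_,
    a * (r / 4) ^ 2, by positivity, ?_⟩
  · filter_upwards [(chartAt E q).open_source.mem_nhds hq,
      ((chartAt E q).continuousAt hq).eventually_mem (Metric.ball_mem_nhds p (half_pos hr))]
      with m h1 h2
    exact ⟨h1, h2⟩
  intro γ hγ h0 hsp
  have hcont : Continuous γ := continuous_iff_continuousAt.2 fun t => (hγ t).1
  have hspeed : ∀ t, ip g (γ t) (vel γ t) (vel γ t) ≤ a * (r / 4) ^ 2 := by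
    intro t
    have ht : t ∈ Ioo (-(|t| + 1)) (|t| + 1) :=
      ⟨by linarith [neg_abs_le t], by linarith [le_abs_self t]⟩
    have h0' : (0 : ℝ) ∈ Ioo (-(|t| + 1)) (|t| + 1) :=
      ⟨by linarith [abs_nonneg t], by linarith [abs_nonneg t]⟩
    rw [geo_speed (fun s _ => hγ s) ht h0']
    exact hsp
  have hbound : ∀ t, γ t ∈ (chartAt E q).symm '' Metric.closedBall p r →
      ‖deriv (chartAt E q ∘ γ) t‖ ≤ r / 4 := by
    intro t ht
    obtain ⟨h1, h2, -⟩ := hKmem _ ht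
    have h3 := ((hball h2).1 (deriv (chartAt E q ∘ γ) t)).1
    have h4 := hspeed t
    rw [geoMa_ip_vel (hγ t) h1] at h4
    have h5 : ‖deriv (chartAt E q ∘ γ) t‖ ^ 2 ≤ (r / 4) ^ 2 :=
      le_of_mul_le_mul_left (h3.trans h4) ha
    exact (pow_le_pow_iff_left₀ (norm_nonneg _) (by positivity) two_ne_zero).1 h5
  have hmain : Icc (0 : ℝ) 1 ⊆ {t | γ t ∈ (chartAt E q).symm '' Metric.closedBall p r} := by
    refine IsClosed.Icc_subset_of_forall_mem_nhdsGT_of_Icc_subset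
      ((hKc.preimage hcont).inter isClosed_Icc) ?_ ?_
    · exact hmemK _ h0.1 (Metric.ball_subset_closedBall
        (Metric.ball_subset_ball (by linarith) h0.2))
    · intro t ht hsub
      have hmv : ‖(chartAt E q ∘ γ) t - (chartAt E q ∘ γ) 0‖ ≤ r / 4 * ‖t - 0‖ :=
        Convex.norm_image_sub_le_of_norm_deriv_le
          (fun s hs => ((hγ s).2 q (hKmem _ (hsub hs)).1).1.differentiableAt (by simp))
          (fun s hs => hbound s (hsub hs)) (convex_Icc 0 t) ⟨le_rfl, ht.1⟩ ⟨ht.1, le_rfl⟩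
      have htq := (hKmem _ (hsub ⟨ht.1, le_rfl⟩)).1
      have hlt : chartAt E q (γ t) ∈ Metric.ball p r := by
        have h1 : ‖t - 0‖ ≤ 1 := by
          rw [sub_zero, Real.norm_eq_abs, abs_of_nonneg ht.1]; exact ht.2.le
        have h2 : dist (chartAt E q (γ 0)) p < r / 2 := h0.2
        have h3 : dist (chartAt E q (γ t)) (chartAt E q (γ 0)) ≤ r / 4 := by
          rw [dist_eq_norm]
          refine hmv.trans ?_
          nlinarith
        have h4 := dist_triangle (chartAt E q (γ t)) (chartAt E q (γ 0)) p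
        rw [Metric.mem_ball]
        linarith
      have hc2 : ContinuousAt (fun s => chartAt E q (γ s)) t :=
        ((chartAt E q).continuousAt htq).comp (hγ t).1
      refine mem_nhdsWithin_of_mem_nhds ?_
      filter_upwards [(hγ t).1.eventually_mem ((chartAt E q).open_source.mem_nhds htq),
        hc2.eventually_mem (Metric.isOpen_ball.mem_nhds hlt)] with s h1 h2
      exact hmemK _ h1 (Metric.ball_subset_closedBall h2)
  intro t ht
  exact (hKmem _ (hmain ht)).2.2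

end Crest.Agent.R244
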