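import Crest.Agent.R244.Coord2
/-!
# R244: local isometries
`IsomAt.chr`: differentiate the isometry identity, plug into `koszul` for both metrics, use the
symmetry of the second derivative of `ψ` and the surjectivity of `fderiv ψ p`.
-/

set_option autoImplicit false

open scoped ContDiff Manifold Topology
open Bundle Filter Set
open Crest.GeometryTopology.CoordMetric Crest.GeometryTopology.ChartCurvature
  Crest.GeometryTopology.Geodesic

noncomputable section

namespace Crest.Agent.R244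

theorem IsomAt.eventually {G G' : MF} {ψ : E → E} {p : E} (h : IsomAt G G' ψ p) :
    ∀ᶠ y in 𝓝 p, IsomAt G G' ψ y :=
  Filter.Eventually.eventually_nhds h

theorem IsomAt.congr {G G' : MF} {ψ ψ' : E → E} {p : E} (h : IsomAt G G' ψ p)
    (e : ψ =ᶠ[𝓝 p] ψ') : IsomAt G G' ψ' p := by
  filter_upwards [h, e.eventuallyEq_nhds] with y hy ey
  refine ⟨hy.1.congr_of_eventuallyEq ey.symm, fun u v => ?_⟩
  rw [← ey.fderiv_eq, ← ey.eq_of_nhds]
  exact hy.2 u v

theorem isomAt_id (G : MF) (p : E) : IsomAt G G id p := by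
  refine Eventually.of_forall fun y => ⟨contDiffAt_id, fun u v => ?_⟩
  simp only [fderiv_id, ContinuousLinearMap.coe_id', id_eq]

theorem IsomAt.comp {G G' G'' : MF} {ψ φ : E → E} {p : E} (h : IsomAt G G' ψ p)
    (h' : IsomAt G' G'' φ (ψ p)) : IsomAt G G'' (φ ∘ ψ) p := by
  have hc : ContinuousAt ψ p := h.self_of_nhds.1.continuousAt
  filter_upwards [h, hc.tendsto.eventually h'] with y hy hy'
  refine ⟨hy'.1.comp y hy.1, fun u v => ?_⟩
  rw [fderiv_comp y (hy'.1.differentiableAt (by simp)) (hy.1.differentiableAt (by simp))]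
  simp only [ContinuousLinearMap.comp_apply, Function.comp_apply]
  rw [hy'.2, hy.2]

theorem IsomAt.bijective {G G' : MF} {ψ : E → E} {p : E} (h : IsomAt G G' ψ p) (hG : RiemAt G p) :
    Function.Bijective (fderiv ℝ ψ p) := by
  have hinj : Function.Injective (fderiv ℝ ψ p) := by
    refine (injective_iff_map_eq_zero (fderiv ℝ ψ p)).2 fun u hu => ?_
    by_contra hne
    have h1 := hG.pos hne
    rw [← h.self_of_nhds.2 u u, hu] at h1
    simp at h1
  exact ⟨hinj, (LinearMap.injective_iff_surjective (f := (fderiv ℝ ψ p : E →ₗ[ℝ] E))).1 hinj⟩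

/-- Local inverse (inverse function theorem: `ContDiffAt.toOpenPartialHomeomorph`,
`OpenPartialHomeomorph.contDiffAt_symm`). -/
theorem IsomAt.inverse {G G' : MF} {ψ : E → E} {p : E} (h : IsomAt G G' ψ p) (hG : RiemAt G p) :
    ∃ φ : E → E, φ (ψ p) = p ∧ IsomAt G' G φ (ψ p) ∧ (∀ᶠ y in 𝓝 p, φ (ψ y) = y) ∧
      ∀ᶠ z in 𝓝 (ψ p), ψ (φ z) = z := by
  have key : ∀ y, IsomAt G G' ψ y → RiemAt G y →
      ∃ L : E ≃L[ℝ] E, (L : E →L[ℝ] E) = fderiv ℝ ψ y ∧ HasFDerivAt ψ (L : E →L[ℝ] E) y := by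
    intro y hy hGy
    have hb := hy.bijective hGy
    let L : E ≃L[ℝ] E :=
      (LinearEquiv.ofBijective (fderiv ℝ ψ y : E →ₗ[ℝ] E) hb).toContinuousLinearEquiv
    have hL : (L : E →L[ℝ] E) = fderiv ℝ ψ y := by ext1 u; rfl
    exact ⟨L, hL, hL ▸ (hy.self_of_nhds.1.differentiableAt (by simp)).hasFDerivAt⟩
  obtain ⟨L, -, hL⟩ := key p h hG
  have hs : ContDiffAt ℝ ∞ ψ p := h.self_of_nhds.1
  let e := hs.toOpenPartialHomeomorph ψ hL (by simp)
  have he : (e : E → E) = ψ := rfl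
  have hp : p ∈ e.source := hs.mem_toOpenPartialHomeomorph_source hL (by simp)
  have hpt : ψ p ∈ e.target := e.map_source hp
  have h0 : e.symm (ψ p) = p := e.left_inv hp
  have hcont : Tendsto e.symm (𝓝 (ψ p)) (𝓝 p) := by
    have := (e.continuousAt_symm hpt).tendsto
    rwa [h0] at this
  refine ⟨e.symm, h0, ?_, e.eventually_left_inverse hp, e.eventually_right_inverse hpt⟩
  filter_upwards [e.open_target.mem_nhds hpt, hcont.eventually h.eventually,
    hcont.eventually hG.eventually] with z hz h1 h2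
  obtain ⟨L', hL1, hL2⟩ := key _ h1 h2
  refine ⟨e.contDiffAt_symm hz hL2 h1.self_of_nhds.1, fun u v => ?_⟩
  rw [(e.hasFDerivAt_symm hz hL2).fderiv, ← h1.self_of_nhds.2, ← hL1]
  have hz' : ψ (e.symm z) = z := e.right_inv hz
  rw [hz']
  simp

theorem isomb_two_le : (2 : WithTop ℕ∞) ≤ ∞ := by
  exact WithTop.coe_le_coe.2 (le_top : (2 : ℕ∞) ≤ ⊤)

theorem isomb_hasFDerivAt_fderiv {ψ : E → E} {p : E} (hψ : ContDiffAt ℝ ∞ ψ p) :
    HasFDerivAt (fderiv ℝ ψ) (fderiv ℝ (fderiv ℝ ψ) p) p :=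
  ((hψ.fderiv_right (m := 1) (by rw [one_add_one_eq_two]; exact isomb_two_le)).differentiableAt
    (by simp)).hasFDerivAt

set_option synthInstance.maxHeartbeats 200000 in
theorem isomb_key {G G' : MF} {ψ : E → E} {p : E} (h : IsomAt G G' ψ p) (hG : RiemAt G p)
    (hG' : RiemAt G' (ψ p)) (a b c : E) :
    fderiv ℝ (Bil G') (ψ p) (fderiv ℝ ψ p a) (fderiv ℝ ψ p b) (fderiv ℝ ψ p c) +
      Bil G' (ψ p) (fderiv ℝ (fderiv ℝ ψ) p a b) (fderiv ℝ ψ p c) +
      Bil G' (ψ p) (fderiv ℝ ψ p b) (fderiv ℝ (fderiv ℝ ψ) p a c) =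
      fderiv ℝ (Bil G) p a b c := by
  have hψ : ContDiffAt ℝ ∞ ψ p := (h.self_of_nhds).1
  have h1 : HasFDerivAt ψ (fderiv ℝ ψ p) p := (hψ.differentiableAt (by simp)).hasFDerivAt
  have h2 := isomb_hasFDerivAt_fderiv hψ
  have h3 := (hG'.contDiffAt_bil.differentiableAt (by simp)).hasFDerivAt
  have h0 := (hG.contDiffAt_bil.differentiableAt (by simp)).hasFDerivAt
  have h4 := h3.comp p h1
  have hb := h2.clm_apply (hasFDerivAt_const b p)
  have hc := h2.clm_apply (hasFDerivAt_const c p)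
  have h5 := (h4.clm_apply hb).clm_apply hc
  have h6 := (h0.clm_apply (hasFDerivAt_const b p)).clm_apply (hasFDerivAt_const c p)
  have e : (fun y => Bil G y b c) =ᶠ[𝓝 p]
      fun y => (Bil G' ∘ ψ) y (fderiv ℝ ψ y b) (fderiv ℝ ψ y c) := by
    filter_upwards [h] with y hy
    exact (hy.2 b c).symm
  have h7 := congrArg (fun L : E →L[ℝ] ℝ => L a) ((h5.congr_of_eventuallyEq e).unique h6)
  simp at h7
  linarith

/-- Transformation law of the Christoffel map. -/
theorem IsomAt.chr {G G' : MF} {ψ : E → E} {p : E} (h : IsomAt G G' ψ p) (hG : RiemAt G p)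
    (hG' : RiemAt G' (ψ p)) (u v : E) :
    fderiv ℝ (fderiv ℝ ψ) p u v + Chr G' (ψ p) (fderiv ℝ ψ p u) (fderiv ℝ ψ p v) =
      fderiv ℝ ψ p (Chr G p u v) := by
  have hψ : ContDiffAt ℝ ∞ ψ p := (h.self_of_nhds).1
  have hsurj := (h.bijective hG).2
  have hsym : ∀ a b : E, fderiv ℝ (fderiv ℝ ψ) p a b = fderiv ℝ (fderiv ℝ ψ) p b a :=
    fun a b => (hψ.isSymmSndFDerivAt (by simp; exact isomb_two_le)) a b
  refine hG'.ext fun w' => ?_
  obtain ⟨w, rfl⟩ := hsurj w'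
  have k1 := isomb_key h hG hG' u v w
  have k2 := isomb_key h hG hG' v u w
  have k3 := isomb_key h hG hG' w u v
  have z1 := hG.koszul u v w
  have z2 := hG'.koszul (fderiv ℝ ψ p u) (fderiv ℝ ψ p v) (fderiv ℝ ψ p w)
  have z3 := (h.self_of_nhds).2 (Chr G p u v) w
  rw [hsym v u] at k2
  rw [hsym w u, hsym w v, hG'.symm (fderiv ℝ (fderiv ℝ ψ) p u w)] at k3
  rw [map_add, add_apply]
  linarith

theorem isomb_cov {G G' : MF} {ψ : E → E} {c V : ℝ → E} {t : ℝ} (h : IsomAt G G' ψ (c t))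
    (hG : RiemAt G (c t)) (hG' : RiemAt G' (ψ (c t))) (hc : DifferentiableAt ℝ c t)
    (hV : DifferentiableAt ℝ V t) :
    cov G' (ψ ∘ c) (fun s => fderiv ℝ ψ (c s) (V s)) t = fderiv ℝ ψ (c t) (cov G c V t) := by
  have hψ : ContDiffAt ℝ ∞ ψ (c t) := (h.self_of_nhds).1
  have h1 : HasFDerivAt ψ (fderiv ℝ ψ (c t)) (c t) :=
    (hψ.differentiableAt (by simp)).hasFDerivAt
  have h2 := (isomb_hasFDerivAt_fderiv hψ).comp_hasDerivAt t hc.hasDerivAt
  have h3 := h2.clm_apply hV.hasDerivAt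
  have h4 := (h1.comp_hasDerivAt t hc.hasDerivAt).deriv
  have h5 : deriv (fun s => fderiv ℝ ψ (c s) (V s)) t = _ := h3.deriv
  have h6 := h.chr hG hG' (deriv c t) (V t)
  simp only [cov, Function.comp_apply]
  rw [h4, h5, map_add, ← h6]
  simp only [Function.comp_apply]
  abel

/-- The geodesic operator transforms as a vector. -/
theorem IsomAt.geo_op {G G' : MF} {ψ : E → E} {c : ℝ → E} {t : ℝ} (h : IsomAt G G' ψ (c t))
    (hG : RiemAt G (c t)) (hG' : RiemAt G' (ψ (c t))) (hc : ContDiffAt ℝ ∞ c t) :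
    deriv (deriv (ψ ∘ c)) t + Chr G' (ψ (c t)) (deriv (ψ ∘ c) t) (deriv (ψ ∘ c) t) =
      fderiv ℝ ψ (c t) (deriv (deriv c) t + Chr G (c t) (deriv c t) (deriv c t)) := by
  have hψ : ContDiffAt ℝ ∞ ψ (c t) := (h.self_of_nhds).1
  have hc1 : ∀ᶠ s in 𝓝 t, DifferentiableAt ℝ c s :=
    ((hc.of_le (m := 1) (by simp)).eventually (by simp)).mono fun s hs =>
      hs.differentiableAt (by simp)
  have hψ1 : ∀ᶠ s in 𝓝 t, DifferentiableAt ℝ ψ (c s) :=
    hc.continuousAt.eventually (h.mono fun y hy => hy.1.differentiableAt (by simp))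
  have e : deriv (ψ ∘ c) =ᶠ[𝓝 t] fun s => fderiv ℝ ψ (c s) (deriv c s) := by
    filter_upwards [hc1, hψ1] with s h1 h2
    exact (h2.hasFDerivAt.comp_hasDerivAt s h1.hasDerivAt).deriv
  have hd : DifferentiableAt ℝ (deriv c) t := by
    have h1 : ContDiffAt ℝ 1 (fderiv ℝ c) t :=
      hc.fderiv_right (m := 1) (by rw [one_add_one_eq_two]; exact isomb_two_le)
    exact (h1.differentiableAt (by simp)).clm_apply (differentiableAt_const (1 : ℝ))
  have key := isomb_cov h hG hG' hc1.self_of_nhds hd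
  rw [e.deriv_eq, e.self_of_nhds]
  simp only [cov] at key
  rw [e.self_of_nhds] at key
  exact key

theorem IsomAt.geo {G G' : MF} {ψ : E → E} {c : ℝ → E} {t : ℝ} (h : IsomAt G G' ψ (c t))
    (hG : RiemAt G (c t)) (hG' : RiemAt G' (ψ (c t))) (hc : ContDiffAt ℝ ∞ c t) (hg : Geo G c t) :
    Geo G' (ψ ∘ c) t := by
  have := h.geo_op hG hG' hc
  unfold Geo at hg ⊢
  rw [hg, map_zero] at this
  exact this

/-- The covariant derivative transforms as a vector. -/
theorem IsomAt.cov_eq {G G' : MF} {ψ : E → E} {c V : ℝ → E} {t : ℝ} (h : IsomAt G G' ψ (c t))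
    (hG : RiemAt G (c t)) (hG' : RiemAt G' (ψ (c t))) (hc : DifferentiableAt ℝ c t)
    (hV : DifferentiableAt ℝ V t) :
    cov G' (ψ ∘ c) (fun s => fderiv ℝ ψ (c s) (V s)) t = fderiv ℝ ψ (c t) (cov G c V t) := by
  exact isomb_cov h hG hG' hc hV

end Crest.Agent.R244
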