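import Crest.Agent.R244.ModelDefs
import Crest.Agent.R244.Isom
/-!
# R244: the glued topological space
`M` is the quotient of `Σ i, D.U i`; the quotient map is open by `D.loc`, so `M` is Hausdorff by
`D.closed` (`IsOpenQuotientMap.t2Space_iff` or directly) and second countable.
-/

set_option autoImplicit false

open scoped ContDiff Manifold Topology
open Bundle Filter Set
open Crest.GeometryTopology.CoordMetric Crest.GeometryTopology.ChartCurvature
  Crest.GeometryTopology.Geodesic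

noncomputable section

namespace Crest.Agent.R244

/-- The disjoint union of the pieces. -/
abbrev Glue.gaX (D : Glue) : Type := Σ i : Fin 3, D.U i

/-- The gluing relation. -/
def Glue.gaS (D : Glue) : Setoid D.gaX where
  r a b := D.r a.1 a.2 b.1 b.2
  iseqv := ⟨fun a => D.refl _ _ a.2.2, fun {a b} h => D.symm _ _ _ a.2.2 _ b.2.2 h,
    fun {a b c} h h' => D.trans _ _ _ _ a.2.2 _ b.2.2 _ c.2.2 h h'⟩

open Classical in
/-- The projections. -/
def Glue.gaPm (D : Glue) (i : Fin 3) (p : E) : Quotient D.gaS :=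
  if h : p ∈ D.U i then Quotient.mk D.gaS ⟨i, ⟨p, h⟩⟩ else Quotient.mk D.gaS ⟨0, ⟨D.p₀, D.mem₀⟩⟩

theorem Glue.gaPm_eq (D : Glue) {i : Fin 3} {p : E} (h : p ∈ D.U i) :
    D.gaPm i p = Quotient.mk D.gaS ⟨i, ⟨p, h⟩⟩ := dif_pos h

theorem Glue.ga_open (D : Glue) : IsOpenMap (Quotient.mk D.gaS) := by
  intro O hO
  rw [← (isQuotientMap_quotient_mk' (s := D.gaS)).isOpen_preimage, isOpen_sigma_iff]
  intro j
  rw [isOpen_iff_mem_nhds]
  rintro q ⟨⟨i, p⟩, hp, hpq⟩
  have hr : D.r j q i p := D.symm _ _ _ p.2 _ q.2 (Quotient.exact hpq)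
  obtain ⟨ψ, hψ, hiso, hev⟩ := D.loc j i q q.2 p p.2 hr
  have hc : ContinuousAt ψ q := hiso.self_of_nhds.1.continuousAt
  obtain ⟨V, hV, hVe⟩ := isOpen_induced_iff.1 (hO.preimage (continuous_sigmaMk (i := i)))
  have hpV : (p : E) ∈ V := by
    have : p ∈ Subtype.val ⁻¹' V := hVe ▸ hp
    exact this
  have h1 : ∀ᶠ y in 𝓝 (q : E), ψ y ∈ V ∩ D.U i :=
    hc.preimage_mem_nhds (by rw [hψ]; exact (hV.inter (D.isOpen i)).mem_nhds ⟨hpV, p.2⟩)
  have h2 := (continuous_subtype_val (p := fun y => y ∈ D.U j)).continuousAt.eventually (h1.and hev)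
  filter_upwards [h2] with y hy
  refine ⟨⟨i, ⟨ψ y, hy.1.2⟩⟩, ?_, Quotient.sound (D.symm _ _ _ y.2 _ hy.1.2 hy.2.1)⟩
  have : (⟨ψ y, hy.1.2⟩ : D.U i) ∈ Subtype.val ⁻¹' V := hy.1.1
  rw [hVe] at this
  exact this

theorem Glue.exists_top (D : Glue) :
    ∃ (M : Type) (_ : TopologicalSpace M) (pm : Fin 3 → E → M),
      T2Space M ∧ SecondCountableTopology M ∧ D.TopSpec pm := by
  refine ⟨Quotient D.gaS, inferInstance, D.gaPm, ?_, ?_, ?_, ?_, ?_, ?_⟩
  · rw [t2Space_iff_of_isOpenQuotientMap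
      ⟨Quotient.mk_surjective, continuous_quotient_mk', D.ga_open⟩, ← isOpen_compl_iff,
      isOpen_iff_mem_nhds]
    rintro ⟨⟨i, p⟩, ⟨j, q⟩⟩ hz
    have hz' : ¬ D.r i p j q := fun h => hz (Quotient.sound h)
    have ho : IsOpenMap (Prod.map (Sigma.mk (β := fun i => D.U i) i) (Sigma.mk (β := fun i => D.U i) j)) :=
      IsOpenMap.prodMap isOpenMap_sigmaMk isOpenMap_sigmaMk
    refine mem_of_superset ((ho _ (D.closed i j).isOpen_compl).mem_nhds ⟨(p, q), hz', rfl⟩) ?_
    rintro _ ⟨⟨a, b⟩, hab, rfl⟩ h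
    exact hab (Quotient.exact h)
  · exact TopologicalSpace.Quotient.secondCountableTopology (S := D.gaS) D.ga_open
  · intro i
    rw [continuousOn_iff_continuous_domRestrict]
    have : (D.U i).domRestrict (D.gaPm i) = fun p : D.U i => Quotient.mk D.gaS ⟨i, p⟩ :=
      funext fun p => D.gaPm_eq p.2
    rw [this]
    exact continuous_quotient_mk'.comp continuous_sigmaMk
  · intro x
    induction x using Quotient.inductionOn with
    | h a => exact ⟨a.1, a.2, a.2.2, D.gaPm_eq a.2.2⟩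
  · intro i j p hp q hq
    rw [D.gaPm_eq hp, D.gaPm_eq hq]
    exact Quotient.eq
  · intro i W hW hWU
    have : D.gaPm i '' W =
        Quotient.mk D.gaS '' ((Sigma.mk (β := fun i => D.U i) i) '' (Subtype.val ⁻¹' W)) := by
      ext x
      constructor
      · rintro ⟨p, hp, rfl⟩
        exact ⟨_, ⟨⟨p, hWU hp⟩, hp, rfl⟩, (D.gaPm_eq (hWU hp)).symm⟩
      · rintro ⟨_, ⟨p, hp, rfl⟩, rfl⟩
        exact ⟨p, hp, D.gaPm_eq p.2⟩
    rw [this]
    exact D.ga_open _ (isOpenMap_sigmaMk _ (hW.preimage continuous_subtype_val))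

/-- The charts: for `x = pm i p` choose an open `W ∋ p` in `U i` on which `pm i` is injective
(`D.disc`); `pm i` restricted to `W` is continuous, open and injective
(`OpenPartialHomeomorph.ofContinuousOpen`); the chart is its inverse. -/
theorem Glue.exists_charts (D : Glue) {M : Type} [TopologicalSpace M] {pm : Fin 3 → E → M}
    (h : D.TopSpec pm) : ∃ (_ : ChartedSpace E M) (ix : M → Fin 3), D.ChartSpec pm ix := by
  have key : ∀ x : M, ∃ (i : Fin 3) (e : OpenPartialHomeomorph E M), x ∈ e.target ∧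
      e.source ⊆ D.U i ∧ ∀ y, e y = pm i y := fun x => by
    obtain ⟨i, p, hp, rfl⟩ := h.surj x
    obtain ⟨W, hW, hW'⟩ := D.disc i p hp
    have ho : IsOpen (interior W ∩ D.U i) := isOpen_interior.inter (D.isOpen i)
    have hinj : InjOn (pm i) (interior W ∩ D.U i) := fun a ha b hb hab =>
      hW' a (interior_subset ha.1) b (interior_subset hb.1) ((h.rel i i a ha.2 b hb.2).1 hab)
    refine ⟨i, OpenPartialHomeomorph.ofContinuousOpenRestrict (hinj.toPartialEquiv _ _)
      ((h.cont i).mono inter_subset_right) ?_ ho, ⟨p, ⟨mem_interior_iff_mem_nhds.2 hW, hp⟩, rfl⟩,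
      inter_subset_right, fun y => rfl⟩
    intro O hO
    have h1 := h.isOpen i _ (ho.isOpenMap_subtype_val O hO)
      (by rintro _ ⟨a, -, rfl⟩; exact a.2.2)
    rw [image_image] at h1
    exact h1
  choose ix e h1 h2 h3 using key
  refine ⟨⟨range fun x => (e x).symm, fun x => (e x).symm, h1, fun x => ⟨x, rfl⟩⟩, ix, ?_⟩
  let _ : ChartedSpace E M := ⟨range fun x => (e x).symm, fun x => (e x).symm, h1, fun x => ⟨x, rfl⟩⟩
  exact ⟨h2, fun x y _ => h3 x y, fun f ⟨x, hx⟩ => ⟨x, hx.symm⟩⟩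

end Crest.Agent.R244
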