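import Crest.Agent.R244.GlueA
/-!
# R244: the glued space is an oriented manifold
-/

set_option autoImplicit false

open scoped ContDiff Manifold Topology
open Bundle Filter Set
open Crest.GeometryTopology.CoordMetric Crest.GeometryTopology.ChartCurvature
  Crest.GeometryTopology.Geodesic

noncomputable section

namespace Crest.Agent.R244

variable {M : Type} [TopologicalSpace M] [ChartedSpace E M]

/-- Near `p`, `chartAt x ∘ pm i` is the map `ψ` of `D.loc`. -/
theorem Glue.chart_comp (D : Glue) {pm : Fin 3 → E → M} {ix : M → Fin 3} (h : D.TopSpec pm)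
    (hc : D.ChartSpec pm ix) {i : Fin 3} {p : E} (hp : p ∈ D.U i) {x : M}
    (hx : pm i p ∈ (chartAt E x).source) :
    IsomAt (D.G i) (D.G (ix x)) (chartAt E x ∘ pm i) p ∧
      0 < LinearMap.det (fderiv ℝ (chartAt E x ∘ pm i) p : E →ₗ[ℝ] E) := by
  have hq : chartAt E x (pm i p) ∈ (chartAt E x).target := (chartAt E x).map_source hx
  have hq' := hc.target x hq
  have e1 : pm i p = pm (ix x) (chartAt E x (pm i p)) := by
    rw [← hc.symm x _ hq, (chartAt E x).left_inv hx]
  obtain ⟨ψ, h1, h2, h3⟩ := D.loc i (ix x) p hp _ hq' ((h.rel i (ix x) p hp _ hq').1 e1)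
  have hψ : Tendsto ψ (𝓝 p) (𝓝 (chartAt E x (pm i p))) := by
    have := h2.self_of_nhds.1.continuousAt.tendsto
    rwa [h1] at this
  have e2 : ψ =ᶠ[𝓝 p] chartAt E x ∘ pm i := by
    filter_upwards [h3, (D.isOpen i).mem_nhds hp,
      hψ.eventually ((chartAt E x).open_target.mem_nhds hq)] with y b1 b2 b3
    have b4 := (h.rel i (ix x) y b2 _ (hc.target x b3)).2 b1.1
    rw [Function.comp_apply, b4, ← hc.symm x _ b3, (chartAt E x).right_inv b3]
  refine ⟨h2.congr e2, ?_⟩
  rw [← e2.fderiv_eq]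
  exact h3.self_of_nhds.2

theorem Glue.glueB_transition (D : Glue) {pm : Fin 3 → E → M} {ix : M → Fin 3}
    (h : D.TopSpec pm) (hc : D.ChartSpec pm ix) {x y : M} {z : E} (hz : z ∈ (chartAt E x).target)
    (hy : (chartAt E x).symm z ∈ (chartAt E y).source) :
    ContDiffAt ℝ ∞ (chartAt E y ∘ (chartAt E x).symm) z ∧
      0 < LinearMap.det (fderiv ℝ (chartAt E y ∘ (chartAt E x).symm) z : E →ₗ[ℝ] E) := by
  have e : chartAt E y ∘ (chartAt E x).symm =ᶠ[𝓝 z] chartAt E y ∘ pm (ix x) := by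
    filter_upwards [(chartAt E x).open_target.mem_nhds hz] with w hw
    simp only [Function.comp_apply, hc.symm x w hw]
  rw [hc.symm x z hz] at hy
  obtain ⟨h1, h2⟩ := D.chart_comp h hc (hc.target x hz) hy
  exact ⟨h1.self_of_nhds.1.congr_of_eventuallyEq e, by rw [e.fderiv_eq]; exact h2⟩

theorem Glue.isManifold (D : Glue) {pm : Fin 3 → E → M} {ix : M → Fin 3} (h : D.TopSpec pm)
    (hc : D.ChartSpec pm ix) : IsManifold 𝓘(ℝ, E) ∞ M := by
  refine isManifold_of_contDiffOn 𝓘(ℝ, E) ∞ M fun e e' he he' => ?_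
  obtain ⟨x, rfl⟩ := hc.atlas e he
  obtain ⟨y, rfl⟩ := hc.atlas e' he'
  intro z hz
  simp only [mfld_simps] at hz ⊢
  exact (D.glueB_transition h hc hz.1 hz.2).1.contDiffWithinAt

theorem Glue.isOrientable [IsManifold 𝓘(ℝ, E) ∞ M] (D : Glue) {pm : Fin 3 → E → M}
    {ix : M → Fin 3} (h : D.TopSpec pm) (hc : D.ChartSpec pm ix) : IsOrientable 3 M := by
  refine ⟨atlas E M, IsManifold.subset_maximalAtlas, fun x =>
    ⟨chartAt E x, chart_mem_atlas E x, mem_chart_source E x⟩, fun e he e' he' m hm => ?_⟩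
  obtain ⟨x, rfl⟩ := hc.atlas e he
  obtain ⟨y, rfl⟩ := hc.atlas e' he'
  refine (D.glueB_transition h hc ((chartAt E x).map_source hm.1) ?_).2
  rw [(chartAt E x).left_inv hm.1]
  exact hm.2

end Crest.Agent.R244
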