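import Crest.Agent.R244.ModelDefs
/-!
# R244: the gluing relation is a closed, locally trivial equivalence relation
`T > 0`; for `|t| < T + 1`, `t ≤ -T`: `0 < r₁ (-T) ≤ r₁ t < 1/4` (same for `r₂`). If two polar points
differ by an integer vector, the planar difference is an integer vector of norm `< 1/2`, hence `0`;
then radii agree and angles agree mod `1` (`Real.cos_eq_one_iff`, `Real.Angle`, or
`Complex.exp_eq_exp_iff_exists_int`). Do the case analysis with `fin_cases i <;> fin_cases j`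
and `simp only [Prof.rel, Prof.U, …]` (state unfolding lemmas by `Iff.rfl`/`rfl` first).
-/

set_option autoImplicit false

open scoped ContDiff Manifold Topology
open Bundle Filter Set
open Crest.GeometryTopology.CoordMetric Crest.GeometryTopology.ChartCurvature
  Crest.GeometryTopology.Geodesic

noncomputable section

namespace Crest.Agent.R244

variable (Pr : Prof)

theorem Prof.T_pos : 0 < Pr.T := by
  linarith [Pr.ht₁, Pr.ht, Pr.ht₂]

theorem Prof.n₀_pos : 0 < Pr.n₀ := by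
  obtain ⟨h1, h2⟩ := Pr.left Pr.t₁ le_rfl
  have h3 := Pr.good.det_pos Pr.t₁
  have h4 := Pr.good.m_pos Pr.t₁
  rw [h1, h2] at h3
  by_contra h
  nlinarith [not_lt.1 h]

theorem Prof.m₂_pos : 0 < Pr.m₂ := by
  rw [← (Pr.right Pr.t₂ le_rfl).1]
  exact Pr.good.m_pos _

theorem isClosed_lat : IsClosed {v : E | lat v} := by
  have hc : ∀ i : Fin 3, IsClosed {v : E | v i ∈ range (Int.cast : ℤ → ℝ)} := fun i =>
    Int.isClosedEmbedding_coe_real.isClosed_range.preimage (by fun_prop)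
  have : {v : E | lat v} = {v : E | v 0 ∈ range (Int.cast : ℤ → ℝ)} ∩
      ({v : E | v 1 ∈ range (Int.cast : ℤ → ℝ)} ∩ {v : E | v 2 ∈ range (Int.cast : ℤ → ℝ)}) := by
    ext v
    constructor
    · rintro ⟨a, b, c, rfl⟩
      exact ⟨⟨a, by simp⟩, ⟨b, by simp⟩, ⟨c, by simp⟩⟩
    · rintro ⟨⟨a, ha⟩, ⟨b, hb⟩, ⟨c, hc⟩⟩
      refine ⟨a, b, c, ?_⟩
      ext i
      fin_cases i <;> simp [ha, hb, hc]
  rw [this]
  exact (hc 0).inter ((hc 1).inter (hc 2))

theorem lat_eq_zero {v : E} (h : lat v) (hv : ‖v‖ < 1) : v = 0 := by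
  obtain ⟨a, b, c, e⟩ := h
  have key : ∀ (x : ℝ) (z : ℤ), |x| < 1 → x = (z : ℝ) → x = 0 := by
    intro x z h1 hz
    rw [hz] at h1 ⊢
    have h2 : |z| < 1 := by exact_mod_cast h1
    rw [Int.abs_lt_one_iff.1 h2, Int.cast_zero]
  have hb : ∀ i : Fin 3, |v i| < 1 := fun i =>
    (by simpa using PiLp.norm_apply_le v i : |v i| ≤ ‖v‖).trans_lt hv
  ext i
  fin_cases i
  · exact key _ a (hb 0) (by simp [e])
  · exact key _ b (hb 1) (by simp [e])
  · exact key _ c (hb 2) (by simp [e])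

theorem Prof.isOpen_holes (ρ : ℝ) : IsOpen (Prof.holes ρ) := by
  have : Prof.holes ρ =
      {p : E | ρ ^ 2 < ‖((p 0 : ℝ) : UnitAddCircle)‖ ^ 2 + ‖((p 1 : ℝ) : UnitAddCircle)‖ ^ 2} := by
    ext p
    simp only [Prof.holes, mem_ofPred_eq, UnitAddCircle.norm_eq, sq_abs]
    refine ⟨fun h => h _ _, fun h a b => h.trans_le (add_le_add ?_ ?_)⟩
    · exact sq_le_sq.2 (round_le _ a)
    · exact sq_le_sq.2 (round_le _ b)
  rw [this]
  have hc : Continuous fun x : ℝ => (x : UnitAddCircle) := AddCircle.continuous_mk' 1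
  exact isOpen_lt continuous_const (by fun_prop)

theorem Prof.isOpen_U (i : Fin 3) : IsOpen (Pr.U i) := by
  fin_cases i
  · exact Prof.isOpen_holes _
  · exact isOpen_lt (f := fun p : E => |p 0|) (by fun_prop) continuous_const
  · exact Prof.isOpen_holes _

theorem modelAa_grid {ρ : ℝ} (h0 : 0 ≤ ρ) (h1 : ρ ≤ 1 / 4) : grid ⊆ Prof.holes ρ := by
  have key : ∀ a c : ℤ, ρ ^ 2 < ((a : ℝ) + 1 / 2 - c) ^ 2 := by
    intro a c
    rcases le_or_gt c a with h | h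
    · have : (c : ℝ) ≤ a := by exact_mod_cast h
      nlinarith
    · have : (a : ℝ) + 1 ≤ c := by exact_mod_cast h
      nlinarith
  rintro p (⟨a, ha⟩ | ⟨a, ha⟩) c d
  · rw [ha]; nlinarith [key a c, sq_nonneg (p 1 - d)]
  · rw [ha]; nlinarith [key a d, sq_nonneg (p 0 - c)]

theorem modelAa_r₁ : Pr.r₁ (-Pr.T) = Pr.b₁ / (4 * (Pr.b₁ + 1)) := by
  rw [Prof.r₁]; ring

theorem modelAa_r₂ : Pr.r₂ Pr.T = Pr.b₂ / (4 * (Pr.b₂ + 1)) := by
  rw [Prof.r₂]; ring

theorem modelAa_div {b x : ℝ} (hb : 0 < b) (hx : x ≤ b + 1) : x / (4 * (b + 1)) ≤ 1 / 4 := by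
  rw [div_le_iff₀ (by positivity)]; linarith

theorem modelAa_circle {ρ r : ℝ} (h0 : 0 ≤ ρ) (h1 : ρ < r) (h2 : r ≤ 1 / 4) (θ : ℝ) (a b : ℤ) :
    ρ ^ 2 < (r * Real.sin θ - a) ^ 2 + (r * Real.cos θ - b) ^ 2 := by
  have key : ∀ (x : ℝ) (z : ℤ), |x| ≤ 1 → z ≠ 0 → ρ ^ 2 < (r * x - z) ^ 2 := by
    intro x z hx hz
    obtain ⟨hx1, hx2⟩ := abs_le.1 hx
    have e1 : r * x ≤ 1 / 4 := by nlinarith
    have e2 : -(1 / 4) ≤ r * x := by nlinarith
    rcases lt_or_gt_of_ne hz with h | h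
    · have : (z : ℝ) + 1 ≤ 0 := by exact_mod_cast h
      nlinarith
    · have : (1 : ℝ) ≤ z := by exact_mod_cast h
      nlinarith
  by_cases ha : a = 0
  · by_cases hb : b = 0
    · subst ha hb
      have := Real.sin_sq_add_cos_sq θ
      simp only [Int.cast_zero, sub_zero, mul_pow, ← mul_add, this]
      nlinarith
    · nlinarith [key _ b (Real.abs_cos_le_one θ) hb, sq_nonneg (r * Real.sin θ - a)]
  · nlinarith [key _ a (Real.abs_sin_le_one θ) ha, sq_nonneg (r * Real.cos θ - b)]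

theorem Prof.grid_subset₀ : grid ⊆ Pr.U 0 := by
  have hb := Pr.hb₁
  refine modelAa_grid (ρ := Pr.r₁ (-Pr.T)) ?_ ?_
  · rw [modelAa_r₁]; positivity
  · rw [modelAa_r₁]; exact modelAa_div hb (by linarith)

theorem Prof.grid_subset₂ : grid ⊆ Pr.U 2 := by
  have hb := Pr.hb₂
  refine modelAa_grid (ρ := Pr.r₂ Pr.T) ?_ ?_
  · rw [modelAa_r₂]; positivity
  · rw [modelAa_r₂]; exact modelAa_div hb (by linarith)

theorem Prof.add_mem_U {i : Fin 3} (hi : i ≠ 1) {p : E} (hp : p ∈ Pr.U i) (a b c : ℤ) :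
    p + !₂[(a : ℝ), b, c] ∈ Pr.U i := by
  have key : ∀ ρ : ℝ, p ∈ Prof.holes ρ → p + !₂[(a : ℝ), b, c] ∈ Prof.holes ρ := by
    intro ρ h a' b'
    have := h (a' - a) (b' - b)
    push_cast at this
    convert this using 3 <;> simp <;> ring
  fin_cases i
  · exact key _ hp
  · exact absurd rfl hi
  · exact key _ hp

/-- The overlaps are open conditions. -/
theorem Prof.lt_of_rel₀ {p q : E} (hq : q ∈ Pr.U 0) (h : Pr.rel 1 p 0 q) : p 0 < -Pr.T := by
  obtain ⟨h1, a, b, c, e⟩ : p 0 ≤ -Pr.T ∧ lat (q - Pr.pol₁ p) := h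
  refine lt_of_le_of_ne h1 fun h2 => ?_
  have h3 : Pr.r₁ (-Pr.T) ^ 2 < (q 0 - a) ^ 2 + (q 1 - b) ^ 2 := hq a b
  have e0 : q 0 - a = Pr.r₁ (p 0) * Real.sin (2 * Real.pi * p 1) := by
    have := congrArg (fun v : E => v 0) e
    simp [Prof.pol₁] at this
    linarith
  have e1 : q 1 - b = Pr.r₁ (p 0) * Real.cos (2 * Real.pi * p 1) := by
    have := congrArg (fun v : E => v 1) e
    simp [Prof.pol₁] at this
    linarith
  rw [e0, e1, h2, mul_pow, mul_pow, ← mul_add, Real.sin_sq_add_cos_sq, mul_one] at h3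
  exact lt_irrefl _ h3

theorem Prof.lt_of_rel₂ {p q : E} (hq : q ∈ Pr.U 2) (h : Pr.rel 1 p 2 q) : Pr.T < p 0 := by
  obtain ⟨h1, a, b, c, e⟩ : Pr.T ≤ p 0 ∧ lat (q - Pr.pol₂ p) := h
  refine lt_of_le_of_ne h1 fun h2 => ?_
  have h3 : Pr.r₂ Pr.T ^ 2 < (q 0 - a) ^ 2 + (q 1 - b) ^ 2 := hq a b
  have e0 : q 0 - a = Pr.r₂ (p 0) * Real.sin (2 * Real.pi * (p 2 - p 1)) := by
    have := congrArg (fun v : E => v 0) e
    simp [Prof.pol₂] at this
    linarith
  have e1 : q 1 - b = Pr.r₂ (p 0) * Real.cos (2 * Real.pi * (p 2 - p 1)) := by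
    have := congrArg (fun v : E => v 1) e
    simp [Prof.pol₂] at this
    linarith
  rw [e0, e1, ← h2, mul_pow, mul_pow, ← mul_add, Real.sin_sq_add_cos_sq, mul_one] at h3
  exact lt_irrefl _ h3

theorem Prof.pol₁_mem {p : E} (hp : p ∈ Pr.U 1) (h : p 0 < -Pr.T) : Pr.pol₁ p ∈ Pr.U 0 := by
  have hb := Pr.hb₁
  have h1 : |p 0| < Pr.T + 1 := hp
  intro a b
  refine modelAa_circle (r := Pr.r₁ (p 0)) ?_ ?_ ?_ (2 * Real.pi * p 1) a b
  · rw [modelAa_r₁]; positivity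
  · rw [modelAa_r₁, Prof.r₁]
    exact div_lt_div_of_pos_right (by linarith) (by positivity)
  · exact modelAa_div hb (by linarith [(abs_lt.1 h1).1])

theorem Prof.pol₂_mem {p : E} (hp : p ∈ Pr.U 1) (h : Pr.T < p 0) : Pr.pol₂ p ∈ Pr.U 2 := by
  have hb := Pr.hb₂
  have h1 : |p 0| < Pr.T + 1 := hp
  intro a b
  refine modelAa_circle (r := Pr.r₂ (p 0)) ?_ ?_ ?_ (2 * Real.pi * (p 2 - p 1)) a b
  · rw [modelAa_r₂]; positivity
  · rw [modelAa_r₂, Prof.r₂]
    exact div_lt_div_of_pos_right (by linarith) (by positivity)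
  · exact modelAa_div hb (by linarith [(abs_lt.1 h1).2])

theorem mab_lat_zero : lat 0 := ⟨0, 0, 0, by ext i; fin_cases i <;> simp⟩

theorem mab_lat_add {u v : E} (hu : lat u) (hv : lat v) : lat (u + v) := by
  obtain ⟨a, b, c, rfl⟩ := hu
  obtain ⟨a', b', c', rfl⟩ := hv
  exact ⟨a + a', b + b', c + c', by ext i; fin_cases i <;> simp⟩

theorem mab_lat_neg {u : E} (hu : lat u) : lat (-u) := by
  obtain ⟨a, b, c, rfl⟩ := hu
  exact ⟨-a, -b, -c, by ext i; fin_cases i <;> simp⟩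

theorem mab_lat_sub {u v : E} (hu : lat u) (hv : lat v) : lat (u - v) := by
  rw [sub_eq_add_neg]
  exact mab_lat_add hu (mab_lat_neg hv)

theorem mab_lat_of_eq {u v : E} (hu : lat u) (h : v = u) : lat v := h ▸ hu

theorem mab_00 (p q : E) : Pr.rel 0 p 0 q ↔ lat (q - p) := Iff.rfl

theorem mab_01 (p q : E) : Pr.rel 0 p 1 q ↔ q 0 ≤ -Pr.T ∧ lat (p - Pr.pol₁ q) := Iff.rfl

theorem mab_02 (p q : E) : Pr.rel 0 p 2 q ↔ False := Iff.rfl

theorem mab_10 (p q : E) : Pr.rel 1 p 0 q ↔ p 0 ≤ -Pr.T ∧ lat (q - Pr.pol₁ p) := Iff.rfl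

theorem mab_11 (p q : E) : Pr.rel 1 p 1 q ↔ ∃ a b : ℤ, q = p + !₂[(0 : ℝ), a, b] := Iff.rfl

theorem mab_12 (p q : E) : Pr.rel 1 p 2 q ↔ Pr.T ≤ p 0 ∧ lat (q - Pr.pol₂ p) := Iff.rfl

theorem mab_20 (p q : E) : Pr.rel 2 p 0 q ↔ False := Iff.rfl

theorem mab_21 (p q : E) : Pr.rel 2 p 1 q ↔ Pr.T ≤ q 0 ∧ lat (p - Pr.pol₂ q) := Iff.rfl

theorem mab_22 (p q : E) : Pr.rel 2 p 2 q ↔ lat (q - p) := Iff.rfl

theorem mab_11' (p q : E) : Pr.rel 1 p 1 q ↔ q 0 = p 0 ∧ lat (q - p) := by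
  rw [mab_11]
  constructor
  · rintro ⟨a, b, rfl⟩
    exact ⟨by simp, 0, a, b, by ext i; fin_cases i <;> simp⟩
  · rintro ⟨h0, a, b, c, h⟩
    have h1 : q 1 - p 1 = b := by simpa using congrArg (fun v : E => v 1) h
    have h2 : q 2 - p 2 = c := by simpa using congrArg (fun v : E => v 2) h
    refine ⟨b, c, ?_⟩
    ext i
    fin_cases i
    · simpa using h0
    · simp only [Fin.mk_one, PiLp.add_apply, Matrix.cons_val_one, Matrix.cons_val_zero]
      linarith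
    · simp only [Fin.reduceFinMk, PiLp.add_apply, Matrix.cons_val]
      linarith

theorem mab_pol₁ (p : E) (a b : ℤ) : lat (Pr.pol₁ (p + !₂[(0 : ℝ), a, b]) - Pr.pol₁ p) := by
  refine ⟨0, 0, b, ?_⟩
  have h : 2 * Real.pi * (p 1 + a) = 2 * Real.pi * p 1 + a * (2 * Real.pi) := by ring
  ext i
  fin_cases i
  · simp [Prof.pol₁, h, Real.sin_add_int_mul_two_pi]
  · simp [Prof.pol₁, h, Real.cos_add_int_mul_two_pi]
  · simp [Prof.pol₁]

theorem mab_pol₂ (p : E) (a b : ℤ) : lat (Pr.pol₂ (p + !₂[(0 : ℝ), a, b]) - Pr.pol₂ p) := by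
  refine ⟨0, 0, a, ?_⟩
  have h : 2 * Real.pi * (p 2 + b - (p 1 + a)) =
      2 * Real.pi * (p 2 - p 1) + ((b - a : ℤ) : ℝ) * (2 * Real.pi) := by push_cast; ring
  ext i
  fin_cases i
  · simp only [Prof.pol₂, Fin.zero_eta, PiLp.sub_apply, PiLp.add_apply, Matrix.cons_val_zero,
      Matrix.cons_val, Matrix.cons_val_one, add_zero, h, Real.sin_add_int_mul_two_pi]
    simp
  · simp only [Prof.pol₂, Fin.mk_one, PiLp.sub_apply, PiLp.add_apply, Matrix.cons_val_zero,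
      Matrix.cons_val, Matrix.cons_val_one, add_zero, h, Real.cos_add_int_mul_two_pi]
    simp
  · simp [Prof.pol₂]

theorem mab_int_small {x : ℝ} {a : ℤ} (h : x = a) (hx : |x| < 1) : x = 0 := by
  rw [h] at hx ⊢
  have : |a| < 1 := by exact_mod_cast hx
  rw [Int.abs_lt_one_iff.1 this, Int.cast_zero]

theorem mab_polar {r s u v : ℝ} {a b : ℤ} (hr : 0 < r) (hr' : r < 1 / 4) (hs : 0 < s)
    (hs' : s < 1 / 4)
    (h1 : r * Real.sin (2 * Real.pi * u) - s * Real.sin (2 * Real.pi * v) = a)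
    (h2 : r * Real.cos (2 * Real.pi * u) - s * Real.cos (2 * Real.pi * v) = b) :
    r = s ∧ ∃ n : ℤ, u = v + n := by
  have e1 := mab_int_small h1 (by
    rw [abs_lt]
    constructor <;> nlinarith [Real.sin_le_one (2 * Real.pi * u), Real.neg_one_le_sin (2 * Real.pi * u),
      Real.sin_le_one (2 * Real.pi * v), Real.neg_one_le_sin (2 * Real.pi * v)])
  have e2 := mab_int_small h2 (by
    rw [abs_lt]
    constructor <;> nlinarith [Real.cos_le_one (2 * Real.pi * u), Real.neg_one_le_cos (2 * Real.pi * u),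
      Real.cos_le_one (2 * Real.pi * v), Real.neg_one_le_cos (2 * Real.pi * v)])
  rw [sub_eq_zero] at e1 e2
  have hrs : r = s := by
    have h3 : r ^ 2 = s ^ 2 := by
      have k1 := Real.sin_sq_add_cos_sq (2 * Real.pi * u)
      have k2 := Real.sin_sq_add_cos_sq (2 * Real.pi * v)
      calc r ^ 2 = (r * Real.sin (2 * Real.pi * u)) ^ 2 + (r * Real.cos (2 * Real.pi * u)) ^ 2 := by
            rw [mul_pow, mul_pow, ← mul_add, k1, mul_one]
        _ = s ^ 2 := by rw [e1, e2, mul_pow, mul_pow, ← mul_add, k2, mul_one]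
    exact (pow_left_inj₀ hr.le hs.le two_ne_zero).1 h3
  refine ⟨hrs, ?_⟩
  subst hrs
  have f1 := mul_left_cancel₀ hr.ne' e1
  have f2 := mul_left_cancel₀ hr.ne' e2
  have h4 : Real.cos (2 * Real.pi * u - 2 * Real.pi * v) = 1 := by
    rw [Real.cos_sub, f1, f2]
    nlinarith [Real.sin_sq_add_cos_sq (2 * Real.pi * v)]
  obtain ⟨n, hn⟩ := (Real.cos_eq_one_iff _).1 h4
  refine ⟨n, ?_⟩
  have hpi : (2 * Real.pi) ≠ 0 := by positivity
  apply mul_left_cancel₀ hpi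
  linarith

theorem mab_inj₁ {p s : E} (hp : p ∈ Pr.U 1) (hs : s ∈ Pr.U 1) (hp0 : p 0 ≤ -Pr.T)
    (hs0 : s 0 ≤ -Pr.T) (h : lat (Pr.pol₁ s - Pr.pol₁ p)) : Pr.rel 1 p 1 s := by
  have hp' : |p 0| < Pr.T + 1 := hp
  have hs' : |s 0| < Pr.T + 1 := hs
  rw [abs_lt] at hp' hs'
  have hb := Pr.hb₁
  have hd : 0 < 4 * (Pr.b₁ + 1) := by positivity
  obtain ⟨a, b, c, h⟩ := h
  have h0 : Pr.r₁ (s 0) * Real.sin (2 * Real.pi * s 1) - Pr.r₁ (p 0) * Real.sin (2 * Real.pi * p 1)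
      = a := by simpa [Prof.pol₁] using congrArg (fun v : E => v 0) h
  have h1 : Pr.r₁ (s 0) * Real.cos (2 * Real.pi * s 1) - Pr.r₁ (p 0) * Real.cos (2 * Real.pi * p 1)
      = b := by simpa [Prof.pol₁] using congrArg (fun v : E => v 1) h
  have h2 : s 2 - p 2 = c := by simpa [Prof.pol₁] using congrArg (fun v : E => v 2) h
  obtain ⟨hr, n, hn⟩ := mab_polar (div_pos (by linarith) hd)
    (by rw [div_lt_iff₀ hd]; linarith) (div_pos (by linarith) hd)
    (by rw [div_lt_iff₀ hd]; linarith) h0 h1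
  have h3 : s 0 = p 0 := by
    rw [div_left_inj' hd.ne'] at hr
    linarith
  refine (mab_11' Pr p s).2 ⟨h3, 0, n, c, ?_⟩
  ext i
  fin_cases i
  · simp [h3]
  · simp [hn]
  · simpa using h2

theorem mab_inj₂ {p s : E} (hp : p ∈ Pr.U 1) (hs : s ∈ Pr.U 1) (hp0 : Pr.T ≤ p 0)
    (hs0 : Pr.T ≤ s 0) (h : lat (Pr.pol₂ s - Pr.pol₂ p)) : Pr.rel 1 p 1 s := by
  have hp' : |p 0| < Pr.T + 1 := hp
  have hs' : |s 0| < Pr.T + 1 := hs
  rw [abs_lt] at hp' hs'
  have hb := Pr.hb₂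
  have hd : 0 < 4 * (Pr.b₂ + 1) := by positivity
  obtain ⟨a, b, c, h⟩ := h
  have h0 : Pr.r₂ (s 0) * Real.sin (2 * Real.pi * (s 2 - s 1)) -
      Pr.r₂ (p 0) * Real.sin (2 * Real.pi * (p 2 - p 1)) = a := by
    simpa [Prof.pol₂] using congrArg (fun v : E => v 0) h
  have h1 : Pr.r₂ (s 0) * Real.cos (2 * Real.pi * (s 2 - s 1)) -
      Pr.r₂ (p 0) * Real.cos (2 * Real.pi * (p 2 - p 1)) = b := by
    simpa [Prof.pol₂] using congrArg (fun v : E => v 1) h
  have h2 : s 1 - p 1 = c := by simpa [Prof.pol₂] using congrArg (fun v : E => v 2) h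
  obtain ⟨hr, n, hn⟩ := mab_polar (div_pos (by linarith) hd)
    (by rw [div_lt_iff₀ hd]; linarith) (div_pos (by linarith) hd)
    (by rw [div_lt_iff₀ hd]; linarith) h0 h1
  have h3 : s 0 = p 0 := by
    rw [div_left_inj' hd.ne'] at hr
    linarith
  refine (mab_11' Pr p s).2 ⟨h3, 0, c, n + c, ?_⟩
  ext i
  fin_cases i
  · simp [h3]
  · simpa using h2
  · simp only [Fin.reduceFinMk, PiLp.sub_apply, Matrix.cons_val, Int.cast_add]
    linarith

theorem mab_cont₁ : Continuous Pr.pol₁ := by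
  unfold Prof.pol₁ Prof.r₁
  refine (PiLp.continuous_toLp 2 _).comp (continuous_pi fun i => ?_)
  fin_cases i <;> simp <;> fun_prop

theorem mab_cont₂ : Continuous Pr.pol₂ := by
  unfold Prof.pol₂ Prof.r₂
  refine (PiLp.continuous_toLp 2 _).comp (continuous_pi fun i => ?_)
  fin_cases i <;> simp <;> fun_prop

theorem mab_fin3 (i : Fin 3) : i = 0 ∨ i = 1 ∨ i = 2 := by
  fin_cases i <;> simp

theorem Prof.rel_refl (i : Fin 3) (p : E) : Pr.rel i p i p := by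
  fin_cases i
  · exact (mab_00 Pr p p).2 (by rw [sub_self]; exact mab_lat_zero)
  · exact (mab_11' Pr p p).2 ⟨rfl, by rw [sub_self]; exact mab_lat_zero⟩
  · exact (mab_22 Pr p p).2 (by rw [sub_self]; exact mab_lat_zero)

theorem Prof.rel_symm (i j : Fin 3) (p q : E) (h : Pr.rel i p j q) : Pr.rel j q i p := by
  rcases mab_fin3 i with rfl | rfl | rfl <;> rcases mab_fin3 j with rfl | rfl | rfl
  · exact (mab_00 Pr _ _).2 (mab_lat_of_eq (mab_lat_neg h) (neg_sub _ _).symm)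
  · exact h
  · exact h
  · exact h
  · rw [mab_11'] at h ⊢
    exact ⟨h.1.symm, mab_lat_of_eq (mab_lat_neg h.2) (neg_sub _ _).symm⟩
  · exact h
  · exact h
  · exact h
  · exact (mab_22 Pr _ _).2 (mab_lat_of_eq (mab_lat_neg h) (neg_sub _ _).symm)

theorem Prof.rel_trans (i j k : Fin 3) {p q s : E} (hp : p ∈ Pr.U i) (hq : q ∈ Pr.U j)
    (hs : s ∈ Pr.U k) (h : Pr.rel i p j q) (h' : Pr.rel j q k s) : Pr.rel i p k s := by
  have hT := Pr.T_pos
  rcases mab_fin3 i with rfl | rfl | rfl <;> rcases mab_fin3 j with rfl | rfl | rfl <;>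
    rcases mab_fin3 k with rfl | rfl | rfl <;>
    try simp only [mab_00, mab_01, mab_02, mab_10, mab_12, mab_20, mab_21, mab_22] at h h' ⊢
  · exact mab_lat_of_eq (mab_lat_add h h') (by abel)
  · exact ⟨h'.1, mab_lat_of_eq (mab_lat_sub h'.2 h) (by abel)⟩
  · exact mab_lat_of_eq (mab_lat_sub h'.2 h.2) (by abel)
  · obtain ⟨a, b, rfl⟩ := (mab_11 Pr _ _).1 h'
    exact ⟨by simpa using h.1, mab_lat_of_eq (mab_lat_sub h.2 (mab_pol₁ Pr q a b)) (by abel)⟩
  · linarith [h.1, h'.1]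
  · exact ⟨h.1, mab_lat_of_eq (mab_lat_add h.2 h') (by abel)⟩
  · exact mab_inj₁ Pr hp hs h.1 h'.1 (mab_lat_of_eq (mab_lat_sub h.2 h'.2) (by abel))
  · obtain ⟨a, b, rfl⟩ := (mab_11 Pr _ _).1 h
    exact ⟨by simpa using h'.1, mab_lat_of_eq (mab_lat_add h'.2 (mab_pol₁ Pr p a b)) (by abel)⟩
  · rw [mab_11'] at h h' ⊢
    exact ⟨h'.1.trans h.1, mab_lat_of_eq (mab_lat_add h.2 h'.2) (by abel)⟩
  · obtain ⟨a, b, rfl⟩ := (mab_11 Pr _ _).1 h
    exact ⟨by simpa using h'.1, mab_lat_of_eq (mab_lat_add h'.2 (mab_pol₂ Pr p a b)) (by abel)⟩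
  · exact mab_inj₂ Pr hp hs h.1 h'.1 (mab_lat_of_eq (mab_lat_sub h.2 h'.2) (by abel))
  · exact ⟨h.1, mab_lat_of_eq (mab_lat_add h.2 h') (by abel)⟩
  · linarith [h.1, h'.1]
  · obtain ⟨a, b, rfl⟩ := (mab_11 Pr _ _).1 h'
    exact ⟨by simpa using h.1, mab_lat_of_eq (mab_lat_sub h.2 (mab_pol₂ Pr q a b)) (by abel)⟩
  · exact mab_lat_of_eq (mab_lat_sub h'.2 h.2) (by abel)
  · exact ⟨h'.1, mab_lat_of_eq (mab_lat_sub h'.2 h) (by abel)⟩
  · exact mab_lat_of_eq (mab_lat_add h h') (by abel)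

theorem Prof.rel_closed (i j : Fin 3) : IsClosed {z : Pr.U i × Pr.U j | Pr.rel i z.1 j z.2} := by
  have c1 : Continuous fun z : Pr.U i × Pr.U j => (z.1 : E) := by fun_prop
  have c2 : Continuous fun z : Pr.U i × Pr.U j => (z.2 : E) := by fun_prop
  have d1 : Continuous fun z : Pr.U i × Pr.U j => (z.1 : E) 0 := by fun_prop
  have d2 : Continuous fun z : Pr.U i × Pr.U j => (z.2 : E) 0 := by fun_prop
  rcases mab_fin3 i with rfl | rfl | rfl <;> rcases mab_fin3 j with rfl | rfl | rfl <;>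
    simp only [mab_00, mab_01, mab_02, mab_10, mab_11', mab_12, mab_20, mab_21, mab_22]
  · exact isClosed_lat.preimage (c2.sub c1)
  · exact (isClosed_le d2 continuous_const).inter
      (isClosed_lat.preimage (c1.sub ((mab_cont₁ Pr).comp c2)))
  · exact isClosed_empty
  · exact (isClosed_le d1 continuous_const).inter
      (isClosed_lat.preimage (c2.sub ((mab_cont₁ Pr).comp c1)))
  · exact (isClosed_eq d2 d1).inter (isClosed_lat.preimage (c2.sub c1))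
  · exact (isClosed_le continuous_const d1).inter
      (isClosed_lat.preimage (c2.sub ((mab_cont₂ Pr).comp c1)))
  · exact isClosed_empty
  · exact (isClosed_le continuous_const d2).inter
      (isClosed_lat.preimage (c1.sub ((mab_cont₂ Pr).comp c2)))
  · exact isClosed_lat.preimage (c2.sub c1)

theorem Prof.rel_disc (i : Fin 3) (p : E) :
    ∃ W ∈ 𝓝 p, ∀ a ∈ W, ∀ b ∈ W, Pr.rel i a i b → a = b := by
  refine ⟨Metric.ball p (1 / 2), Metric.ball_mem_nhds p (by norm_num), fun a ha b hb h => ?_⟩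
  have hl : lat (b - a) := by
    rcases mab_fin3 i with rfl | rfl | rfl
    · exact h
    · exact ((mab_11' Pr a b).1 h).2
    · exact h
  have hn : ‖b - a‖ < 1 := by
    rw [← dist_eq_norm]
    have := dist_triangle_right b a p
    rw [Metric.mem_ball] at ha hb
    linarith
  exact (sub_eq_zero.1 (lat_eq_zero hl hn)).symm

end Crest.Agent.R244
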