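import Crest.Agent.R244.NeckA
/-!
# R244: from the neck metric to the Hamiltonian system
With `g = h⁻¹` (`e = n/Δ`, `f = -k/Δ`, `h = m/Δ`): `g' = -g h' g`, `g'' = -g h'' g + 2 g h' g h' g`;
compute `deriv e`, `deriv (deriv e)` etc. by the quotient rule (as functions on `ℝ`), then
`field_simp; ring`. `(st …).P = e B₁ + f B₂ + (e' v₁ + f' v₂) A₀` identically.
-/

set_option autoImplicit false

open scoped ContDiff Manifold Topology
open Bundle Filter Set
open Crest.GeometryTopology.CoordMetric Crest.GeometryTopology.ChartCurvature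
  Crest.GeometryTopology.Geodesic

noncomputable section

namespace Crest.Agent.R244

/-- The coefficients of the neck metric. -/
def Tri.neckB_gE (H : Tri) : ℝ → ℝ := fun t => H.n t / H.Δ t

def Tri.neckB_gF (H : Tri) : ℝ → ℝ := fun t => -H.k t / H.Δ t

def Tri.neckB_gH (H : Tri) : ℝ → ℝ := fun t => H.m t / H.Δ t

namespace Tri.Good

variable {H : Tri} (h : H.Good)
include h

theorem neckB_Δ_ne (t : ℝ) : H.Δ t ≠ 0 := (h.det_pos t).ne'

theorem neckB_cΔ : ContDiff ℝ ∞ H.Δ := (h.cm.mul h.cn).sub (h.ck.pow 2)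

theorem neckB_ce : ContDiff ℝ ∞ H.neckB_gE := h.cn.div h.neckB_cΔ h.neckB_Δ_ne

theorem neckB_cf : ContDiff ℝ ∞ H.neckB_gF := h.ck.neg.div h.neckB_cΔ h.neckB_Δ_ne

theorem neckB_ch : ContDiff ℝ ∞ H.neckB_gH := h.cm.div h.neckB_cΔ h.neckB_Δ_ne

theorem neckB_e_pos (t : ℝ) : 0 < H.neckB_gE t :=
  div_pos ((mul_pos_iff_of_pos_left (h.m_pos t)).1
    (by linarith [h.det_pos t, sq_nonneg (H.k t)])) (h.det_pos t)

theorem neckB_d_pos (t : ℝ) : 0 < H.neckB_gE t * H.neckB_gH t - H.neckB_gF t ^ 2 := by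
  have h1 := h.neckB_Δ_ne t
  have : H.neckB_gE t * H.neckB_gH t - H.neckB_gF t ^ 2 = (H.Δ t)⁻¹ := by
    simp only [neckB_gE, neckB_gF, neckB_gH]
    field_simp
    simp only [Δ]
    ring
  rw [this]
  exact inv_pos.2 (h.det_pos t)

/-- `g' = -g h' g`. -/
theorem neckB_deriv_g : (deriv H.neckB_gE = fun t => -(H.neckB_gE t * (deriv H.m t * H.neckB_gE t + deriv H.k t * H.neckB_gF t) +
      H.neckB_gF t * (deriv H.k t * H.neckB_gE t + deriv H.n t * H.neckB_gF t))) ∧
    (deriv H.neckB_gF = fun t => -(H.neckB_gE t * (deriv H.m t * H.neckB_gF t + deriv H.k t * H.neckB_gH t) +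
      H.neckB_gF t * (deriv H.k t * H.neckB_gF t + deriv H.n t * H.neckB_gH t))) ∧
    (deriv H.neckB_gH = fun t => -(H.neckB_gF t * (deriv H.m t * H.neckB_gF t + deriv H.k t * H.neckB_gH t) +
      H.neckB_gH t * (deriv H.k t * H.neckB_gF t + deriv H.n t * H.neckB_gH t))) := by
  have dm := fun t => (h.cm.differentiable (by simp) t).hasDerivAt
  have dk := fun t => (h.ck.differentiable (by simp) t).hasDerivAt
  have dn := fun t => (h.cn.differentiable (by simp) t).hasDerivAt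
  have dΔ : ∀ t, HasDerivAt H.Δ _ t := fun t => ((dm t).mul (dn t)).sub ((dk t).pow 2)
  refine ⟨funext fun t => ?_, funext fun t => ?_, funext fun t => ?_⟩ <;> have := h.neckB_Δ_ne t
  · rw [show deriv H.neckB_gE t = _ from ((dn t).div (dΔ t) this).deriv]
    simp only [neckB_gE, neckB_gF]
    field_simp
    simp only [Δ]
    ring
  · rw [show deriv H.neckB_gF t = _ from ((dk t).neg.div (dΔ t) this).deriv]
    simp only [neckB_gE, neckB_gF, neckB_gH, Pi.neg_apply]
    field_simp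
    simp only [Δ]
    ring
  · rw [show deriv H.neckB_gH t = _ from ((dm t).div (dΔ t) this).deriv]
    simp only [neckB_gF, neckB_gH]
    field_simp
    simp only [Δ]
    ring

/-- `π' g'' π = -π' h'' π + 2 π' h' g h' π`. -/
theorem neckB_deriv2_g (t u v : ℝ) :
    deriv (deriv H.neckB_gE) t * u ^ 2 + 2 * deriv (deriv H.neckB_gF) t * u * v + deriv (deriv H.neckB_gH) t * v ^ 2 =
      -H.W2 t (H.neckB_gE t * u + H.neckB_gF t * v) (H.neckB_gF t * u + H.neckB_gH t * v) -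
        2 * ((deriv H.m t * (H.neckB_gE t * u + H.neckB_gF t * v) + deriv H.k t * (H.neckB_gF t * u + H.neckB_gH t * v)) *
          (deriv H.neckB_gE t * u + deriv H.neckB_gF t * v) +
        (deriv H.k t * (H.neckB_gE t * u + H.neckB_gF t * v) + deriv H.n t * (H.neckB_gF t * u + H.neckB_gH t * v)) *
          (deriv H.neckB_gF t * u + deriv H.neckB_gH t * v)) := by
  have d : ∀ {φ : ℝ → ℝ}, ContDiff ℝ ∞ φ → HasDerivAt φ (deriv φ t) t := fun hφ =>
    (hφ.differentiable (by simp) t).hasDerivAt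
  have de := d h.neckB_ce
  have df := d h.neckB_cf
  have dh := d h.neckB_ch
  have dm := d (φ := deriv H.m) h.cm.deriv'
  have dk := d (φ := deriv H.k) h.ck.deriv'
  have dn := d (φ := deriv H.n) h.cn.deriv'
  obtain ⟨e1, e2, e3⟩ := h.neckB_deriv_g
  have k1 := ((de.mul ((dm.mul de).add (dk.mul df))).add (df.mul ((dk.mul de).add (dn.mul df)))).neg.deriv
  have k2 := ((de.mul ((dm.mul df).add (dk.mul dh))).add (df.mul ((dk.mul df).add (dn.mul dh)))).neg.deriv
  have k3 := ((df.mul ((dm.mul df).add (dk.mul dh))).add (dh.mul ((dk.mul df).add (dn.mul dh)))).neg.deriv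
  rw [(congrArg (deriv · t) e1).trans k1, (congrArg (deriv · t) e2).trans k2,
    (congrArg (deriv · t) e3).trans k3]
  simp only [W2, Pi.add_apply, Pi.mul_apply]
  ring

end Tri.Good

theorem neckB_const {φ : ℝ → ℝ} {s : ℝ} (hφ : ∀ᶠ u in 𝓝 s, HasDerivAt φ 0 u) :
    ∀ᶠ u in 𝓝 s, φ u = φ s := by
  obtain ⟨r, hr, hb⟩ := Metric.eventually_nhds_iff_ball.1 hφ
  filter_upwards [Metric.ball_mem_nhds s hr] with u hu
  exact Metric.isOpen_ball.is_const_of_deriv_eq_zero (convex_ball s r).isPreconnected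
    (fun x hx => (hb x hx).differentiableAt.differentiableWithinAt) (fun x hx => (hb x hx).deriv) hu
    (Metric.mem_ball_self hr)

theorem Tri.Good.riemAt {H : Tri} (h : H.Good) (x : E) : RiemAt H.G x := by
  exact riemAt_diagG h.neckB_ce h.neckB_cf h.neckB_ch h.neckB_e_pos h.neckB_d_pos x

theorem Tri.Good.bil_eq {H : Tri} (h : H.Good) (x v A B : E) :
    Bil H.G x A A = H.hh (H.st x v A B) := by
  simp only [Tri.G, bil_diagG, Tri.hh, Tri.st]
  ring

theorem Tri.Good.mom_eq {H : Tri} (h : H.Good) (x v B : E) :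
    H.mom (H.st x v 0 B) = Bil H.G x B B := by
  have := h.neckB_Δ_ne (x 0)
  simp only [Tri.G, bil_diagG, Tri.mom, Tri.st, PiLp.zero_apply, mul_zero, sub_zero]
  field_simp
  simp only [Tri.Δ]
  ring

theorem Tri.st_add (H : Tri) (x v A B : E) (a b : ℝ) :
    H.st (x + !₂[0, a, b]) v A B = H.st x v A B := by
  simp [Tri.st]

theorem Tri.Good.flow {H : Tri} (h : H.Good) {c V : ℝ → E} {s : ℝ} (hJ : JacNear H.G c V s) :
    Flow H (fun u => H.st (c u) (deriv c u) (V u) (deriv V u)) s := by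
  obtain ⟨hc, hg, hV, hl⟩ := hJ.self_of_nhds
  obtain ⟨e1, e2, e3⟩ := h.neckB_deriv_g
  obtain ⟨d1, -⟩ := neckA_jet hc
  obtain ⟨D1, -⟩ := neckA_jet hV
  obtain ⟨g0, -, -⟩ := geo_diagG h.neckB_ce h.neckB_cf h.neckB_ch h.neckB_e_pos h.neckB_d_pos hc hg
  obtain ⟨l0, l1, l2⟩ := lin_diagG h.neckB_ce h.neckB_cf h.neckB_ch h.neckB_e_pos h.neckB_d_pos hc hg hV hl
  have hp : ∀ x v A B : E, (H.st x v A B).p = H.neckB_gE (x 0) * v 1 + H.neckB_gF (x 0) * v 2 := fun x v A B => by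
    simp only [Tri.st, Tri.neckB_gE, Tri.neckB_gF]; ring
  have hq : ∀ x v A B : E, (H.st x v A B).q = H.neckB_gF (x 0) * v 1 + H.neckB_gH (x 0) * v 2 := fun x v A B => by
    simp only [Tri.st, Tri.neckB_gF, Tri.neckB_gH]; ring
  have hP : ∀ x v A B : E, (H.st x v A B).P = H.neckB_gE (x 0) * B 1 + H.neckB_gF (x 0) * B 2 +
      (deriv H.neckB_gE (x 0) * v 1 + deriv H.neckB_gF (x 0) * v 2) * A 0 := fun x v A B => by
    simp only [e1, e2, Tri.st, Tri.neckB_gE, Tri.neckB_gF, Tri.neckB_gH]; ring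
  have hQ : ∀ x v A B : E, (H.st x v A B).Q = H.neckB_gF (x 0) * B 1 + H.neckB_gH (x 0) * B 2 +
      (deriv H.neckB_gF (x 0) * v 1 + deriv H.neckB_gH (x 0) * v 2) * A 0 := fun x v A B => by
    simp only [e2, e3, Tri.st, Tri.neckB_gE, Tri.neckB_gF, Tri.neckB_gH]; ring
  have hΔ := h.neckB_Δ_ne (c s 0)
  refine ⟨d1 0, g0.congr_deriv ?_, neckB_const ?_, neckB_const ?_, D1 0, l0.congr_deriv ?_,
    (D1 1).congr_deriv ?_, (D1 2).congr_deriv ?_, by simpa only [hP] using l1,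
    by simpa only [hQ] using l2⟩
  · simp only [Tri.V1, Tri.W1, hp, hq, e1, e2, e3]
    simp only [Tri.st]
    ring
  · filter_upwards [hJ] with u hu
    simpa only [hp] using (geo_diagG h.neckB_ce h.neckB_cf h.neckB_ch h.neckB_e_pos h.neckB_d_pos hu.1 hu.2.1).2.1
  · filter_upwards [hJ] with u hu
    simpa only [hq] using (geo_diagG h.neckB_ce h.neckB_cf h.neckB_ch h.neckB_e_pos h.neckB_d_pos hu.1 hu.2.1).2.2
  · simp only [Tri.V2, hp, hq, hP, hQ, h.neckB_deriv2_g]
    simp only [Tri.st, e1, e2, e3]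
    ring
  · simp only [Tri.st]
    field_simp
    simp only [Tri.Δ]
    ring
  · simp only [Tri.st]
    field_simp
    simp only [Tri.Δ]
    ring

end Crest.Agent.R244
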