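import Crest.Agent.R244.ModelA
import Crest.Agent.R244.NeckB
import Crest.Agent.R244.Isom
/-!
# R244: the gluing maps are orientation preserving isometries
For `t < -T`: `k = 0`, `n = n₀`, `1/m = (2π(b₁ - T - t))²`, so the neck metric is
`dt² + (2π(b₁-T-t))² dy² + dz²/n₀`, the pull-back of the flat metric by `pol₁`
(`det = -2π r r' > 0`). For `T < t`: `m = k = m₂`, the neck metric is
`dt² + (dz - dy)²/(n - m₂) + dy²/m₂`, the pull-back by `pol₂` (`det = 2π r r' > 0`).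
The reverse directions follow from `IsomAt.inverse`.
-/

set_option autoImplicit false

open scoped ContDiff Manifold Topology
open Bundle Filter Set
open Crest.GeometryTopology.CoordMetric Crest.GeometryTopology.ChartCurvature
  Crest.GeometryTopology.Geodesic

noncomputable section

namespace Crest.Agent.R244

variable (Pr : Prof)

theorem mb_riem_const {a b c : ℝ} (ha : 0 < a) (hb : 0 < b) (hc : 0 < c) (p : E) :
    RiemAt (fun _ => Matrix.diagonal ![a, b, c]) p := by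
  refine Eventually.of_forall fun y => ⟨fun i j => contDiffAt_const, ?_⟩
  refine Matrix.PosDef.diagonal fun i => ?_
  fin_cases i
  · exact ha
  · exact hb
  · exact hc

theorem mb_bil_const (a b c : ℝ) (x u v : E) :
    Bil (fun _ => Matrix.diagonal ![a, b, c]) x u v =
      a * u 0 * v 0 + b * u 1 * v 1 + c * u 2 * v 2 := by
  rw [Bil_apply]
  simp [Fin.sum_univ_three, Matrix.diagonal_apply]

theorem mb_det (L : E →L[ℝ] E) : LinearMap.det (L : E →ₗ[ℝ] E) =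
    (Matrix.of fun i j : Fin 3 => L (EuclideanSpace.single j 1) i).det := by
  rw [← LinearMap.det_toMatrix (EuclideanSpace.basisFun (Fin 3) ℝ).toBasis]
  congr 1

theorem mb_coord {F : E → E} {y : E} (hF : DifferentiableAt ℝ F y) (u : E) (i : Fin 3) :
    fderiv ℝ F y u i = fderiv ℝ (fun x => F x i) y u := by
  have h := ((EuclideanSpace.proj i : E →L[ℝ] ℝ).hasFDerivAt.comp y hF.hasFDerivAt).fderiv
  have e : (fun x => F x i) = (EuclideanSpace.proj i : E →L[ℝ] ℝ) ∘ F := rfl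
  rw [e, h]
  rfl

theorem mb_proj (y : E) (i : Fin 3) :
    HasFDerivAt (fun x : E => x i) (EuclideanSpace.proj i : E →L[ℝ] ℝ) y :=
  (EuclideanSpace.proj i : E →L[ℝ] ℝ).hasFDerivAt

theorem mb_cd_proj (i : Fin 3) : ContDiff ℝ ∞ (fun x : E => x i) :=
  (EuclideanSpace.proj i : E →L[ℝ] ℝ).contDiff

theorem mb_cd_pol₁ : ContDiff ℝ ∞ Pr.pol₁ := by
  have h0 := mb_cd_proj 0
  have h1 := mb_cd_proj 1
  have h2 := mb_cd_proj 2
  refine contDiff_euclidean.2 fun i => ?_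
  fin_cases i
  · exact ((contDiff_const.sub h0).div_const _).mul (contDiff_const.mul h1).sin
  · exact ((contDiff_const.sub h0).div_const _).mul (contDiff_const.mul h1).cos
  · exact h2

theorem mb_cd_pol₂ : ContDiff ℝ ∞ Pr.pol₂ := by
  have h0 := mb_cd_proj 0
  have h1 := mb_cd_proj 1
  have h2 := mb_cd_proj 2
  refine contDiff_euclidean.2 fun i => ?_
  fin_cases i
  · exact ((contDiff_const.add h0).div_const _).mul (contDiff_const.mul (h2.sub h1)).sin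
  · exact ((contDiff_const.add h0).div_const _).mul (contDiff_const.mul (h2.sub h1)).cos
  · exact h1

theorem mb_d_pol₁ (y u : E) :
    fderiv ℝ Pr.pol₁ y u 0 = -(u 0 / (4 * (Pr.b₁ + 1))) * Real.sin (2 * Real.pi * y 1) +
        Pr.r₁ (y 0) * Real.cos (2 * Real.pi * y 1) * (2 * Real.pi * u 1) ∧
      fderiv ℝ Pr.pol₁ y u 1 = -(u 0 / (4 * (Pr.b₁ + 1))) * Real.cos (2 * Real.pi * y 1) -
        Pr.r₁ (y 0) * Real.sin (2 * Real.pi * y 1) * (2 * Real.pi * u 1) ∧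
      fderiv ℝ Pr.pol₁ y u 2 = u 2 := by
  have hd : DifferentiableAt ℝ Pr.pol₁ y := (mb_cd_pol₁ Pr).differentiable (by simp) y
  have hr : HasFDerivAt (fun x : E => Pr.r₁ (x 0)) _ y :=
    ((mb_proj y 0).const_sub (Pr.b₁ - Pr.T)).mul_const (4 * (Pr.b₁ + 1))⁻¹
  have ha := (mb_proj y 1).const_mul (2 * Real.pi)
  refine ⟨?_, ?_, ?_⟩
  · rw [mb_coord hd]
    have h : fderiv ℝ (fun x => Pr.pol₁ x 0) y = _ := (hr.mul ha.sin).fderiv
    rw [h, div_eq_mul_inv]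
    simp [-mul_inv_rev]
    ring
  · rw [mb_coord hd]
    have h : fderiv ℝ (fun x => Pr.pol₁ x 1) y = _ := (hr.mul ha.cos).fderiv
    rw [h, div_eq_mul_inv]
    simp [-mul_inv_rev]
    ring
  · rw [mb_coord hd]
    have h : fderiv ℝ (fun x => Pr.pol₁ x 2) y = _ := (mb_proj y 2).fderiv
    rw [h]
    rfl

theorem mb_d_pol₂ (y u : E) :
    fderiv ℝ Pr.pol₂ y u 0 = u 0 / (4 * (Pr.b₂ + 1)) * Real.sin (2 * Real.pi * (y 2 - y 1)) +
        Pr.r₂ (y 0) * Real.cos (2 * Real.pi * (y 2 - y 1)) * (2 * Real.pi * (u 2 - u 1)) ∧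
      fderiv ℝ Pr.pol₂ y u 1 = u 0 / (4 * (Pr.b₂ + 1)) * Real.cos (2 * Real.pi * (y 2 - y 1)) -
        Pr.r₂ (y 0) * Real.sin (2 * Real.pi * (y 2 - y 1)) * (2 * Real.pi * (u 2 - u 1)) ∧
      fderiv ℝ Pr.pol₂ y u 2 = u 1 := by
  have hd : DifferentiableAt ℝ Pr.pol₂ y := (mb_cd_pol₂ Pr).differentiable (by simp) y
  have hr : HasFDerivAt (fun x : E => Pr.r₂ (x 0)) _ y :=
    ((mb_proj y 0).const_add (Pr.b₂ - Pr.T)).mul_const (4 * (Pr.b₂ + 1))⁻¹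
  have ha := ((mb_proj y 2).sub (mb_proj y 1)).const_mul (2 * Real.pi)
  refine ⟨?_, ?_, ?_⟩
  · rw [mb_coord hd]
    have h : fderiv ℝ (fun x => Pr.pol₂ x 0) y = _ := (hr.mul ha.sin).fderiv
    rw [h, div_eq_mul_inv]
    simp [-mul_inv_rev]
    ring
  · rw [mb_coord hd]
    have h : fderiv ℝ (fun x => Pr.pol₂ x 1) y = _ := (hr.mul ha.cos).fderiv
    rw [h, div_eq_mul_inv]
    simp [-mul_inv_rev]
    ring
  · rw [mb_coord hd]
    have h : fderiv ℝ (fun x => Pr.pol₂ x 2) y = _ := (mb_proj y 1).fderiv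
    rw [h]
    rfl

theorem mb_inv {G G' : MF} {ψ : E → E} {p : E} (h : IsomAt G G' ψ p) (hG : RiemAt G p)
    (hd : ∀ᶠ y in 𝓝 p, 0 < LinearMap.det (fderiv ℝ ψ y : E →ₗ[ℝ] E)) {R : E → Prop}
    (hR : ∀ᶠ y in 𝓝 p, R y) :
    ∃ φ : E → E, φ (ψ p) = p ∧ IsomAt G' G φ (ψ p) ∧ ∀ᶠ z in 𝓝 (ψ p),
      (R (φ z) ∧ ψ (φ z) = z) ∧ 0 < LinearMap.det (fderiv ℝ φ z : E →ₗ[ℝ] E) := by
  obtain ⟨φ, h1, h2, -, h4⟩ := h.inverse hG
  refine ⟨φ, h1, h2, ?_⟩
  have hc : Tendsto φ (𝓝 (ψ p)) (𝓝 p) := by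
    have := h2.self_of_nhds.1.continuousAt
    rwa [ContinuousAt, h1] at this
  filter_upwards [hc.eventually hR, hc.eventually hd, hc.eventually h, h2, h4.eventually_nhds]
    with z k1 k2 k3 k4 k5
  refine ⟨⟨k1, k5.self_of_nhds⟩, ?_⟩
  have e : (ψ ∘ φ) =ᶠ[𝓝 z] id := k5
  have e2 := fderiv_comp z (k3.1.differentiableAt (by simp)) (k4.1.differentiableAt (by simp))
  rw [e.fderiv_eq, fderiv_id] at e2
  have e3 : (1 : ℝ) = LinearMap.det (fderiv ℝ ψ (φ z) : E →ₗ[ℝ] E) *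
      LinearMap.det (fderiv ℝ φ z : E →ₗ[ℝ] E) := by
    rw [← LinearMap.det_comp, ← LinearMap.det_id (M := E) (A := ℝ)]
    exact congrArg (fun L : E →L[ℝ] E => LinearMap.det (L : E →ₗ[ℝ] E)) e2
  by_contra hn
  have := mul_nonpos_of_nonneg_of_nonpos k2.le (not_lt.1 hn)
  linarith

theorem mb_transl {G : MF} {w : E} (hw : ∀ y, G (y + w) = G y) (p : E) :
    IsomAt G G (fun y => y + w) p ∧
      ∀ y, 0 < LinearMap.det (fderiv ℝ (fun y => y + w) y : E →ₗ[ℝ] E) := by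
  have e : ∀ y : E, fderiv ℝ (fun y => y + w) y = ContinuousLinearMap.id ℝ E := fun y =>
    ((hasFDerivAt_id y).add_const w).fderiv
  refine ⟨Eventually.of_forall fun y => ⟨contDiffAt_id.add contDiffAt_const, fun u v => ?_⟩,
    fun y => ?_⟩
  · rw [e, Bil_apply, Bil_apply, hw]
    rfl
  · rw [e]
    simp

theorem Prof.riem_G (i : Fin 3) (p : E) : RiemAt (Pr.G i) p := by
  have h1 := Pr.hb₁
  have h2 := Pr.hb₂
  have h3 := Pr.n₀_pos
  have h4 := Pr.m₂_pos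
  fin_cases i
  · exact mb_riem_const (by positivity) (by positivity) (by positivity) p
  · exact Pr.good.riemAt p
  · exact mb_riem_const (by positivity) (by positivity) (by positivity) p

theorem Prof.isom_pol₁ {p : E} (h : p 0 < -Pr.T) (w : E) :
    IsomAt (Pr.G 1) (Pr.G 0) (fun y => Pr.pol₁ y + w) p ∧
      ∀ᶠ y in 𝓝 p, 0 < LinearMap.det (fderiv ℝ (fun y => Pr.pol₁ y + w) y : E →ₗ[ℝ] E) := by
  have hev : ∀ᶠ y : E in 𝓝 p, y 0 < -Pr.T :=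
    (mb_cd_proj 0).continuous.continuousAt.eventually_lt continuousAt_const h
  have hb := Pr.hb₁
  have hn := Pr.n₀_pos
  have hpi := Real.pi_pos
  refine ⟨?_, ?_⟩
  · filter_upwards [hev] with y hy
    refine ⟨(mb_cd_pol₁ Pr).contDiffAt.add contDiffAt_const, fun u v => ?_⟩
    rw [fderiv_add_const]
    obtain ⟨a0, a1, a2⟩ := mb_d_pol₁ Pr y u
    obtain ⟨b0, b1, b2⟩ := mb_d_pol₁ Pr y v
    obtain ⟨hk, hn'⟩ := Pr.left (y 0) (by linarith [Pr.ht₁])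
    have hm := Pr.flat₁ (y 0) hy.le
    have hρ : 0 < Pr.b₁ - Pr.T - y 0 := by linarith
    have e1 : Pr.G 0 = fun _ => Matrix.diagonal
      ![(4 * (Pr.b₁ + 1)) ^ 2, (4 * (Pr.b₁ + 1)) ^ 2, 1 / Pr.n₀] := rfl
    have e2 : Pr.G 1 = diagG (fun t => Pr.H.n t / Pr.H.Δ t) (fun t => -Pr.H.k t / Pr.H.Δ t)
      (fun t => Pr.H.m t / Pr.H.Δ t) := rfl
    have hΔ : Pr.H.Δ (y 0) = Pr.n₀ * (1 / (2 * Real.pi * (Pr.b₁ - Pr.T - y 0)) ^ 2) := by
      rw [← hm, Tri.Δ, hn', hk]; ring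
    rw [e1, e2, mb_bil_const, bil_diagG, a0, a1, a2, b0, b1, b2]
    simp only [hΔ, Prof.r₁, hk, hn', hm]
    have hs := Real.sin_sq_add_cos_sq (2 * Real.pi * y 1)
    generalize Real.sin (2 * Real.pi * y 1) = S at *
    generalize Real.cos (2 * Real.pi * y 1) = C at *
    generalize Pr.b₁ - Pr.T - y 0 = ρ at *
    field_simp
    linear_combination (Pr.n₀ * (u 0 * v 0 + ρ ^ 2 * 2 ^ 2 * Real.pi ^ 2 * u 1 * v 1)) * hs
  · filter_upwards [hev] with y hy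
    rw [fderiv_add_const, mb_det, Matrix.det_fin_three]
    simp only [Matrix.of_apply, (mb_d_pol₁ Pr y _).1, (mb_d_pol₁ Pr y _).2.1,
      (mb_d_pol₁ Pr y _).2.2]
    have hρ : 0 < Pr.r₁ (y 0) := div_pos (by linarith) (by positivity)
    have hs := Real.sin_sq_add_cos_sq (2 * Real.pi * y 1)
    have hp : 0 < (4 * (Pr.b₁ + 1))⁻¹ * Pr.r₁ (y 0) * (2 * Real.pi) := by positivity
    simp
    have : (4 * (Pr.b₁ + 1))⁻¹ = (Pr.b₁ + 1)⁻¹ * 4⁻¹ := by simp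
    rw [this] at hp
    nlinarith [hp, hs]

theorem Prof.isom_pol₂ {p : E} (h : Pr.T < p 0) (w : E) :
    IsomAt (Pr.G 1) (Pr.G 2) (fun y => Pr.pol₂ y + w) p ∧
      ∀ᶠ y in 𝓝 p, 0 < LinearMap.det (fderiv ℝ (fun y => Pr.pol₂ y + w) y : E →ₗ[ℝ] E) := by
  have hev : ∀ᶠ y : E in 𝓝 p, Pr.T < y 0 :=
    continuousAt_const.eventually_lt (mb_cd_proj 0).continuous.continuousAt h
  have hb := Pr.hb₂
  have hn := Pr.m₂_pos
  have hpi := Real.pi_pos
  refine ⟨?_, ?_⟩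
  · filter_upwards [hev] with y hy
    refine ⟨(mb_cd_pol₂ Pr).contDiffAt.add contDiffAt_const, fun u v => ?_⟩
    rw [fderiv_add_const]
    obtain ⟨a0, a1, a2⟩ := mb_d_pol₂ Pr y u
    obtain ⟨b0, b1, b2⟩ := mb_d_pol₂ Pr y v
    obtain ⟨hm, hk⟩ := Pr.right (y 0) (by linarith [Pr.ht₂])
    have hn' := Pr.flat₂ (y 0) hy.le
    have hρ : 0 < Pr.b₂ - Pr.T + y 0 := by linarith
    have e1 : Pr.G 2 = fun _ => Matrix.diagonal
      ![(4 * (Pr.b₂ + 1)) ^ 2, (4 * (Pr.b₂ + 1)) ^ 2, 1 / Pr.m₂] := rfl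
    have e2 : Pr.G 1 = diagG (fun t => Pr.H.n t / Pr.H.Δ t) (fun t => -Pr.H.k t / Pr.H.Δ t)
      (fun t => Pr.H.m t / Pr.H.Δ t) := rfl
    have hΔ : Pr.H.Δ (y 0) = Pr.m₂ * (1 / (2 * Real.pi * (Pr.b₂ - Pr.T + y 0)) ^ 2) := by
      rw [← hn', Tri.Δ, hm, hk]; ring
    have hn2 : Pr.H.n (y 0) = Pr.m₂ + 1 / (2 * Real.pi * (Pr.b₂ - Pr.T + y 0)) ^ 2 := by
      linarith
    rw [e1, e2, mb_bil_const, bil_diagG, a0, a1, a2, b0, b1, b2]
    simp only [hΔ, Prof.r₂, hk, hn2, hm]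
    have hs := Real.sin_sq_add_cos_sq (2 * Real.pi * (y 2 - y 1))
    generalize Real.sin (2 * Real.pi * (y 2 - y 1)) = S at *
    generalize Real.cos (2 * Real.pi * (y 2 - y 1)) = C at *
    generalize Pr.b₂ - Pr.T + y 0 = ρ at *
    field_simp
    linear_combination
      (Pr.m₂ * (u 0 * v 0 + ρ ^ 2 * 2 ^ 2 * Real.pi ^ 2 * (u 2 - u 1) * (v 2 - v 1))) * hs
  · filter_upwards [hev] with y hy
    rw [fderiv_add_const, mb_det, Matrix.det_fin_three]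
    simp only [Matrix.of_apply, (mb_d_pol₂ Pr y _).1, (mb_d_pol₂ Pr y _).2.1,
      (mb_d_pol₂ Pr y _).2.2]
    have hρ : 0 < Pr.r₂ (y 0) := div_pos (by linarith) (by positivity)
    have hs := Real.sin_sq_add_cos_sq (2 * Real.pi * (y 2 - y 1))
    have hp : 0 < (4 * (Pr.b₂ + 1))⁻¹ * Pr.r₂ (y 0) * (2 * Real.pi) := by positivity
    simp
    have : (4 * (Pr.b₂ + 1))⁻¹ = (Pr.b₂ + 1)⁻¹ * 4⁻¹ := by simp
    rw [this] at hp
    nlinarith [hp, hs]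

theorem Prof.rel_loc (i j : Fin 3) {p q : E} (hp : p ∈ Pr.U i) (hq : q ∈ Pr.U j)
    (h : Pr.rel i p j q) : ∃ ψ : E → E, ψ p = q ∧ IsomAt (Pr.G i) (Pr.G j) ψ p ∧
      ∀ᶠ y in 𝓝 p, Pr.rel i y j (ψ y) ∧ 0 < LinearMap.det (fderiv ℝ ψ y : E →ₗ[ℝ] E) := by
  fin_cases i <;> fin_cases j
  · have h' : lat (q - p) := h
    obtain ⟨k1, k2⟩ := mb_transl (G := Pr.G 0) (w := q - p) (fun _ => rfl) p
    refine ⟨fun y => y + (q - p), by simp, k1, Eventually.of_forall fun y => ⟨?_, k2 y⟩⟩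
    show lat (y + (q - p) - y)
    rwa [add_sub_cancel_left]
  · have h' : Pr.rel 1 q 0 p := h
    have hlt := Pr.lt_of_rel₀ hp h'
    have hev : ∀ᶠ y : E in 𝓝 q, y 0 < -Pr.T :=
      (mb_cd_proj 0).continuous.continuousAt.eventually_lt continuousAt_const hlt
    obtain ⟨k1, k2⟩ := Pr.isom_pol₁ hlt (p - Pr.pol₁ q)
    obtain ⟨φ, f1, f2, f3⟩ := mb_inv k1 (Pr.riem_G 1 q) k2 hev
    simp only [add_sub_cancel] at f1 f2 f3
    refine ⟨φ, f1, f2, f3.mono fun z hz => ⟨⟨hz.1.1.le, ?_⟩, hz.2⟩⟩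
    have e : z - Pr.pol₁ (φ z) = p - Pr.pol₁ q := by
      rw [sub_eq_iff_eq_add']; exact hz.1.2.symm
    rw [e]
    exact h'.2
  · exact h.elim
  · have h' : Pr.rel 1 p 0 q := h
    have hlt := Pr.lt_of_rel₀ hq h'
    have hev : ∀ᶠ y : E in 𝓝 p, y 0 < -Pr.T :=
      (mb_cd_proj 0).continuous.continuousAt.eventually_lt continuousAt_const hlt
    obtain ⟨k1, k2⟩ := Pr.isom_pol₁ hlt (q - Pr.pol₁ p)
    refine ⟨_, by simp, k1, ?_⟩
    filter_upwards [hev, k2] with y h1 h2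
    refine ⟨⟨h1.le, ?_⟩, h2⟩
    rw [add_sub_cancel_left]
    exact h'.2
  · obtain ⟨a, b, hab⟩ : ∃ a b : ℤ, q = p + !₂[(0 : ℝ), a, b] := h
    obtain ⟨k1, k2⟩ := mb_transl (G := Pr.G 1) (w := !₂[(0 : ℝ), a, b]) (fun y => by
      have e : (y + !₂[(0 : ℝ), a, b]) 0 = y 0 := by simp
      show Pr.H.G (y + !₂[(0 : ℝ), a, b]) = Pr.H.G y
      unfold Tri.G diagG
      rw [e]) p
    exact ⟨fun y => y + !₂[(0 : ℝ), a, b], hab.symm, k1,
      Eventually.of_forall fun y => ⟨⟨a, b, rfl⟩, k2 y⟩⟩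
  · have h' : Pr.rel 1 p 2 q := h
    have hlt := Pr.lt_of_rel₂ hq h'
    have hev : ∀ᶠ y : E in 𝓝 p, Pr.T < y 0 :=
      continuousAt_const.eventually_lt (mb_cd_proj 0).continuous.continuousAt hlt
    obtain ⟨k1, k2⟩ := Pr.isom_pol₂ hlt (q - Pr.pol₂ p)
    refine ⟨_, by simp, k1, ?_⟩
    filter_upwards [hev, k2] with y h1 h2
    refine ⟨⟨h1.le, ?_⟩, h2⟩
    rw [add_sub_cancel_left]
    exact h'.2
  · exact h.elim
  · have h' : Pr.rel 1 q 2 p := h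
    have hlt := Pr.lt_of_rel₂ hp h'
    have hev : ∀ᶠ y : E in 𝓝 q, Pr.T < y 0 :=
      continuousAt_const.eventually_lt (mb_cd_proj 0).continuous.continuousAt hlt
    obtain ⟨k1, k2⟩ := Pr.isom_pol₂ hlt (p - Pr.pol₂ q)
    obtain ⟨φ, f1, f2, f3⟩ := mb_inv k1 (Pr.riem_G 1 q) k2 hev
    simp only [add_sub_cancel] at f1 f2 f3
    refine ⟨φ, f1, f2, f3.mono fun z hz => ⟨⟨hz.1.1.le, ?_⟩, hz.2⟩⟩
    have e : z - Pr.pol₂ (φ z) = p - Pr.pol₂ q := by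
      rw [sub_eq_iff_eq_add']; exact hz.1.2.symm
    rw [e]
    exact h'.2
  · have h' : lat (q - p) := h
    obtain ⟨k1, k2⟩ := mb_transl (G := Pr.G 2) (w := q - p) (fun _ => rfl) p
    refine ⟨fun y => y + (q - p), by simp, k1, Eventually.of_forall fun y => ⟨?_, k2 y⟩⟩
    show lat (y + (q - p) - y)
    rwa [add_sub_cancel_left]

/-- The gluing data of the model. -/
def Prof.glue : Glue where
  U := Pr.U
  G := Pr.G
  r := Pr.rel
  p₀ := !₂[1 / 2, 1 / 2, 0]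
  mem₀ := Pr.grid_subset₀ (Or.inl ⟨0, by simp⟩)
  isOpen := Pr.isOpen_U
  riem i p _ := Pr.riem_G i p
  refl i p _ := Pr.rel_refl i p
  symm i j p _ q _ h := Pr.rel_symm i j p q h
  trans i j k _ hp _ hq _ hs h h' := Pr.rel_trans i j k hp hq hs h h'
  closed := Pr.rel_closed
  loc i j _ hp _ hq h := Pr.rel_loc i j hp hq h
  disc i p _ := Pr.rel_disc i p

end Crest.Agent.R244
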