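import Crest.Agent.R244.Defs
/-!
# R244: definitions for the model
`Glue`: three open subsets of `ℝ³` with metrics, glued along an equivalence relation.
`Tri`: the inverse metric `[[m,k],[k,n]](t)` of the neck `dt² + g_t` on the torus.
`St`: a state of the linearised Hamiltonian flow of the neck; the quadratic forms on states.
`Prof`: the profile functions with all the properties used.
-/

set_option autoImplicit false

open scoped ContDiff Manifold Topology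
open Bundle Filter Set
open Crest.GeometryTopology.CoordMetric Crest.GeometryTopology.ChartCurvature
  Crest.GeometryTopology.Geodesic

noncomputable section

namespace Crest.Agent.R244

/-- Gluing data. -/
structure Glue where
  U : Fin 3 → Set E
  G : Fin 3 → MF
  r : Fin 3 → E → Fin 3 → E → Prop
  p₀ : E
  mem₀ : p₀ ∈ U 0
  isOpen : ∀ i, IsOpen (U i)
  riem : ∀ i, ∀ p ∈ U i, RiemAt (G i) p
  refl : ∀ i, ∀ p ∈ U i, r i p i p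
  symm : ∀ i j, ∀ p ∈ U i, ∀ q ∈ U j, r i p j q → r j q i p
  trans : ∀ i j k, ∀ p ∈ U i, ∀ q ∈ U j, ∀ s ∈ U k, r i p j q → r j q k s → r i p k s
  closed : ∀ i j, IsClosed {z : U i × U j | r i z.1 j z.2}
  loc : ∀ i j, ∀ p ∈ U i, ∀ q ∈ U j, r i p j q → ∃ ψ : E → E, ψ p = q ∧ IsomAt (G i) (G j) ψ p ∧
    ∀ᶠ y in 𝓝 p, r i y j (ψ y) ∧ 0 < LinearMap.det (fderiv ℝ ψ y : E →ₗ[ℝ] E)
  disc : ∀ i, ∀ p ∈ U i, ∃ W ∈ 𝓝 p, ∀ a ∈ W, ∀ b ∈ W, r i a i b → a = b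

/-- `M` is the glued space, with projections `pm i`. -/
structure Glue.TopSpec (D : Glue) {M : Type} [TopologicalSpace M] (pm : Fin 3 → E → M) : Prop where
  cont : ∀ i, ContinuousOn (pm i) (D.U i)
  surj : ∀ x, ∃ i, ∃ p ∈ D.U i, pm i p = x
  rel : ∀ i j, ∀ p ∈ D.U i, ∀ q ∈ D.U j, pm i p = pm j q ↔ D.r i p j q
  isOpen : ∀ i (W : Set E), IsOpen W → W ⊆ D.U i → IsOpen (pm i '' W)

/-- The preferred charts are local inverses of the projections. -/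
structure Glue.ChartSpec (D : Glue) {M : Type} [TopologicalSpace M] [ChartedSpace E M]
    (pm : Fin 3 → E → M) (ix : M → Fin 3) : Prop where
  target : ∀ x, (chartAt E x).target ⊆ D.U (ix x)
  symm : ∀ x, ∀ y ∈ (chartAt E x).target, (chartAt E x).symm y = pm (ix x) y
  atlas : ∀ e ∈ atlas E M, ∃ x, e = chartAt E x

/-- The metric `dt² + e dy² + 2 f dy dz + h dz²` with coefficients depending on `t = x 0`. -/
def diagG (e f h : ℝ → ℝ) : MF := fun x =>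
  !![1, 0, 0; 0, e (x 0), f (x 0); 0, f (x 0), h (x 0)]

/-- The inverse metric of the neck. -/
structure Tri where
  m : ℝ → ℝ
  k : ℝ → ℝ
  n : ℝ → ℝ

/-- A state: position `t`, momenta `τ, p, q`, variation `a, y, z` of the position and
`b, P, Q` of the momenta. -/
structure St where
  t : ℝ
  τ : ℝ
  p : ℝ
  q : ℝ
  a : ℝ
  b : ℝ
  y : ℝ
  z : ℝ
  P : ℝ
  Q : ℝ

namespace Tri

variable (H : Tri)

/-- Smooth and positive definite. -/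
structure Good : Prop where
  cm : ContDiff ℝ ∞ H.m
  ck : ContDiff ℝ ∞ H.k
  cn : ContDiff ℝ ∞ H.n
  m_pos : ∀ t, 0 < H.m t
  det_pos : ∀ t, 0 < H.m t * H.n t - H.k t ^ 2

def Δ (t : ℝ) : ℝ := H.m t * H.n t - H.k t ^ 2

/-- The neck metric. -/
def G : MF := diagG (fun t => H.n t / H.Δ t) (fun t => -H.k t / H.Δ t) (fun t => H.m t / H.Δ t)

/-- The same data in the coordinates `(z - y, y)` of the second piece. -/
def tw : Tri := ⟨fun t => H.m t - 2 * H.k t + H.n t, fun t => H.k t - H.m t, H.m⟩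

/-- First `t`-derivative of the potential `m p² + 2 k p q + n q²`. -/
def W1 (t p q : ℝ) : ℝ := deriv H.m t * p ^ 2 + 2 * deriv H.k t * p * q + deriv H.n t * q ^ 2

/-- Second `t`-derivative of the potential. -/
def W2 (t p q : ℝ) : ℝ :=
  deriv (deriv H.m) t * p ^ 2 + 2 * deriv (deriv H.k) t * p * q + deriv (deriv H.n) t * q ^ 2

/-- The derivative of `n - k²/m`. -/
def inv1 (t : ℝ) : ℝ :=
  deriv H.n t - 2 * H.k t * deriv H.k t / H.m t + deriv H.m t * H.k t ^ 2 / H.m t ^ 2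

def V1 (σ : St) : ℝ := H.W1 σ.t σ.p σ.q

def V2 (σ : St) : ℝ := H.W2 σ.t σ.p σ.q

def nu (σ : St) : ℝ := H.m σ.t * σ.p + H.k σ.t * σ.q

def NN (σ : St) : ℝ := σ.τ ^ 2 * H.m σ.t + H.nu σ ^ 2

def AL (σ : St) : ℝ :=
  (σ.τ * σ.y ^ 2 - 2 * H.nu σ * σ.a * σ.y - σ.τ * H.m σ.t * σ.a ^ 2) / (2 * H.NN σ)

/-- Squared norm of the variation of the momenta. -/
def mom (σ : St) : ℝ :=
  σ.b ^ 2 + H.m σ.t * σ.P ^ 2 + 2 * H.k σ.t * σ.P * σ.Q + H.n σ.t * σ.Q ^ 2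

/-- Squared norm of the variation of the position. -/
def hh (σ : St) : ℝ :=
  σ.a ^ 2 + (H.n σ.t * σ.y ^ 2 - 2 * H.k σ.t * σ.y * σ.z + H.m σ.t * σ.z ^ 2) / H.Δ σ.t

/-- The lowered variation `g (y, z)`. -/
def lY (σ : St) : ℝ := (H.n σ.t * σ.y - H.k σ.t * σ.z) / H.Δ σ.t

def lZ (σ : St) : ℝ := (H.m σ.t * σ.z - H.k σ.t * σ.y) / H.Δ σ.t

/-- Half the derivative of `hh` along the flow, i.e. `⟨DJ, J⟩`. -/
def Rg (σ : St) : ℝ :=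
  σ.P * σ.y + σ.Q * σ.z + σ.a * σ.b - σ.τ * H.W1 σ.t (H.lY σ) (H.lZ σ) / 2 +
    σ.a * (deriv H.m σ.t * H.lY σ * σ.p + deriv H.k σ.t * (H.lY σ * σ.q + H.lZ σ * σ.p) +
      deriv H.n σ.t * H.lZ σ * σ.q)

/-- The state of a 1-jet `(x, v)` of a geodesic and a 1-jet `(A, B)` of a field along it. -/
def st (x v A B : E) : St :=
  let t := x 0
  let p := (H.n t * v 1 - H.k t * v 2) / H.Δ t
  let q := (H.m t * v 2 - H.k t * v 1) / H.Δ t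
  let B₁ := B 1 - (deriv H.m t * p + deriv H.k t * q) * A 0
  let B₂ := B 2 - (deriv H.k t * p + deriv H.n t * q) * A 0
  ⟨t, v 0, p, q, A 0, B 0, A 1, A 2, (H.n t * B₁ - H.k t * B₂) / H.Δ t,
    (H.m t * B₂ - H.k t * B₁) / H.Δ t⟩

end Tri

def St.Q0 (σ : St) : ℝ := σ.P * σ.y + σ.Q * σ.z + σ.a * σ.b

/-- A state in the coordinates `(z - y, y)`. -/
def St.tw (σ : St) : St :=
  ⟨σ.t, σ.τ, σ.q, σ.p + σ.q, σ.a, σ.b, σ.z - σ.y, σ.y, σ.Q, σ.P + σ.Q⟩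

/-- The linearised Hamiltonian system of the neck at the parameter `s`. -/
structure Flow (H : Tri) (σ : ℝ → St) (s : ℝ) : Prop where
  t : HasDerivAt (fun u => (σ u).t) (σ s).τ s
  τ : HasDerivAt (fun u => (σ u).τ) (-H.V1 (σ s) / 2) s
  p : ∀ᶠ u in 𝓝 s, (σ u).p = (σ s).p
  q : ∀ᶠ u in 𝓝 s, (σ u).q = (σ s).q
  a : HasDerivAt (fun u => (σ u).a) (σ s).b s
  b : HasDerivAt (fun u => (σ u).b) (-H.V2 (σ s) * (σ s).a / 2 -
    (deriv H.m (σ s).t * (σ s).p * (σ s).P +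
      deriv H.k (σ s).t * ((σ s).p * (σ s).Q + (σ s).q * (σ s).P) +
      deriv H.n (σ s).t * (σ s).q * (σ s).Q)) s
  y : HasDerivAt (fun u => (σ u).y) (H.m (σ s).t * (σ s).P + H.k (σ s).t * (σ s).Q +
    (deriv H.m (σ s).t * (σ s).p + deriv H.k (σ s).t * (σ s).q) * (σ s).a) s
  z : HasDerivAt (fun u => (σ u).z) (H.k (σ s).t * (σ s).P + H.n (σ s).t * (σ s).Q +
    (deriv H.k (σ s).t * (σ s).p + deriv H.n (σ s).t * (σ s).q) * (σ s).a) s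
  P : HasDerivAt (fun u => (σ u).P) 0 s
  Q : HasDerivAt (fun u => (σ u).Q) 0 s

/-- The profile of the neck. -/
structure Prof where
  H : Tri
  χ : ℝ → ℝ
  T : ℝ
  b₁ : ℝ
  b₂ : ℝ
  n₀ : ℝ
  m₂ : ℝ
  t₁ : ℝ
  t₂ : ℝ
  good : H.Good
  cχ : ContDiff ℝ ∞ χ
  hb₁ : 0 < b₁
  hb₂ : 0 < b₂
  ht₁ : -T < t₁
  ht : t₁ < t₂
  ht₂ : t₂ < T
  left : ∀ t, t ≤ t₁ → H.k t = 0 ∧ H.n t = n₀
  right : ∀ t, t₂ ≤ t → H.m t = m₂ ∧ H.k t = m₂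
  flat₁ : ∀ t, t ≤ -T → H.m t = 1 / (2 * Real.pi * (b₁ - T - t)) ^ 2
  flat₂ : ∀ t, T ≤ t → H.n t - m₂ = 1 / (2 * Real.pi * (b₂ - T + t)) ^ 2
  curv₁ : ∀ t, t < t₁ → 2 * H.m t * deriv (deriv H.m) t ≤ 3 * deriv H.m t ^ 2
  curv₂ : ∀ t, t₂ < t → 2 * (H.n t - m₂) * deriv (deriv H.n) t ≤ 3 * deriv H.n t ^ 2
  m_mono : ∀ t, 0 ≤ deriv H.m t
  n_anti : ∀ t, deriv H.n t ≤ 0
  invL : ∀ t, H.inv1 t ≤ 0 ∧ (H.k t ≠ 0 → H.inv1 t < 0)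
  invR : ∀ t, 0 ≤ H.tw.inv1 t ∧ (H.tw.k t ≠ 0 → 0 < H.tw.inv1 t)
  χ_nonneg : ∀ t, 0 ≤ χ t
  χ_le : ∀ t, χ t ≤ 1
  χ_zero : ∀ t, T ≤ |t| → χ t = 0
  χ_one : ∀ t, t₁ ≤ t → t ≤ t₂ → χ t = 1 ∧ deriv χ t = 0
  χ_left : ∀ t, t < t₁ → 0 ≤ deriv χ t
  χ_right : ∀ t, t₂ < t → deriv χ t ≤ 0
  conc : ∀ t, χ t ≠ 0 → ∀ p q, H.W2 t p q ≤ 0
  kR : ∀ t, χ t ≠ 0 → ∀ p q, H.W1 t p q ≤ 0 →
    0 ≤ -H.W2 t p q * H.tw.m t + H.W1 t p q * deriv H.tw.m t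

/-- Integer vectors. -/
def lat (v : E) : Prop := ∃ a b c : ℤ, v = !₂[(a : ℝ), b, c]

namespace Prof

variable (Pr : Prof)

/-- The correction to `⟨DJ, J⟩` in the neck. -/
def extra (σ : St) : ℝ :=
  Pr.χ σ.t * (σ.Q0 - max (Pr.H.V1 σ) 0 * Pr.H.AL σ - min (Pr.H.V1 σ) 0 * Pr.H.tw.AL σ.tw -
    Pr.H.Rg σ)

/-- The monotone quantity in the neck. -/
def om (σ : St) : ℝ := Pr.H.Rg σ + Pr.extra σ

def r₁ (t : ℝ) : ℝ := (Pr.b₁ - Pr.T - t) / (4 * (Pr.b₁ + 1))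

def r₂ (t : ℝ) : ℝ := (Pr.b₂ - Pr.T + t) / (4 * (Pr.b₂ + 1))

/-- Polar coordinates at the left end of the neck. -/
def pol₁ (q : E) : E :=
  !₂[Pr.r₁ (q 0) * Real.sin (2 * Real.pi * q 1), Pr.r₁ (q 0) * Real.cos (2 * Real.pi * q 1), q 2]

/-- Polar coordinates at the right end of the neck. -/
def pol₂ (q : E) : E :=
  !₂[Pr.r₂ (q 0) * Real.sin (2 * Real.pi * (q 2 - q 1)),
    Pr.r₂ (q 0) * Real.cos (2 * Real.pi * (q 2 - q 1)), q 1]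

/-- The plane minus lattice discs of radius `ρ`, times a line. -/
def holes (ρ : ℝ) : Set E := {p | ∀ a b : ℤ, ρ ^ 2 < (p 0 - a) ^ 2 + (p 1 - b) ^ 2}

/-- Piece `0`, neck `1`, piece `2`. -/
def U : Fin 3 → Set E := ![holes (Pr.r₁ (-Pr.T)), {p | |p 0| < Pr.T + 1}, holes (Pr.r₂ Pr.T)]

def G : Fin 3 → MF :=
  ![fun _ => Matrix.diagonal ![(4 * (Pr.b₁ + 1)) ^ 2, (4 * (Pr.b₁ + 1)) ^ 2, 1 / Pr.n₀], Pr.H.G,
    fun _ => Matrix.diagonal ![(4 * (Pr.b₂ + 1)) ^ 2, (4 * (Pr.b₂ + 1)) ^ 2, 1 / Pr.m₂]]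

def rel : Fin 3 → E → Fin 3 → E → Prop := fun i p j q =>
  ![![lat (q - p), q 0 ≤ -Pr.T ∧ lat (p - Pr.pol₁ q), False],
    ![p 0 ≤ -Pr.T ∧ lat (q - Pr.pol₁ p), ∃ a b : ℤ, q = p + !₂[(0 : ℝ), a, b],
      Pr.T ≤ p 0 ∧ lat (q - Pr.pol₂ p)],
    ![False, Pr.T ≤ q 0 ∧ lat (p - Pr.pol₂ q), lat (q - p)]] i j

/-- Interpolation parameter in `[0,1]`: `0` for `s ≤ T + 1/2`, `1` for `s ≥ T + 3/2`. -/
def lam (s : ℝ) : ℝ := max 0 (min 1 (s - Pr.T - 1 / 2))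

/-- A continuous surjection `ℝ × T² → M` extending the neck coordinates radially. -/
def Phi {M : Type*} (pm : Fin 3 → E → M) (p : E) : M :=
  if p 0 ≤ -Pr.T - 1 / 2 then
    pm 0 ((1 - Pr.lam (-p 0)) • Pr.pol₁ !₂[-Pr.T - 1 / 2, p 1, p 2] + Pr.lam (-p 0) • sq (p 1) (p 2))
  else if p 0 ≤ Pr.T + 1 / 2 then pm 1 p
  else pm 2 ((1 - Pr.lam (p 0)) • Pr.pol₂ !₂[Pr.T + 1 / 2, p 1, p 2] +
    Pr.lam (p 0) • sq (p 2 - p 1) (p 1))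

end Prof

end Crest.Agent.R244
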