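import Crest.Agent.R244.ModelDefs
import Crest.Agent.R244.Coord2
/-!
# R244: geodesics and the linearised equation for `dt² + e dy² + 2 f dy dz + h dz²`
Use the lowered form of `Chr` from `RiemAt.koszul` (tested against the basis vectors), or compute
`Chr` explicitly (`chr_diagG`), then `fderiv (Chr G)` from that formula.
-/

set_option autoImplicit false

open scoped ContDiff Manifold Topology
open Bundle Filter Set
open Crest.GeometryTopology.CoordMetric Crest.GeometryTopology.ChartCurvature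
  Crest.GeometryTopology.Geodesic

noncomputable section

namespace Crest.Agent.R244

variable {e f h : ℝ → ℝ}

theorem bil_diagG (x u v : E) :
    Bil (diagG e f h) x u v = u 0 * v 0 + e (x 0) * u 1 * v 1 + f (x 0) * (u 1 * v 2 + u 2 * v 1) +
      h (x 0) * u 2 * v 2 := by
  simp [Bil_apply, diagG, Fin.sum_univ_three]
  ring

theorem riemAt_diagG (ce : ContDiff ℝ ∞ e) (cf : ContDiff ℝ ∞ f) (ch : ContDiff ℝ ∞ h)
    (he : ∀ t, 0 < e t) (hd : ∀ t, 0 < e t * h t - f t ^ 2) (x : E) : RiemAt (diagG e f h) x := by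
  refine Eventually.of_forall fun y => ⟨fun i j => ?_, ?_⟩
  · have h0 : ∀ {φ : ℝ → ℝ}, ContDiff ℝ ∞ φ → ContDiffAt ℝ ∞ (fun x : E => φ (x 0)) y := fun hφ =>
      (hφ.comp (EuclideanSpace.proj (0 : Fin 3) : E →L[ℝ] ℝ).contDiff).contDiffAt
    fin_cases i <;> fin_cases j <;> simp only [diagG] <;>
      first | exact contDiffAt_const | exact h0 ce | exact h0 cf | exact h0 ch
  · refine Matrix.PosDef.of_dotProduct_mulVec_pos ?_ fun u hu => ?_
    · ext i j
      fin_cases i <;> fin_cases j <;> simp [diagG]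
    · have h1 := he (y 0)
      have h2 := hd (y 0)
      have key : 0 < e (y 0) * u 0 ^ 2 + (e (y 0) * u 1 + f (y 0) * u 2) ^ 2 +
          (e (y 0) * h (y 0) - f (y 0) ^ 2) * u 2 ^ 2 := by
        by_cases a2 : u 2 = 0
        · by_cases a1 : u 1 = 0
          · have a0 : u 0 ≠ 0 := fun a0 => hu (by ext i; fin_cases i <;> assumption)
            positivity
          · rw [a2, mul_zero, add_zero]
            positivity
        · positivity
      simp [diagG, dotProduct, Matrix.mulVec, Fin.sum_univ_three]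
      exact (mul_pos_iff_of_pos_left h1).1 (key.trans_eq (by ring))

theorem neckA_comp {φ : ℝ → ℝ} (hφ : ContDiff ℝ ∞ φ) {c : ℝ → ℝ} {c' s : ℝ} (hc : HasDerivAt c c' s) :
    HasDerivAt (fun u => φ (c u)) (deriv φ (c s) * c') s :=
  ((hφ.differentiable (by simp)) (c s)).hasDerivAt.comp s hc

theorem neckA_line (x A : E) : HasDerivAt (fun t : ℝ => x + t • A) A 0 := by
  simpa using ((hasDerivAt_id (0 : ℝ)).smul_const A).const_add x

theorem neckA_coord {c : ℝ → E} {c' : E} {s : ℝ} (hc : HasDerivAt c c' s) (i : Fin 3) :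
    HasDerivAt (fun u => c u i) (c' i) s :=
  (EuclideanSpace.proj i : E →L[ℝ] ℝ).hasFDerivAt.comp_hasDerivAt s hc

theorem neckA_dir0 {F : Type*} [NormedAddCommGroup F] [NormedSpace ℝ F]
    {B : E → F} {x : E} (hB : DifferentiableAt ℝ B x) (A : E) :
    HasDerivAt (fun t : ℝ => B (x + t • A)) (fderiv ℝ B x A) 0 := by
  have h1 : HasFDerivAt B (fderiv ℝ B x) (x + (0 : ℝ) • A) := by simpa using hB.hasFDerivAt
  exact h1.comp_hasDerivAt (0 : ℝ) (neckA_line x A)

theorem neckA_dir {F : Type*} [NormedAddCommGroup F] [NormedSpace ℝ F]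
    {B : E → E →L[ℝ] E →L[ℝ] F} {x : E} (hB : ContDiffAt ℝ ∞ B x) (A u v : E) :
    HasDerivAt (fun t : ℝ => B (x + t • A) u v) (fderiv ℝ B x A u v) 0 := by
  have h := hB.differentiableAt (by simp)
  rw [coord2_fderiv_apply2 h]
  exact neckA_dir0 (B := fun y => B y u v)
    ((h.clm_apply (differentiableAt_const u)).clm_apply (differentiableAt_const v)) A

theorem neckA_fderiv_bil (ce : ContDiff ℝ ∞ e) (cf : ContDiff ℝ ∞ f) (ch : ContDiff ℝ ∞ h)
    (he : ∀ t, 0 < e t) (hd : ∀ t, 0 < e t * h t - f t ^ 2) (x A u v : E) :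
    fderiv ℝ (Bil (diagG e f h)) x A u v = A 0 * (deriv e (x 0) * u 1 * v 1 +
      deriv f (x 0) * (u 1 * v 2 + u 2 * v 1) + deriv h (x 0) * u 2 * v 2) := by
  have h1 := neckA_dir (riemAt_diagG ce cf ch he hd x).contDiffAt_bil A u v
  simp only [bil_diagG] at h1
  have h0 := neckA_coord (neckA_line x A) 0
  have := h1.unique ((((((neckA_comp ce h0).mul_const _).mul_const _).const_add _).add
    ((neckA_comp cf h0).mul_const _)).add (((neckA_comp ch h0).mul_const _).mul_const _))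
  rw [this]
  simp
  ring

/-- The lowered Christoffel symbols. -/
theorem neckA_low (ce : ContDiff ℝ ∞ e) (cf : ContDiff ℝ ∞ f) (ch : ContDiff ℝ ∞ h)
    (he : ∀ t, 0 < e t) (hd : ∀ t, 0 < e t * h t - f t ^ 2) (x u v : E) :
    Chr (diagG e f h) x u v 0 = -(deriv e (x 0) * u 1 * v 1 + deriv f (x 0) * (u 1 * v 2 + u 2 * v 1) +
        deriv h (x 0) * u 2 * v 2) / 2 ∧
      e (x 0) * Chr (diagG e f h) x u v 1 + f (x 0) * Chr (diagG e f h) x u v 2 =
        (deriv e (x 0) * (u 0 * v 1 + u 1 * v 0) + deriv f (x 0) * (u 0 * v 2 + u 2 * v 0)) / 2 ∧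
      f (x 0) * Chr (diagG e f h) x u v 1 + h (x 0) * Chr (diagG e f h) x u v 2 =
        (deriv f (x 0) * (u 0 * v 1 + u 1 * v 0) + deriv h (x 0) * (u 0 * v 2 + u 2 * v 0)) / 2 := by
  have k := (riemAt_diagG ce cf ch he hd x).koszul u v
  simp only [neckA_fderiv_bil ce cf ch he hd, bil_diagG] at k
  have k0 := k !₂[1, 0, 0]
  have k1 := k !₂[0, 1, 0]
  have k2 := k !₂[0, 0, 1]
  simp at k0 k1 k2
  exact ⟨by linarith, by linarith, by linarith⟩

/-- The Christoffel map (check the Koszul identity and use `RiemAt.ext`). -/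
theorem chr_diagG (ce : ContDiff ℝ ∞ e) (cf : ContDiff ℝ ∞ f) (ch : ContDiff ℝ ∞ h)
    (he : ∀ t, 0 < e t) (hd : ∀ t, 0 < e t * h t - f t ^ 2) (x u v : E) :
    Chr (diagG e f h) x u v =
      !₂[-(deriv e (x 0) * u 1 * v 1 + deriv f (x 0) * (u 1 * v 2 + u 2 * v 1) +
          deriv h (x 0) * u 2 * v 2) / 2,
        (h (x 0) * (deriv e (x 0) * (u 0 * v 1 + u 1 * v 0) + deriv f (x 0) * (u 0 * v 2 + u 2 * v 0)) -
          f (x 0) * (deriv f (x 0) * (u 0 * v 1 + u 1 * v 0) +
            deriv h (x 0) * (u 0 * v 2 + u 2 * v 0))) / (2 * (e (x 0) * h (x 0) - f (x 0) ^ 2)),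
        (e (x 0) * (deriv f (x 0) * (u 0 * v 1 + u 1 * v 0) + deriv h (x 0) * (u 0 * v 2 + u 2 * v 0)) -
          f (x 0) * (deriv e (x 0) * (u 0 * v 1 + u 1 * v 0) +
            deriv f (x 0) * (u 0 * v 2 + u 2 * v 0))) / (2 * (e (x 0) * h (x 0) - f (x 0) ^ 2))] := by
  obtain ⟨h0, h1, h2⟩ := neckA_low ce cf ch he hd x u v
  have := (hd (x 0)).ne'
  ext k
  fin_cases k
  · simpa using h0
  · simp only [Fin.mk_one, Matrix.cons_val_one, Matrix.cons_val_zero]
    rw [eq_div_iff (by positivity)]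
    linear_combination 2 * h (x 0) * h1 - 2 * f (x 0) * h2
  · simp only [Fin.reduceFinMk, Matrix.cons_val]
    rw [eq_div_iff (by positivity)]
    linear_combination 2 * e (x 0) * h2 - 2 * f (x 0) * h1

theorem neckA_jet {c : ℝ → E} {s : ℝ} (hc : ContDiffAt ℝ ∞ c s) :
    (∀ i, HasDerivAt (fun u => c u i) (deriv c s i) s) ∧
      ∀ i, HasDerivAt (fun u => deriv c u i) (deriv (deriv c) s i) s :=
  ⟨neckA_coord (hc.differentiableAt (by simp)).hasDerivAt,
    neckA_coord ((hc.derivWithin (m := ∞) le_rfl).differentiableAt (by simp)).hasDerivAt⟩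

theorem geo_diagG (ce : ContDiff ℝ ∞ e) (cf : ContDiff ℝ ∞ f) (ch : ContDiff ℝ ∞ h)
    (he : ∀ t, 0 < e t) (hd : ∀ t, 0 < e t * h t - f t ^ 2) {c : ℝ → E} {s : ℝ}
    (hc : ContDiffAt ℝ ∞ c s) (hg : Geo (diagG e f h) c s) :
    HasDerivAt (fun u => deriv c u 0) ((deriv e (c s 0) * deriv c s 1 ^ 2 +
        2 * deriv f (c s 0) * deriv c s 1 * deriv c s 2 + deriv h (c s 0) * deriv c s 2 ^ 2) / 2) s ∧
      HasDerivAt (fun u => e (c u 0) * deriv c u 1 + f (c u 0) * deriv c u 2) 0 s ∧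
      HasDerivAt (fun u => f (c u 0) * deriv c u 1 + h (c u 0) * deriv c u 2) 0 s := by
  obtain ⟨h0, h1, h2⟩ := neckA_low ce cf ch he hd (c s) (deriv c s) (deriv c s)
  obtain ⟨d1, d2⟩ := neckA_jet hc
  have g : ∀ i, deriv (deriv c) s i = -Chr (diagG e f h) (c s) (deriv c s) (deriv c s) i := fun i => by
    rw [eq_neg_of_add_eq_zero_left hg]; rfl
  refine ⟨(d2 0).congr_deriv ?_, (((neckA_comp ce (d1 0)).mul (d2 1)).add
    ((neckA_comp cf (d1 0)).mul (d2 2))).congr_deriv ?_, (((neckA_comp cf (d1 0)).mul (d2 1)).add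
    ((neckA_comp ch (d1 0)).mul (d2 2))).congr_deriv ?_⟩ <;> simp only [g]
  · linear_combination -h0
  · linear_combination -h1
  · linear_combination -h2

theorem lin_diagG (ce : ContDiff ℝ ∞ e) (cf : ContDiff ℝ ∞ f) (ch : ContDiff ℝ ∞ h)
    (he : ∀ t, 0 < e t) (hd : ∀ t, 0 < e t * h t - f t ^ 2) {c V : ℝ → E} {s : ℝ}
    (hc : ContDiffAt ℝ ∞ c s) (hg : Geo (diagG e f h) c s) (hV : ContDiffAt ℝ ∞ V s)
    (hl : Lin (diagG e f h) c V s) :
    HasDerivAt (fun u => deriv V u 0)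
        ((deriv (deriv e) (c s 0) * deriv c s 1 ^ 2 +
          2 * deriv (deriv f) (c s 0) * deriv c s 1 * deriv c s 2 +
          deriv (deriv h) (c s 0) * deriv c s 2 ^ 2) / 2 * V s 0 +
        (deriv e (c s 0) * deriv c s 1 * deriv V s 1 +
          deriv f (c s 0) * (deriv c s 1 * deriv V s 2 + deriv c s 2 * deriv V s 1) +
          deriv h (c s 0) * deriv c s 2 * deriv V s 2)) s ∧
      HasDerivAt (fun u => e (c u 0) * deriv V u 1 + f (c u 0) * deriv V u 2 +
        (deriv e (c u 0) * deriv c u 1 + deriv f (c u 0) * deriv c u 2) * V u 0) 0 s ∧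
      HasDerivAt (fun u => f (c u 0) * deriv V u 1 + h (c u 0) * deriv V u 2 +
        (deriv f (c u 0) * deriv c u 1 + deriv h (c u 0) * deriv c u 2) * V u 0) 0 s := by
  obtain ⟨h0, h1, h2⟩ := neckA_low ce cf ch he hd (c s) (deriv c s) (deriv V s)
  obtain ⟨d1, d2⟩ := neckA_jet hc
  obtain ⟨D1, D2⟩ := neckA_jet hV
  have g : ∀ i, deriv (deriv c) s i = -Chr (diagG e f h) (c s) (deriv c s) (deriv c s) i := fun i => by
    rw [eq_neg_of_add_eq_zero_left hg]; rfl
  have l : ∀ i, deriv (deriv V) s i = -(2 * Chr (diagG e f h) (c s) (deriv c s) (deriv V s) i) -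
      fderiv ℝ (Chr (diagG e f h)) (c s) (V s) (deriv c s) (deriv c s) i := fun i => by
    have := congrArg (fun v : E => v i) hl
    simp only [PiLp.add_apply, PiLp.smul_apply, smul_eq_mul, PiLp.zero_apply] at this
    linarith
  have ce' : ContDiff ℝ ∞ (deriv e) := ce.deriv'
  have cf' : ContDiff ℝ ∞ (deriv f) := cf.deriv'
  have ch' : ContDiff ℝ ∞ (deriv h) := ch.deriv'
  have L := neckA_coord (neckA_dir (riemAt_diagG ce cf ch he hd (c s)).contDiffAt_chr (V s)
    (deriv c s) (deriv c s))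
  have l0 := neckA_coord (neckA_line (c s) (V s)) 0
  have low := fun t : ℝ => neckA_low ce cf ch he hd (c s + t • V s) (deriv c s) (deriv c s)
  have k0 := (L 0).unique (((((((neckA_comp ce' l0).mul_const _).mul_const _).add
    ((neckA_comp cf' l0).mul_const _)).add (((neckA_comp ch' l0).mul_const _).mul_const _)).neg.div_const
      2).congr_of_eventuallyEq (Eventually.of_forall fun t => (low t).1))
  have k1 := (((neckA_comp ce l0).mul (L 1)).add ((neckA_comp cf l0).mul (L 2))).unique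
    (((((neckA_comp ce' l0).mul_const _).add ((neckA_comp cf' l0).mul_const _)).div_const
      2).congr_of_eventuallyEq (Eventually.of_forall fun t => (low t).2.1))
  have k2 := (((neckA_comp cf l0).mul (L 1)).add ((neckA_comp ch l0).mul (L 2))).unique
    (((((neckA_comp cf' l0).mul_const _).add ((neckA_comp ch' l0).mul_const _)).div_const
      2).congr_of_eventuallyEq (Eventually.of_forall fun t => (low t).2.2))
  simp only [zero_smul, add_zero] at k0 k1 k2
  refine ⟨(D2 0).congr_deriv ?_, ((((neckA_comp ce (d1 0)).mul (D2 1)).add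
    ((neckA_comp cf (d1 0)).mul (D2 2))).add ((((neckA_comp ce' (d1 0)).mul (d2 1)).add
      ((neckA_comp cf' (d1 0)).mul (d2 2))).mul (D1 0))).congr_deriv ?_,
    ((((neckA_comp cf (d1 0)).mul (D2 1)).add
    ((neckA_comp ch (d1 0)).mul (D2 2))).add ((((neckA_comp cf' (d1 0)).mul (d2 1)).add
      ((neckA_comp ch' (d1 0)).mul (d2 2))).mul (D1 0))).congr_deriv ?_⟩ <;>
    simp only [g, l, Pi.add_apply, Pi.mul_apply]
  · linear_combination -2 * h0 - k0
  · linear_combination -2 * h1 - k1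
  · linear_combination -2 * h2 - k2

end Crest.Agent.R244
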