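import Crest.Agent.R244.Npc
import Crest.Agent.R244.Side
import Crest.Agent.R244.CatC
/-!
# R244: no metric of non-positive curvature
-/

set_option autoImplicit false

open scoped ContDiff Manifold Topology
open Bundle Filter Set
open Crest.GeometryTopology.CoordMetric Crest.GeometryTopology.ChartCurvature
  Crest.GeometryTopology.Geodesic

noncomputable section

namespace Crest.Agent.R244

variable {M : Type*} [TopologicalSpace M] [ChartedSpace E M] [IsManifold 𝓘(ℝ, E) ∞ M]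

theorem not_nonpos [CompactSpace M] [T2Space M] (D : TopData M) {P₀ : E → M}
    (hP₀ : IsCoveringMap P₀) {v : E} (hv : v ≠ 0)
    (hv' : ∀ s : ℝ, P₀ (s • v) = D.Φ !₂[-D.L, 1 / 8, s]) (g : RM M) :
    ¬ HasNonposSectionalCurvature g := by
  intro hg
  obtain ⟨Fr, h0⟩ := exists_frames hg (D.Φ 0)
  obtain ⟨f₁, x₁, y₁, f₂, x₂, y₂, c₁, c₂, c₃, c₄, r₁, r₂, hne⟩ :=
    exists_decks D Fr.cov h0 hP₀ hv hv'
  obtain ⟨δ, hδ, hd⟩ := Fr.displacement f₁.2 (fun h => hne (Subtype.ext h))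
  exact cat_obstruction' Fr.d Fr.d_symm Fr.d_triangle Fr.d_eq_zero Fr.cn (deck Fr.P)
    (fun T hT => Fr.d_deck hT) c₁ c₂ c₃ c₄ r₁ r₂ hδ hd

end Crest.Agent.R244
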