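import Crest.Agent.R244.ExpCov
import Crest.Agent.R244.Deck
/-!
# R244: the metric on the universal cover of a non-positively curved manifold
`Frames g` packages exponential maps at all points, a base covering `P` and, for each `x : E`, the
lift `F x` of `Ex (P x)` through `P` with `F x 0 = x`. The distance is `d x y = |(F x)⁻¹ y|`.
-/

set_option autoImplicit false

open scoped ContDiff Manifold Topology
open Bundle Filter Set
open Crest.GeometryTopology.CoordMetric Crest.GeometryTopology.ChartCurvature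
  Crest.GeometryTopology.Geodesic

noncomputable section

namespace Crest.Agent.R244

variable {M : Type*} [TopologicalSpace M] [ChartedSpace E M] [IsManifold 𝓘(ℝ, E) ∞ M]

structure Frames (g : RM M) where
  Ex : M → E → M
  isExp : ∀ p, IsExp g p (Ex p)
  expand : ∀ p v w, ip g p w w ≤ ip g (Ex p v) (dE (Ex p) v w) (dE (Ex p) v w)
  P : E → M
  cov : IsCoveringMap P
  F : E → E ≃ₜ E
  F_zero : ∀ x, F x 0 = x
  lift : ∀ x v, P (F x v) = Ex (P x) v

theorem npca_nonneg (g : RM M) (m : M) (u : E) : 0 ≤ ip g m u u := by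
  by_cases hu : u = 0
  · simp [hu, b1a_ip]
  · exact (g.pos m u hu).le

theorem npca_eq_zero {g : RM M} {m : M} {u : E} (h : ip g m u u ≤ 0) : u = 0 := by
  by_contra hu
  exact absurd (g.pos m u hu) (not_lt.2 h)

theorem npca_cs (g : RM M) (m : M) (u v : E) : ip g m u v ^ 2 ≤ ip g m u u * ip g m v v := by
  simp only [ip_eq_self]
  exact (riemAt_chart g (mem_chart_target E m)).cs u v

theorem npca_tri (g : RM M) (m : M) (u v : E) :
    √(ip g m (u + v) (u + v)) ≤ √(ip g m u u) + √(ip g m v v) := by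
  have hu := npca_nonneg g m u
  have hv := npca_nonneg g m v
  have h1 : ip g m (u + v) (u + v) = ip g m u u + 2 * ip g m u v + ip g m v v := by
    have := ip_symm g m u v
    simp only [b1a_ip, map_add, add_apply] at this ⊢
    linarith
  have h2 : ip g m u v ≤ √(ip g m u u) * √(ip g m v v) := by
    rw [← Real.sqrt_mul hu]
    exact Real.le_sqrt_of_sq_le (npca_cs g m u v)
  refine Real.sqrt_le_iff.2 ⟨by positivity, ?_⟩
  rw [h1, add_sq, Real.sq_sqrt hu, Real.sq_sqrt hv]
  linarith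

theorem npca_inj {g : RM M} {p : M} {F : E → M}
    (h : ∀ v w, ip g p w w ≤ ip g (F v) (dE F v w) (dE F v w)) (v : E) :
    Function.Injective (dE F v) := by
  refine (injective_iff_map_eq_zero _).2 fun w hw => npca_eq_zero (g := g) (m := p) ?_
  have := h v w
  rwa [hw, show ip g (F v) 0 0 = 0 by simp [b1a_ip]] at this

theorem exists_frames [CompactSpace M] [T2Space M] {g : RM M} (hg : HasNonposSectionalCurvature g)
    (p₀ : M) : ∃ D : Frames g, D.P 0 = p₀ := by
  choose Ex hEx using fun p : M => exists_isExp g p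
  have hexp : ∀ p v w, ip g p w w ≤ ip g (Ex p v) (dE (Ex p) v w) (dE (Ex p) v w) :=
    fun p v w => (hEx p).expand hg v w
  have hcov : ∀ p, IsCoveringMap (Ex p) := fun p => (hEx p).isCoveringMap (npca_inj (hexp p))
  have hF : ∀ x : E, ∃ F : E ≃ₜ E, F 0 = x ∧ ∀ v, Ex p₀ (F v) = Ex (Ex p₀ x) v := fun x =>
    exists_homeo_lift (hcov p₀) (hcov (Ex p₀ x)) (hEx _).zero.symm
  choose F hF0 hF1 using hF
  exact ⟨⟨Ex, hEx, hexp, Ex p₀, hcov p₀, F, hF0, hF1⟩, (hEx p₀).zero⟩

/-- The distance. -/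
def Frames.d {g : RM M} (D : Frames g) (x y : E) : ℝ :=
  √(ip g (D.P x) ((D.F x).symm y) ((D.F x).symm y))

/-- Law of cosines. With `x = F m v`, `u = (F x)⁻¹ (F m w)`, the curve `ρ s = (F m)⁻¹ (F x (s • u))`
from `v` to `w` lifts the geodesic `s ↦ Ex (P x) (s • u)` (speed `|u|`, `geo_speed`) through
`Ex (P m)`, so `|ρ'| ≤ |u|` by `exists_hasDerivAt_lift` and `expand`; then consider
`s ↦ ip (w - v) (ρ s)` and Cauchy–Schwarz. -/
theorem Frames.cosines [T2Space M] {g : RM M} (D : Frames g) (m v w : E) :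
    ip g (D.P m) (v - w) (v - w) ≤ D.d (D.F m v) (D.F m w) ^ 2 := by
  set x := D.F m v with hx
  set u := (D.F x).symm (D.F m w) with hu
  set ρ : ℝ → E := fun s => (D.F m).symm (D.F x (s • u)) with hρ
  set σ : ℝ → M := fun s => D.Ex (D.P x) (s • u) with hσ
  have hρc : Continuous ρ :=
    (D.F m).symm.continuous.comp ((D.F x).continuous.comp (continuous_id.smul continuous_const))
  have hgeo : IsGeo g σ := (D.isExp (D.P x)).geo u
  have hl : ∀ s, D.Ex (D.P m) (ρ s) = σ s := fun s => by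
    simp only [hρ, hσ]
    rw [← D.lift m, Homeomorph.apply_symm_apply, D.lift]
  have hd : ∀ s, ∃ z, HasDerivAt ρ z s ∧ ip g (D.P m) z z ≤ ip g (D.P x) u u := fun s => by
    obtain ⟨z, hz, hz'⟩ := exists_hasDerivAt_lift (D.isExp (D.P m)).smooth
      (npca_inj (D.expand (D.P m))) hρc.continuousAt (hgeo s).contMDiffAt
      (Eventually.of_forall hl)
    refine ⟨z, hz, ?_⟩
    have h1 := D.expand (D.P m) (ρ s) z
    rw [hz', hl] at h1
    have h2 : ip g (σ s) (vel σ s) (vel σ s) = ip g (σ 0) (vel σ 0) (vel σ 0) :=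
      geo_speed (a := -|s| - 1) (b := |s| + 1) (fun t _ => hgeo t)
        ⟨by linarith [neg_abs_le s], by linarith [le_abs_self s]⟩
        ⟨by linarith [abs_nonneg s], by linarith [abs_nonneg s]⟩
    have h3 : vel σ 0 = u := (D.isExp (D.P x)).vel_zero u
    have h4 : σ 0 = D.P x := by
      simp only [hσ, zero_smul]
      exact (D.isExp (D.P x)).zero
    rw [h2, h3, h4] at h1
    exact h1
  choose z hz hz' using hd
  have h0 : ρ 0 = v := by
    simp only [hρ, zero_smul, D.F_zero, hx, Homeomorph.symm_apply_apply]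
  have h1 : ρ 1 = w := by
    simp only [hρ, one_smul, hu, Homeomorph.apply_symm_apply, Homeomorph.symm_apply_apply]
  have hφ : ∀ s, HasDerivAt (fun s => b1a_inn g (D.P m) (w - v) (ρ s))
      (b1a_inn g (D.P m) (w - v) (z s)) s := fun s =>
    (b1a_inn g (D.P m) (w - v)).hasFDerivAt.comp_hasDerivAt s (hz s)
  obtain ⟨c, -, hc⟩ := exists_hasDerivAt_eq_slope (fun s => b1a_inn g (D.P m) (w - v) (ρ s))
    (fun s => b1a_inn g (D.P m) (w - v) (z s)) (zero_lt_one' ℝ)
    (fun s _ => (hφ s).continuousAt.continuousWithinAt) (fun s _ => hφ s)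
  simp only [h0, h1, sub_zero, div_one] at hc
  rw [← map_sub, ← b1a_ip, ← b1a_ip] at hc
  have h5 := npca_cs g (D.P m) (w - v) (z c)
  have h6 : ip g (D.P m) (v - w) (v - w) = ip g (D.P m) (w - v) (w - v) := by
    rw [← neg_sub w v]
    simp only [b1a_ip, map_neg, neg_apply, neg_neg]
  have h7 : D.d x (D.F m w) ^ 2 = ip g (D.P x) u u := Real.sq_sqrt (npca_nonneg _ _ _)
  rw [h6, h7]
  have h8 := npca_nonneg g (D.P m) (w - v)
  have h9 := npca_nonneg g (D.P x) u
  rw [hc] at h5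
  by_contra hcon
  push Not at hcon
  nlinarith [hz' c, mul_le_mul_of_nonneg_left (hz' c) h8]

theorem Frames.d_symm [T2Space M] {g : RM M} (D : Frames g) (x y : E) : D.d x y = D.d y x := by
  have key : ∀ x y : E, D.d y x ≤ D.d x y := fun x y => by
    have h := D.cosines y ((D.F y).symm x) 0
    rw [sub_zero, Homeomorph.apply_symm_apply, D.F_zero] at h
    exact Real.sqrt_le_iff.2 ⟨Real.sqrt_nonneg _, h⟩
  exact le_antisymm (key y x) (key x y)

/-- From `cosines` at `m = x`: `|d(x,z) - d(x,y)| ≤ |v - w| ≤ d(y,z)`. -/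
theorem Frames.d_triangle [T2Space M] {g : RM M} (D : Frames g) (x y z : E) :
    D.d x z ≤ D.d x y + D.d y z := by
  have h := D.cosines x ((D.F x).symm z) ((D.F x).symm y)
  rw [Homeomorph.apply_symm_apply, Homeomorph.apply_symm_apply, D.d_symm z y] at h
  have h1 := npca_tri g (D.P x) ((D.F x).symm y) ((D.F x).symm z - (D.F x).symm y)
  rw [add_sub_cancel] at h1
  have h2 := Real.sqrt_le_iff.2 ⟨Real.sqrt_nonneg _, h⟩
  exact h1.trans (add_le_add le_rfl h2)

theorem Frames.d_eq_zero {g : RM M} (D : Frames g) (x y : E) : D.d x y = 0 ↔ x = y := by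
  constructor
  · intro h
    have h1 := npca_eq_zero (Real.sqrt_eq_zero'.1 h)
    rw [← D.F_zero x, ← h1, Homeomorph.apply_symm_apply]
  · rintro rfl
    have h1 : (D.F x).symm x = 0 := by
      rw [Homeomorph.symm_apply_eq, D.F_zero]
    simp [Frames.d, h1, b1a_ip]

theorem npcb_ip_nonneg (g : RM M) (m : M) (u : E) : 0 ≤ ip g m u u := by
  by_cases h : u = 0
  · let B : E →L[ℝ] E →L[ℝ] ℝ := g.inner m
    have : ip g m u u = B u u := rfl
    rw [this, h]
    simp
  · exact (g.pos m u h).le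

theorem npcb_parallelogram (g : RM M) (m : M) (v a : E) :
    ip g m (v - (-(1 / 2) : ℝ) • a) (v - (-(1 / 2) : ℝ) • a) +
      ip g m (v - (1 / 2 : ℝ) • a) (v - (1 / 2 : ℝ) • a) = 2 * ip g m v v + ip g m a a / 2 := by
  let B : E →L[ℝ] E →L[ℝ] ℝ := g.inner m
  have hB : ∀ u w : E, ip g m u w = B u w := fun _ _ => rfl
  simp only [hB, map_sub, map_smul, sub_apply, smul_apply, smul_eq_mul]
  ring

/-- With `z = F y u`, `m = F y (u/2)`: the geodesic `t ↦ Ex (P y) ((1/2 + t) • u)` is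
`t ↦ Ex (P m) (t • a)` (`IsExp.eq_geo`), so `F y ((1/2 + t) • u) = F m (t • a)` (`lift_unique`),
`y = F m (-a/2)`, `z = F m (a/2)`; use `cosines`, the parallelogram law and `d y z ≤ |a|`. -/
theorem Frames.cn [T2Space M] {g : RM M} (D : Frames g) (y z : E) :
    ∃ m, ∀ x, 2 * D.d x m ^ 2 + D.d y z ^ 2 / 2 ≤ D.d x y ^ 2 + D.d x z ^ 2 := by
  set u : E := (D.F y).symm z with hu
  have hz : D.F y u = z := (D.F y).apply_symm_apply z
  set m : E := D.F y ((1 / 2 : ℝ) • u) with hm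
  have hγ₀ : IsGeo g (fun t : ℝ => D.Ex (D.P y) (t • u)) := (D.isExp _).geo u
  have hγ : IsGeo g (fun s : ℝ => (fun t : ℝ => D.Ex (D.P y) (t • u)) (1 * s + 1 / 2)) :=
    fun s => GeoAt.comp_affine (hγ₀ _)
  set a : E := vel (fun s : ℝ => (fun t : ℝ => D.Ex (D.P y) (t • u)) (1 * s + 1 / 2)) 0 with ha
  have hPm : D.P m = D.Ex (D.P y) ((1 / 2 : ℝ) • u) := D.lift y _
  have heq : ∀ t : ℝ, D.Ex (D.P y) ((1 * t + 1 / 2) • u) = D.Ex (D.P m) (t • a) := fun t =>
    (D.isExp (D.P m)).eq_geo hγ (by simp [hPm]) t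
  have hl : (fun t : ℝ => D.F y ((1 * t + 1 / 2) • u)) = fun t : ℝ => D.F m (t • a) := by
    refine lift_unique D.cov (a := (0 : ℝ)) ?_ ?_ (fun t => ?_) ?_
    · exact (D.F y).continuous.comp (by fun_prop)
    · exact (D.F m).continuous.comp (by fun_prop)
    · rw [D.lift, D.lift, heq]
    · simp [D.F_zero, hm]
  have hy' : D.F m ((-(1 / 2) : ℝ) • a) = y := by
    have := congrFun hl (-(1 / 2))
    rw [← this]
    norm_num [D.F_zero]
  have hz' : D.F m ((1 / 2 : ℝ) • a) = z := by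
    have := congrFun hl (1 / 2)
    rw [← this, ← hz]
    norm_num
  have hsp : ip g (D.P y) u u = ip g (D.P m) a a := by
    have h1 := geo_speed (a := -1) (b := 1) (s := 0) (t := 1 / 2) (fun t _ => hγ₀ t)
      (by norm_num) (by norm_num)
    have h2 : a = vel (fun t : ℝ => D.Ex (D.P y) (t • u)) (1 / 2) := by
      rw [ha, vel_comp_affine (hγ₀ _)]
      simp
    rw [(D.isExp _).vel_zero, ← h2] at h1
    simp only [zero_smul, (D.isExp _).zero] at h1
    rw [h1, hPm]
  refine ⟨m, fun x => ?_⟩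
  set v : E := (D.F m).symm x with hv
  have hx : D.F m v = x := (D.F m).apply_symm_apply x
  have c₁ := D.cosines m v ((-(1 / 2) : ℝ) • a)
  have c₂ := D.cosines m v ((1 / 2 : ℝ) • a)
  rw [hx, hy'] at c₁
  rw [hx, hz'] at c₂
  have d₁ : D.d x m ^ 2 = ip g (D.P m) v v := by
    rw [D.d_symm, Frames.d, Real.sq_sqrt (npcb_ip_nonneg g _ _)]
  have d₂ : D.d y z ^ 2 = ip g (D.P m) a a := by
    rw [Frames.d, Real.sq_sqrt (npcb_ip_nonneg g _ _), ← hsp]
  have := npcb_parallelogram g (D.P m) v a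
  rw [d₁, d₂]
  linarith

/-- `T ∘ F x = F (T x)` by `lift_unique`. -/
theorem Frames.d_deck {g : RM M} (D : Frames g) {T : Equiv.Perm E} (hT : T ∈ deck D.P) (x y : E) :
    D.d (T x) (T y) = D.d x y := by
  obtain ⟨h1, -, h3⟩ := mem_deck.1 hT
  have hl : (fun v => T (D.F x v)) = fun v => D.F (T x) v := by
    refine lift_unique D.cov (a := (0 : E)) (h1.comp (D.F x).continuous) (D.F (T x)).continuous
      (fun v => ?_) ?_
    · rw [h3, D.lift, D.lift, h3]
    · simp [D.F_zero]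
  have e : (D.F (T x)).symm (T y) = (D.F x).symm y := by
    rw [Homeomorph.symm_apply_eq, ← congrFun hl, Homeomorph.apply_symm_apply]
  rw [Frames.d, Frames.d, e, h3]

/-- Cover `M` by finitely many `W` from `short_geo` for evenly covered `U`: if `d y (T y)` is
small, the path `s ↦ F y (s • u)` from `y` to `T y` stays over `U`, hence in one sheet, so
`T y = y` and `T = 1` (`deck_ext`). -/
theorem Frames.displacement [CompactSpace M] [T2Space M] {g : RM M} (D : Frames g)
    {T : Equiv.Perm E}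
    (hT : T ∈ deck D.P) (h1 : T ≠ 1) : ∃ δ > (0 : ℝ), ∀ y, δ ≤ D.d y (T y) := by
  have key : ∀ q : M, ∃ W ∈ 𝓝 q, ∃ δ > (0 : ℝ), ∀ y : E, D.P y ∈ W →
      δ < ip g (D.P y) ((D.F y).symm (T y)) ((D.F y).symm (T y)) := by
    intro q
    obtain ⟨hI, U, hqU, hU, -, H, hH⟩ := D.cov q
    obtain ⟨W, hW, δ, hδ, hs⟩ := short_geo g q (hU.mem_nhds hqU)
    refine ⟨W, hW, δ, hδ, fun y hy => ?_⟩
    by_contra hle
    rw [not_lt] at hle
    set u : E := (D.F y).symm (T y) with hu
    have hin : ∀ t ∈ Icc (0 : ℝ) 1, D.Ex (D.P y) (t • u) ∈ U := by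
      refine hs (fun t : ℝ => D.Ex (D.P y) (t • u)) ((D.isExp _).geo u) ?_ ?_
      · simpa [(D.isExp _).zero] using hy
      · rw [(D.isExp _).vel_zero]
        simpa [(D.isExp _).zero] using hle
    have hin' : ∀ t : Icc (0 : ℝ) 1, D.F y ((t : ℝ) • u) ∈ D.P ⁻¹' U := fun t => by
      rw [mem_preimage, D.lift]
      exact hin t t.2
    let σ : Icc (0 : ℝ) 1 → D.P ⁻¹' U := fun t => ⟨D.F y ((t : ℝ) • u), hin' t⟩
    have hσ : Continuous σ :=
      ((D.F y).continuous.comp (by fun_prop)).subtype_mk _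
    have hc : Continuous fun t => (H (σ t)).2 := continuous_snd.comp (H.continuous.comp hσ)
    have e2 : (H (σ ⟨0, by simp⟩)).2 = (H (σ ⟨1, by simp⟩)).2 :=
      (IsLocallyConstant.iff_continuous _).2 hc |>.apply_eq_of_preconnectedSpace _ _
    have s0 : (σ ⟨0, by simp⟩ : E) = y := by simp [σ, D.F_zero]
    have s1 : (σ ⟨1, by simp⟩ : E) = T y := by simp [σ, hu]
    have e1 : (H (σ ⟨0, by simp⟩)).1 = (H (σ ⟨1, by simp⟩)).1 := by
      apply Subtype.ext
      rw [hH, hH, s0, s1, (mem_deck.1 hT).2.2]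
    have e : σ ⟨0, by simp⟩ = σ ⟨1, by simp⟩ := H.injective (Prod.ext e1 e2)
    have hyy : T y = y := by rw [← s1, ← e, s0]
    exact h1 (deck_ext D.cov hT (deck D.P).one_mem (x := y) hyy)
  choose W hW δ hδ hk using key
  obtain ⟨t, ht⟩ := CompactSpace.elim_nhds_subcover W hW
  have hmem : ∀ p : M, ∃ q ∈ t, p ∈ W q := fun p => by
    have : p ∈ ⋃ q ∈ t, W q := by rw [ht]; exact mem_univ p
    simpa using this
  have hne : t.Nonempty := let ⟨q, hq, _⟩ := hmem (D.P 0); ⟨q, hq⟩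
  obtain ⟨q₀, -, hq₀⟩ := t.exists_min_image δ hne
  refine ⟨√(δ q₀), Real.sqrt_pos.2 (hδ q₀), fun y => ?_⟩
  obtain ⟨q, hq, hy⟩ := hmem (D.P y)
  exact Real.sqrt_le_sqrt ((hq₀ q hq).trans (hk q y hy).le)

end Crest.Agent.R244
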