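import Crest.Agent.R244.ModelDefs
/-!
# R244: derivatives of the quadratic forms along the flow
All identities were checked numerically; get `HasDerivAt` by the product/quotient rules
(`p`, `q` have derivative `0` as they are locally constant; `deriv H.m ∘ t` has derivative
`deriv (deriv H.m) t * τ`), then `convert … using 1; field_simp; ring`.
-/

set_option autoImplicit false

open scoped ContDiff Manifold Topology
open Bundle Filter Set
open Crest.GeometryTopology.CoordMetric Crest.GeometryTopology.ChartCurvature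
  Crest.GeometryTopology.Geodesic

noncomputable section

namespace Crest.Agent.R244

theorem oma_d {f : ℝ → ℝ} (h : ContDiff ℝ ∞ f) (t : ℝ) : HasDerivAt f (deriv f t) t :=
  (h.differentiable (by simp) t).hasDerivAt

theorem oma_c {f : ℝ → ℝ} (h : ContDiff ℝ ∞ f) : ContDiff ℝ ∞ (deriv f) :=
  (contDiff_infty_iff_deriv.1 h).2

theorem oma_m {m k n : ℝ → ℝ} (hm : ContDiff ℝ ∞ m) (hk : ContDiff ℝ ∞ k) (hn : ContDiff ℝ ∞ n) :
    deriv (fun t => m t - 2 * k t + n t) = fun t => deriv m t - 2 * deriv k t + deriv n t :=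
  funext fun t => (((oma_d hm t).sub ((oma_d hk t).const_mul 2)).add (oma_d hn t)).deriv

theorem oma_k {m k : ℝ → ℝ} (hm : ContDiff ℝ ∞ m) (hk : ContDiff ℝ ∞ k) :
    deriv (fun t => k t - m t) = fun t => deriv k t - deriv m t :=
  funext fun t => ((oma_d hk t).sub (oma_d hm t)).deriv

theorem Tri.Good.oma_m1 {H : Tri} (h : H.Good) :
    deriv H.tw.m = fun t => deriv H.m t - 2 * deriv H.k t + deriv H.n t := oma_m h.cm h.ck h.cn

theorem Tri.Good.oma_k1 {H : Tri} (h : H.Good) :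
    deriv H.tw.k = fun t => deriv H.k t - deriv H.m t := oma_k h.cm h.ck

theorem Tri.oma_n1 (H : Tri) : H.tw.n = H.m := rfl

theorem Tri.oma_m0 (H : Tri) (t : ℝ) : H.tw.m t = H.m t - 2 * H.k t + H.n t := rfl

theorem Tri.oma_k0 (H : Tri) (t : ℝ) : H.tw.k t = H.k t - H.m t := rfl

theorem Tri.oma_Δ (H : Tri) (t : ℝ) : H.tw.Δ t = H.Δ t := by
  simp only [Tri.Δ, Tri.oma_n1, Tri.oma_m0, Tri.oma_k0]
  ring

theorem Tri.Good.tw {H : Tri} (h : H.Good) : H.tw.Good := by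
  refine ⟨(h.cm.sub (contDiff_const.mul h.ck)).add h.cn, h.ck.sub h.cm, h.cm, fun t => ?_,
    fun t => ?_⟩
  · have h1 := h.m_pos t
    have h2 := h.det_pos t
    show 0 < H.m t - 2 * H.k t + H.n t
    by_contra hc
    push Not at hc
    nlinarith [mul_le_mul_of_nonneg_left hc h1.le, sq_nonneg (H.m t - H.k t)]
  · have h2 := h.det_pos t
    show 0 < (H.m t - 2 * H.k t + H.n t) * H.m t - (H.k t - H.m t) ^ 2
    nlinarith

theorem Tri.Good.W1_tw {H : Tri} (h : H.Good) (t p q : ℝ) : H.tw.W1 t q (p + q) = H.W1 t p q := by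
  simp only [Tri.W1, h.oma_m1, h.oma_k1, Tri.oma_n1]
  ring

theorem Tri.Good.W2_tw {H : Tri} (h : H.Good) (t p q : ℝ) : H.tw.W2 t q (p + q) = H.W2 t p q := by
  simp only [Tri.W2, h.oma_m1, h.oma_k1, Tri.oma_n1, oma_m (oma_c h.cm) (oma_c h.ck) (oma_c h.cn),
    oma_k (oma_c h.cm) (oma_c h.ck)]
  ring

theorem St.Q0_tw (σ : St) : σ.tw.Q0 = σ.Q0 := by
  simp only [St.Q0, St.tw]
  ring

theorem Tri.mom_tw (H : Tri) (σ : St) : H.tw.mom σ.tw = H.mom σ := by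
  simp only [Tri.mom, St.tw, Tri.oma_n1, Tri.oma_m0, Tri.oma_k0]
  ring

theorem Tri.Good.Rg_tw {H : Tri} (h : H.Good) (σ : St) : H.tw.Rg σ.tw = H.Rg σ := by
  have h1 : H.tw.lY σ.tw = H.lZ σ := by
    simp only [Tri.lY, Tri.lZ, St.tw, Tri.oma_n1, Tri.oma_k0, Tri.oma_Δ]
    ring
  have h2 : H.tw.lZ σ.tw = H.lY σ + H.lZ σ := by
    simp only [Tri.lY, Tri.lZ, St.tw, Tri.oma_m0, Tri.oma_k0, Tri.oma_Δ]
    ring
  simp only [Tri.Rg, h1, h2]
  simp only [St.tw, h.W1_tw, h.oma_m1, h.oma_k1, Tri.oma_n1]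
  ring

theorem oma_nonneg {a b : ℝ} (h : 0 ≤ a * b) (ha : 0 < a) : 0 ≤ b :=
  (mul_nonneg_iff_of_pos_left ha).1 h

theorem Tri.Good.mom_nonneg {H : Tri} (h : H.Good) (σ : St) : 0 ≤ H.mom σ := by
  have h1 := h.m_pos σ.t
  have h2 := h.det_pos σ.t
  have h3 : 0 ≤ H.m σ.t * (H.m σ.t * σ.P ^ 2 + 2 * H.k σ.t * σ.P * σ.Q + H.n σ.t * σ.Q ^ 2) := by
    nlinarith [sq_nonneg (H.m σ.t * σ.P + H.k σ.t * σ.Q), mul_nonneg h2.le (sq_nonneg σ.Q)]
  have h4 := oma_nonneg h3 h1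
  unfold Tri.mom
  nlinarith [sq_nonneg σ.b]

theorem Flow.tw {H : Tri} (h : H.Good) {σ : ℝ → St} {s : ℝ} (F : Flow H σ s) :
    Flow H.tw (fun u => (σ u).tw) s := by
  have hV1 : H.tw.V1 (σ s).tw = H.V1 (σ s) := h.W1_tw _ _ _
  have hV2 : H.tw.V2 (σ s).tw = H.V2 (σ s) := h.W2_tw _ _ _
  refine ⟨F.t, ?_, F.q, ?_, F.a, ?_, ?_, ?_, F.Q, ?_⟩
  · rw [hV1]
    exact F.τ
  · filter_upwards [F.p, F.q] with u hp hq
    simp only [St.tw, hp, hq]
  · rw [hV2]
    refine HasDerivAt.congr_deriv F.b ?_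
    simp only [St.tw, h.oma_m1, h.oma_k1, Tri.oma_n1]
    ring
  · refine HasDerivAt.congr_deriv (F.z.sub F.y) ?_
    simp only [St.tw, h.oma_m1, h.oma_k1, Tri.oma_m0, Tri.oma_k0]
    ring
  · refine HasDerivAt.congr_deriv F.y ?_
    simp only [St.tw, h.oma_k1, Tri.oma_n1, Tri.oma_k0]
    ring
  · refine HasDerivAt.congr_deriv (F.P.add F.Q) ?_
    simp

theorem Flow.oma_p {H : Tri} {σ : ℝ → St} {s : ℝ} (F : Flow H σ s) :
    HasDerivAt (fun u => (σ u).p) 0 s := (hasDerivAt_const s (σ s).p).congr_of_eventuallyEq F.p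

theorem Flow.oma_q {H : Tri} {σ : ℝ → St} {s : ℝ} (F : Flow H σ s) :
    HasDerivAt (fun u => (σ u).q) 0 s := (hasDerivAt_const s (σ s).q).congr_of_eventuallyEq F.q

theorem Flow.oma_comp {H : Tri} {σ : ℝ → St} {s : ℝ} (F : Flow H σ s) {f : ℝ → ℝ}
    (hf : ContDiff ℝ ∞ f) :
    HasDerivAt (fun u => f (σ u).t) (deriv f (σ s).t * (σ s).τ) s :=
  (oma_d hf (σ s).t).comp s F.t

theorem Flow.hasDerivAt_V1 {H : Tri} (h : H.Good) {σ : ℝ → St} {s : ℝ} (F : Flow H σ s) :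
    HasDerivAt (fun u => H.V1 (σ u)) (H.V2 (σ s) * (σ s).τ) s := by
  have hm := F.oma_comp (oma_c h.cm)
  have hk := F.oma_comp (oma_c h.ck)
  have hn := F.oma_comp (oma_c h.cn)
  have hp := F.oma_p
  have hq := F.oma_q
  refine HasDerivAt.congr_deriv
    (((hm.mul (hp.pow 2)).add (((hk.const_mul 2).mul hp).mul hq)).add (hn.mul (hq.pow 2))) ?_
  simp only [Tri.V2, Tri.W2, Pi.pow_apply, Pi.mul_apply]
  ring

theorem Flow.hasDerivAt_Q0 {H : Tri} {σ : ℝ → St} {s : ℝ} (F : Flow H σ s) :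
    HasDerivAt (fun u => (σ u).Q0) (H.mom (σ s) - H.V2 (σ s) * (σ s).a ^ 2 / 2) s := by
  refine HasDerivAt.congr_deriv (((F.P.mul F.y).add (F.Q.mul F.z)).add (F.a.mul F.b)) ?_
  simp only [Tri.mom]
  ring

theorem Flow.hasDerivAt_hh {H : Tri} (h : H.Good) {σ : ℝ → St} {s : ℝ} (F : Flow H σ s) :
    HasDerivAt (fun u => H.hh (σ u)) (2 * H.Rg (σ s)) s := by
  have hm := F.oma_comp h.cm
  have hk := F.oma_comp h.ck
  have hn := F.oma_comp h.cn
  have hΔ : H.m (σ s).t * H.n (σ s).t - H.k (σ s).t ^ 2 ≠ 0 := (h.det_pos _).ne'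
  refine HasDerivAt.congr_deriv ((F.a.pow 2).add ((((hn.mul (F.y.pow 2)).sub
    (((hk.const_mul 2).mul F.y).mul F.z)).add
    (hm.mul (F.z.pow 2))).div ((hm.mul hn).sub (hk.pow 2)) hΔ)) ?_
  simp only [Tri.Rg, Tri.W1, Tri.lY, Tri.lZ, Tri.Δ, Pi.pow_apply, Pi.mul_apply, Pi.sub_apply,
    Pi.add_apply, Nat.cast_ofNat, Nat.add_one_sub_one, pow_one]
  have hΔ' : H.n (σ s).t * H.m (σ s).t - H.k (σ s).t ^ 2 ≠ 0 := by rwa [mul_comm]
  field_simp
  ring

theorem Flow.differentiableAt_Rg {H : Tri} (h : H.Good) {σ : ℝ → St} {s : ℝ} (F : Flow H σ s) :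
    DifferentiableAt ℝ (fun u => H.Rg (σ u)) s := by
  have hm := (F.oma_comp h.cm).differentiableAt
  have hk := (F.oma_comp h.ck).differentiableAt
  have hn := (F.oma_comp h.cn).differentiableAt
  have hm' := (F.oma_comp (oma_c h.cm)).differentiableAt
  have hk' := (F.oma_comp (oma_c h.ck)).differentiableAt
  have hn' := (F.oma_comp (oma_c h.cn)).differentiableAt
  have hp := F.oma_p.differentiableAt
  have hq := F.oma_q.differentiableAt
  have hτ := F.τ.differentiableAt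
  have ha := F.a.differentiableAt
  have hb := F.b.differentiableAt
  have hy := F.y.differentiableAt
  have hz := F.z.differentiableAt
  have hP := F.P.differentiableAt
  have hQ := F.Q.differentiableAt
  have hΔ : H.m (σ s).t * H.n (σ s).t - H.k (σ s).t ^ 2 ≠ 0 := (h.det_pos _).ne'
  have hY : DifferentiableAt ℝ (fun u => H.lY (σ u)) s :=
    ((hn.mul hy).sub (hk.mul hz)).div ((hm.mul hn).sub (hk.pow 2)) hΔ
  have hZ : DifferentiableAt ℝ (fun u => H.lZ (σ u)) s :=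
    ((hm.mul hz).sub (hk.mul hy)).div ((hm.mul hn).sub (hk.pow 2)) hΔ
  have hW : DifferentiableAt ℝ (fun u => H.W1 (σ u).t (H.lY (σ u)) (H.lZ (σ u))) s :=
    ((hm'.mul (hY.pow 2)).add (((hk'.const_mul 2).mul hY).mul hZ)).add (hn'.mul (hZ.pow 2))
  exact ((((hP.mul hy).add (hQ.mul hz)).add (ha.mul hb)).sub ((hτ.mul hW).div_const 2)).add
    (ha.mul ((((hm'.mul hY).mul hp).add (hk'.mul ((hY.mul hq).add (hZ.mul hp)))).add
      ((hn'.mul hZ).mul hq)))

end Crest.Agent.R244
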