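import Crest.Agent.R244.OmA
/-!
# R244: the two Riccati identities (checked numerically)
-/

set_option autoImplicit false

open scoped ContDiff Manifold Topology
open Bundle Filter Set
open Crest.GeometryTopology.CoordMetric Crest.GeometryTopology.ChartCurvature
  Crest.GeometryTopology.Geodesic

noncomputable section

namespace Crest.Agent.R244

/-- The derivative of `Q0 - V1 * AL`: a sum of squares plus `K w² / (2 N²)`. -/
def Tri.DL (H : Tri) (σ : St) : ℝ :=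
  let N := H.NN σ
  let s11 := -H.V1 σ * σ.τ * H.m σ.t / (2 * N)
  let s12 := -H.V1 σ * H.nu σ / (2 * N)
  let s22 := H.V1 σ * σ.τ / (2 * N)
  let P' := σ.P - s12 * σ.a - s22 * σ.y
  (σ.b - s11 * σ.a - s12 * σ.y) ^ 2 +
    (H.m σ.t * P' ^ 2 + 2 * H.k σ.t * P' * σ.Q + H.n σ.t * σ.Q ^ 2) +
    (N / H.m σ.t * (-H.V2 σ * H.m σ.t + H.V1 σ * deriv H.m σ.t) -
      H.V1 σ * H.m σ.t * H.inv1 σ.t * σ.q ^ 2) / (2 * N ^ 2) * (σ.τ * σ.y - H.nu σ * σ.a) ^ 2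

theorem omB_hasDerivAt {f : ℝ → ℝ} (hf : ContDiff ℝ ∞ f) (t : ℝ) : HasDerivAt f (deriv f t) t :=
  (hf.differentiable (by simp) t).hasDerivAt

theorem omB_hasDerivAt_deriv {f : ℝ → ℝ} (hf : ContDiff ℝ ∞ f) (t : ℝ) :
    HasDerivAt (deriv f) (deriv (deriv f) t) t :=
  omB_hasDerivAt (contDiff_infty_iff_deriv.1 hf).2 t

theorem Flow.omB_p {H : Tri} {σ : ℝ → St} {s : ℝ} (F : Flow H σ s) :
    HasDerivAt (fun u => (σ u).p) 0 s :=
  (hasDerivAt_const s (σ s).p).congr_of_eventuallyEq F.p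

theorem Flow.omB_q {H : Tri} {σ : ℝ → St} {s : ℝ} (F : Flow H σ s) :
    HasDerivAt (fun u => (σ u).q) 0 s :=
  (hasDerivAt_const s (σ s).q).congr_of_eventuallyEq F.q

theorem Flow.omB_comp {H : Tri} {σ : ℝ → St} {s : ℝ} (F : Flow H σ s) {f : ℝ → ℝ} {D : ℝ}
    (hf : HasDerivAt f D (σ s).t) : HasDerivAt (fun u => f (σ u).t) (D * (σ s).τ) s :=
  HasDerivAt.comp (h₂ := f) (h := fun u => (σ u).t) s hf F.t

theorem omB_prod {H : Tri} {t n₀ : ℝ} (hz : ∀ᶠ u in 𝓝 t, H.k u = 0 ∧ H.n u = n₀) :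
    H.k t = 0 ∧ H.n t = n₀ ∧ deriv H.k t = 0 ∧ deriv H.n t = 0 ∧ deriv (deriv H.k) t = 0 ∧
      deriv (deriv H.n) t = 0 := by
  have e1 : H.k =ᶠ[𝓝 t] fun _ => 0 := hz.mono fun u hu => hu.1
  have e2 : H.n =ᶠ[𝓝 t] fun _ => n₀ := hz.mono fun u hu => hu.2
  refine ⟨hz.self_of_nhds.1, hz.self_of_nhds.2, by rw [e1.deriv_eq]; simp,
    by rw [e2.deriv_eq]; simp, by rw [e1.deriv.deriv_eq]; simp, by rw [e2.deriv.deriv_eq]; simp⟩

theorem Flow.hasDerivAt_L {H : Tri} (h : H.Good) {σ : ℝ → St} {s : ℝ} (F : Flow H σ s)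
    (hN : H.NN (σ s) ≠ 0) :
    HasDerivAt (fun u => (σ u).Q0 - H.V1 (σ u) * H.AL (σ u)) (H.DL (σ s)) s := by
  have dm := F.omB_comp (omB_hasDerivAt h.cm (σ s).t)
  have dk := F.omB_comp (omB_hasDerivAt h.ck (σ s).t)
  have dnu : HasDerivAt (fun u => H.nu (σ u))
      ((deriv H.m (σ s).t * (σ s).p + deriv H.k (σ s).t * (σ s).q) * (σ s).τ) s := by
    have := (dm.mul F.omB_p).add (dk.mul F.omB_q)
    refine HasDerivAt.congr_deriv this ?_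
    ring
  have dN : HasDerivAt (fun u => H.NN (σ u))
      (-H.V1 (σ s) * (σ s).τ * H.m (σ s).t + (σ s).τ ^ 3 * deriv H.m (σ s).t + 2 * H.nu (σ s) *
        ((deriv H.m (σ s).t * (σ s).p + deriv H.k (σ s).t * (σ s).q) * (σ s).τ)) s := by
    have := ((F.τ.pow 2).mul dm).add (dnu.pow 2)
    refine HasDerivAt.congr_deriv this ?_
    simp only [Pi.pow_apply]
    norm_num
    ring
  have dA := ((F.τ.mul (F.y.pow 2)).sub (((dnu.const_mul 2).mul F.a).mul F.y)).sub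
    ((F.τ.mul dm).mul (F.a.pow 2))
  have dAL := dA.div (dN.const_mul 2) (mul_ne_zero two_ne_zero hN)
  have := (F.hasDerivAt_Q0).sub ((F.hasDerivAt_V1 h).mul dAL)
  refine HasDerivAt.congr_deriv this ?_
  have hm := (h.m_pos (σ s).t).ne'
  simp only [Pi.pow_apply, Pi.mul_apply, Pi.sub_apply, Pi.div_apply, Tri.DL, Tri.mom, Tri.inv1]
  have eN : H.NN (σ s) = (σ s).τ ^ 2 * H.m (σ s).t + H.nu (σ s) ^ 2 := rfl
  have eν : H.nu (σ s) = H.m (σ s).t * (σ s).p + H.k (σ s).t * (σ s).q := rfl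
  have eV : H.V1 (σ s) = deriv H.m (σ s).t * (σ s).p ^ 2 +
    2 * deriv H.k (σ s).t * (σ s).p * (σ s).q + deriv H.n (σ s).t * (σ s).q ^ 2 := rfl
  generalize H.NN (σ s) = N at *
  generalize H.nu (σ s) = ν at *
  generalize H.V1 (σ s) = V at *
  generalize H.V2 (σ s) = W
  generalize deriv H.m (σ s).t = m' at *
  generalize deriv H.k (σ s).t = k' at *
  generalize deriv H.n (σ s).t = n' at *
  generalize H.m (σ s).t = m at *
  generalize H.k (σ s).t = k at *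
  generalize H.n (σ s).t = n at *
  norm_num
  field_simp
  subst eN eν eV
  ring

theorem Tri.Good.DL_nonneg {H : Tri} (h : H.Good) {σ : St}
    (h₁ : 0 ≤ -H.V2 σ * H.m σ.t + H.V1 σ * deriv H.m σ.t) (h₂ : H.V1 σ * H.inv1 σ.t ≤ 0) :
    0 ≤ H.DL σ := by
  have hm := h.m_pos σ.t
  have hd := h.det_pos σ.t
  have hN : 0 ≤ H.NN σ := by unfold Tri.NN; positivity
  have hq : ∀ P Q : ℝ, 0 ≤ H.m σ.t * P ^ 2 + 2 * H.k σ.t * P * Q + H.n σ.t * Q ^ 2 := by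
    intro P Q
    have e : H.m σ.t * P ^ 2 + 2 * H.k σ.t * P * Q + H.n σ.t * Q ^ 2 =
        ((H.m σ.t * P + H.k σ.t * Q) ^ 2 + (H.m σ.t * H.n σ.t - H.k σ.t ^ 2) * Q ^ 2) /
          H.m σ.t := by
      field_simp
      ring
    rw [e]
    positivity
  have h3 : 0 ≤ H.NN σ / H.m σ.t * (-H.V2 σ * H.m σ.t + H.V1 σ * deriv H.m σ.t) -
      H.V1 σ * H.m σ.t * H.inv1 σ.t * σ.q ^ 2 := by
    have a1 : 0 ≤ H.NN σ / H.m σ.t * (-H.V2 σ * H.m σ.t + H.V1 σ * deriv H.m σ.t) :=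
      mul_nonneg (div_nonneg hN hm.le) h₁
    have a2 : 0 ≤ -(H.V1 σ * H.inv1 σ.t) * (H.m σ.t * σ.q ^ 2) :=
      mul_nonneg (by linarith) (by positivity)
    nlinarith
  unfold Tri.DL
  exact add_nonneg (add_nonneg (sq_nonneg _) (hq _ _))
    (mul_nonneg (div_nonneg h3 (by positivity)) (sq_nonneg _))

theorem Tri.DL_of_zero (H : Tri) {σ : St} (ha : σ.a = 0) (hy : σ.y = 0) : H.DL σ = H.mom σ := by
  simp only [Tri.DL, Tri.mom, ha, hy]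
  ring

/-- `ν = 0` forces `V1 = q² inv1`. -/
theorem Tri.Good.V1_of_nu {H : Tri} (h : H.Good) {σ : St} (e : H.nu σ = 0) :
    H.V1 σ = σ.q ^ 2 * H.inv1 σ.t := by
  have hm := (h.m_pos σ.t).ne'
  have e1 : σ.p = -(H.k σ.t * σ.q) / H.m σ.t := by
    unfold Tri.nu at e
    field_simp
    linarith
  simp only [Tri.V1, Tri.W1, Tri.inv1, e1]
  field_simp
  ring

/-- In a product zone (`k = 0`, `n` constant near `t`). -/
theorem Tri.Good.Rg_prod {H : Tri} (h : H.Good) {σ : St} {n₀ : ℝ}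
    (hz : ∀ᶠ t in 𝓝 σ.t, H.k t = 0 ∧ H.n t = n₀) :
    H.Rg σ = σ.Q0 - deriv H.m σ.t / (2 * H.m σ.t ^ 2) *
      (σ.τ * σ.y ^ 2 - 2 * σ.a * σ.y * (H.m σ.t * σ.p)) := by
  obtain ⟨e1, e2, e3, e4, -, -⟩ := omB_prod hz
  have hm := (h.m_pos σ.t).ne'
  have hn : n₀ ≠ 0 := by
    have := h.det_pos σ.t
    rw [e1, e2] at this
    intro h0
    simp [h0] at this
  simp only [Tri.Rg, Tri.W1, Tri.lY, Tri.lZ, Tri.Δ, St.Q0, e1, e2, e3, e4]
  norm_num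
  field_simp
  ring

theorem Tri.Good.L_sub_Rg {H : Tri} (h : H.Good) {σ : St} {n₀ : ℝ}
    (hz : ∀ᶠ t in 𝓝 σ.t, H.k t = 0 ∧ H.n t = n₀) (hN : H.NN σ ≠ 0) :
    σ.Q0 - H.V1 σ * H.AL σ - H.Rg σ =
      deriv H.m σ.t * σ.τ / (2 * H.m σ.t) * (σ.τ * σ.y - H.nu σ * σ.a) ^ 2 / H.NN σ := by
  rw [h.Rg_prod hz]
  obtain ⟨e1, e2, e3, e4, -, -⟩ := omB_prod hz
  have hm := (h.m_pos σ.t).ne'
  have eN : H.NN σ = σ.τ ^ 2 * H.m σ.t + H.nu σ ^ 2 := rfl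
  have eν : H.nu σ = H.m σ.t * σ.p := by simp [Tri.nu, e1]
  simp only [Tri.V1, Tri.W1, Tri.AL, e3, e4]
  generalize H.NN σ = N at *
  generalize H.nu σ = ν at *
  field_simp
  subst eN eν
  ring

/-- In a product zone with `2 m m'' ≤ 3 m'²` (non-positive curvature), with `ν = m p`,
`s12 = -m' ν/(2m²)`, `s22 = m' τ/(2m²)`, the derivative of `Rg` is
`(b - s12 y)² + m (P - s12 a - s22 y)² + n Q² + (3 m'² - 2 m m'')/(4 m³) (τ y - ν a)²`. -/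
theorem Flow.Rg_prod {H : Tri} (h : H.Good) {σ : ℝ → St} {s : ℝ} (F : Flow H σ s) {n₀ : ℝ}
    (hz : ∀ᶠ t in 𝓝 (σ s).t, H.k t = 0 ∧ H.n t = n₀)
    (hc : 2 * H.m (σ s).t * deriv (deriv H.m) (σ s).t ≤ 3 * deriv H.m (σ s).t ^ 2) :
    ∃ D, 0 ≤ D ∧ HasDerivAt (fun u => H.Rg (σ u)) D s ∧
      ((σ s).a = 0 → (σ s).y = 0 → D = H.mom (σ s)) := by
  obtain ⟨e1, e2, e3, e4, e5, e6⟩ := omB_prod hz
  have hm := h.m_pos (σ s).t
  have hn : 0 < n₀ := by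
    have := h.det_pos (σ s).t
    rw [e1, e2] at this
    by_contra hc
    nlinarith [mul_nonneg hm.le (neg_nonneg.2 (not_lt.1 hc))]
  have ev : (fun u => H.Rg (σ u)) =ᶠ[𝓝 s] fun u => (σ u).Q0 -
      deriv H.m (σ u).t / (2 * H.m (σ u).t ^ 2) *
        ((σ u).τ * (σ u).y ^ 2 - 2 * (σ u).a * (σ u).y * (H.m (σ u).t * (σ u).p)) := by
    filter_upwards [F.t.continuousAt.eventually hz.eventually_nhds] with u hu
    exact h.Rg_prod hu
  have dm := F.omB_comp (omB_hasDerivAt h.cm (σ s).t)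
  have dm' := F.omB_comp (omB_hasDerivAt_deriv h.cm (σ s).t)
  have d1 := dm'.div ((dm.pow 2).const_mul 2) (by simp only [Pi.pow_apply]; positivity)
  have d2 := (F.τ.mul (F.y.pow 2)).sub (((F.a.const_mul 2).mul F.y).mul (dm.mul F.omB_p))
  have d3 := (F.hasDerivAt_Q0.sub (d1.mul d2)).congr_of_eventuallyEq ev
  set m := H.m (σ s).t with hm0
  set m' := deriv H.m (σ s).t with hm1
  set m'' := deriv (deriv H.m) (σ s).t with hm2
  refine ⟨((σ s).b - (-m' * (m * (σ s).p) / (2 * m ^ 2)) * (σ s).y) ^ 2 +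
      m * ((σ s).P - (-m' * (m * (σ s).p) / (2 * m ^ 2)) * (σ s).a -
        m' * (σ s).τ / (2 * m ^ 2) * (σ s).y) ^ 2 + n₀ * (σ s).Q ^ 2 +
      (3 * m' ^ 2 - 2 * m * m'') / (4 * m ^ 3) *
        ((σ s).τ * (σ s).y - m * (σ s).p * (σ s).a) ^ 2, ?_, ?_, fun ha hy => ?_⟩
  · have : 0 ≤ 3 * m' ^ 2 - 2 * m * m'' := by linarith
    positivity
  · refine HasDerivAt.congr_deriv d3 ?_
    simp only [Pi.pow_apply, Pi.mul_apply, Pi.sub_apply, Pi.div_apply, Tri.mom, Tri.V1, Tri.V2,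
      Tri.W1, Tri.W2, e1, e2, e3, e4, e5, e6, ← hm0, ← hm1, ← hm2]
    have := hm.ne'
    norm_num
    field_simp
    ring
  · simp only [Tri.mom, ha, hy, e1, e2, ← hm0]
    ring

end Crest.Agent.R244
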