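import Crest.Agent.R244.ModelDefs
/-!
# R244: ingredients for the profile functions
-/

set_option autoImplicit false

open scoped ContDiff Manifold Topology
open Bundle Filter Set
open Crest.GeometryTopology.CoordMetric Crest.GeometryTopology.ChartCurvature
  Crest.GeometryTopology.Geodesic

noncomputable section

namespace Crest.Agent.R244

/-- On `(0,1)`, `σ' = σ (1 - σ) (1/x² + 1/(1-x)²)` for `σ = Real.smoothTransition`. -/
theorem smoothTransition_deriv_ge (x : ℝ) :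
    Real.smoothTransition x * (1 - Real.smoothTransition x) ≤ deriv Real.smoothTransition x := by
  have hg : ∀ x : ℝ, HasDerivAt expNegInvGlue (x⁻¹ ^ 2 * expNegInvGlue x) x := fun x => by
    simpa using expNegInvGlue.hasDerivAt_polynomial_eval_inv_mul 1 x
  have hD := Real.smoothTransition.pos_denom x
  have h1 := (hg x).div ((hg x).add ((hg (1 - x)).comp x ((hasDerivAt_id x).const_sub 1))) hD.ne'
  rw [show deriv Real.smoothTransition x = _ from h1.deriv]
  have h2 : expNegInvGlue x * expNegInvGlue (1 - x) ≤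
      x⁻¹ ^ 2 * (expNegInvGlue x * expNegInvGlue (1 - x)) := by
    rcases le_or_gt x 0 with h | h
    · simp [expNegInvGlue.zero_of_nonpos h]
    rcases le_or_gt 1 x with h' | h'
    · simp [expNegInvGlue.zero_of_nonpos (sub_nonpos.2 h')]
    exact le_mul_of_one_le_left (mul_nonneg (expNegInvGlue.nonneg _) (expNegInvGlue.nonneg _))
      (one_le_pow₀ ((one_le_inv₀ h).2 h'.le))
  have h3 : 0 ≤ (1 - x)⁻¹ ^ 2 * (expNegInvGlue x * expNegInvGlue (1 - x)) :=
    mul_nonneg (sq_nonneg _) (mul_nonneg (expNegInvGlue.nonneg _) (expNegInvGlue.nonneg _))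
  simp only [Real.smoothTransition, Pi.add_apply, Function.comp_apply]
  rw [le_div_iff₀ (by positivity)]
  refine le_trans (le_of_eq (b := expNegInvGlue x * expNegInvGlue (1 - x)) ?_) (by linarith)
  field_simp
  ring

theorem profA_le {F F' : ℝ → ℝ} {a b : ℝ} (hab : a ≤ b) (h : ∀ t ∈ Icc a b, HasDerivAt F (F' t) t)
    (h0 : ∀ t ∈ Icc a b, 0 ≤ F' t) : F a ≤ F b :=
  monotoneOn_of_deriv_nonneg (convex_Icc a b) (fun t ht => (h t ht).continuousAt.continuousWithinAt)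
    (fun t ht => (h t (interior_subset ht)).differentiableAt.differentiableWithinAt)
    (fun t ht => (h t (interior_subset ht)).deriv ▸ h0 t (interior_subset ht))
    (left_mem_Icc.2 hab) (right_mem_Icc.2 hab) hab

theorem profA_eq {F : ℝ → ℝ} {a b : ℝ} (hab : a ≤ b) (h : ∀ t ∈ Icc a b, HasDerivAt F 0 t) :
    F a = F b :=
  le_antisymm (profA_le (F' := fun _ => 0) hab h fun _ _ => le_rfl) (neg_le_neg_iff.1
    (profA_le (F := fun t => -F t) (F' := fun _ => -0) hab (fun t ht => (h t ht).neg) fun _ _ => by simp))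

theorem profA_prim {φ : ℝ → ℝ} (hφ : ContDiff ℝ ∞ φ) (c v : ℝ) :
    ∃ P : ℝ → ℝ, ContDiff ℝ ∞ P ∧ (∀ t, HasDerivAt P (φ t) t) ∧ P c = v := by
  have h : ∀ t, HasDerivAt (fun t => v + ∫ u in c..t, φ u) (φ t) t := fun t =>
    (hφ.continuous.integral_hasStrictDerivAt c t).hasDerivAt.const_add v
  refine ⟨_, contDiff_infty_iff_deriv.2 ⟨fun t => (h t).differentiableAt, ?_⟩, h, by simp⟩
  rwa [funext fun t => (h t).deriv]

/-- The flare. Route: `ψ s = (A - d s)^(-1/2)` on `s ≤ 3` is positive, increasing, convex with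
`ψ' ≤ 1/√2 < 2π` on `[2,3]`; with `β s = smoothTransition (s - 2)` put
`a' = (1 - β) ψ' + 2π β`, `a s = ψ 2 + ∫₂ˢ a'` (so `a = ψ` on `s ≤ 2`, `a'' ≥ 0`, `a' > 0`,
`a s = a 3 + 2π (s - 3)` for `s ≥ 3`; `(1 - β) ψ'` is smooth since it vanishes for `s ≥ 3` and
`A - d s > 0` slightly beyond `3`), `μ = a⁻²`, `b = a 3 / (2π)`;
`3 μ'² - 2 μ μ'' = 4 μ³ a a''`. -/
theorem exists_flare {A d : ℝ} (hd : 0 < d) (h1 : 1 / 2 ≤ A - 3 * d) (h2 : d ≤ A - 3 * d) :
    ∃ (μ : ℝ → ℝ) (b : ℝ), 0 < b ∧ ContDiff ℝ ∞ μ ∧ (∀ s, s ≤ 2 → μ s = A - d * s) ∧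
      (∀ s, 0 < μ s) ∧ (∀ s, deriv μ s < 0) ∧
      (∀ s, 3 ≤ s → μ s = 1 / (2 * Real.pi * (b + s - 3)) ^ 2) ∧
      ∀ s, 2 * μ s * deriv (deriv μ) s ≤ 3 * deriv μ s ^ 2 := by
  have hπ := Real.pi_gt_three
  set σ := Real.smoothTransition with hσ
  have hpos : ∀ s, s ≤ 3 → 0 < A - d * s := fun s hs => by nlinarith
  set ψ : ℝ → ℝ := fun s => d / (2 * √(A - d * s) ^ 3) with hψ
  set w : ℝ → ℝ := fun s => (1 - σ (s - 2)) * ψ s + 2 * Real.pi * σ (s - 2) with hw
  have cσ : ContDiff ℝ ∞ fun s : ℝ => σ (s - 2) :=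
    Real.smoothTransition.contDiff.comp (contDiff_id.sub contDiff_const)
  have w3 : ∀ s, 3 ≤ s → w s = 2 * Real.pi := fun s hs => by
    simp only [hw, hσ, Real.smoothTransition.one_of_one_le (by linarith : 1 ≤ s - 2)]
    ring
  have w2 : ∀ s, s ≤ 2 → w s = ψ s := fun s hs => by
    simp only [hw, hσ, Real.smoothTransition.zero_of_nonpos (by linarith : s - 2 ≤ 0)]
    ring
  have cw : ContDiff ℝ ∞ w := contDiff_iff_contDiffAt.2 fun s => by
    rcases le_or_gt s 3 with hs | hs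
    · have := hpos s hs
      refine ((contDiffAt_const.sub cσ.contDiffAt).mul (contDiffAt_const.div (contDiffAt_const.mul
        (((contDiffAt_const.sub (contDiffAt_const.mul contDiffAt_id)).sqrt this.ne').pow 3))
          (by positivity))).add (contDiffAt_const.mul cσ.contDiffAt)
    · exact contDiffAt_const.congr_of_eventuallyEq
        ((eventually_gt_nhds hs).mono fun u hu => w3 u hu.le)
  have ψpos : ∀ s, s ≤ 3 → 0 < ψ s := fun s hs => by
    have := hpos s hs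
    simp only [hψ]
    positivity
  have ψmono : ∀ s t, s ≤ t → t ≤ 3 → ψ s ≤ ψ t := fun s t hst ht => by
    have := hpos t ht
    simp only [hψ]
    gcongr
  have ψle : ∀ s, s ≤ 3 → ψ s ≤ 2 * Real.pi := fun s hs => by
    refine (ψmono s 3 hs le_rfl).trans ?_
    have h0 := hpos 3 le_rfl
    have h3 := Real.sq_sqrt h0.le
    have h4 : 1 / 2 ≤ √(A - d * 3) := Real.le_sqrt_of_sq_le (by linarith)
    simp only [hψ]
    rw [div_le_iff₀ (by positivity), pow_succ, h3]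
    have : 1 ≤ 2 * Real.pi * (2 * √(A - d * 3)) := by nlinarith
    nlinarith
  have σ0 := Real.smoothTransition.nonneg
  have σ1 := Real.smoothTransition.le_one
  have wle : ∀ s, s ≤ 3 → ψ s ≤ w s ∧ w s ≤ 2 * Real.pi := fun s hs => by
    simp only [hw, hσ]
    constructor <;> nlinarith [ψle s hs, σ0 (s - 2), σ1 (s - 2)]
  have wpos : ∀ s, 0 < w s := fun s => by
    rcases le_total s 3 with hs | hs
    · exact (ψpos s hs).trans_le (wle s hs).1
    · rw [w3 s hs]; positivity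
  have wmono : Monotone w := fun s t hst => by
    rcases le_total t 3 with ht | ht
    · have := Real.smoothTransition.monotone (by linarith : s - 2 ≤ t - 2)
      simp only [hw, hσ]
      nlinarith [mul_nonneg (sub_nonneg.2 (σ1 (t - 2))) (sub_nonneg.2 (ψmono s t hst ht)),
        mul_nonneg (sub_nonneg.2 this) (sub_nonneg.2 (ψle s (hst.trans ht)))]
    · rw [w3 t ht]
      rcases le_total s 3 with hs | hs
      exacts [(wle s hs).2, (w3 s hs).le]
  obtain ⟨a, ca, da, a2⟩ := profA_prim cw 2 (√(A - d * 2))⁻¹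
  have aψ : ∀ s, s ≤ 2 → a s = (√(A - d * s))⁻¹ := fun s hs => by
    have := profA_eq (F := fun u => a u - (√(A - d * u))⁻¹) hs fun u hu => by
      have h0 := hpos u (by linarith [hu.2])
      have h3 := Real.sq_sqrt h0.le
      have h4 := (Real.sqrt_pos.2 h0).ne'
      refine ((da u).sub (((((hasDerivAt_id u).const_mul d).const_sub A).sqrt h0.ne').inv h4)).congr_deriv ?_
      simp only [w2 u hu.2, hψ, id]
      field_simp
      ring
    simp only [a2] at this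
    linarith
  have apos : ∀ s, 0 < a s := fun s => by
    rcases le_total s 2 with hs | hs
    · have := hpos s (by linarith)
      rw [aψ s hs]; positivity
    · have := hpos 2 (by norm_num)
      exact lt_of_lt_of_le (by rw [a2]; positivity) (profA_le hs (fun u _ => da u) fun u _ => (wpos u).le)
  have dμ : ∀ s, HasDerivAt (fun s => (a s ^ 2)⁻¹) (-2 * w s / a s ^ 3) s := fun s => by
    have := (apos s).ne'
    refine (((da s).pow 2).inv (pow_ne_zero 2 this)).congr_deriv ?_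
    simp only [Pi.pow_apply]
    field_simp
    ring
  have eμ : deriv (fun s => (a s ^ 2)⁻¹) = fun s => -2 * w s / a s ^ 3 := funext fun s => (dμ s).deriv
  refine ⟨fun s => (a s ^ 2)⁻¹, a 3 / (2 * Real.pi), div_pos (apos 3) (by positivity),
    (ca.pow 2).inv fun s => (pow_pos (apos s) 2).ne', fun s hs => ?_,
    fun s => inv_pos.2 (pow_pos (apos s) 2), fun s => ?_, fun s hs => ?_, fun s => ?_⟩
  · simp only [aψ s hs, inv_pow, inv_inv]
    exact Real.sq_sqrt (hpos s (by linarith)).le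
  · rw [eμ]
    exact div_neg_of_neg_of_pos (by linarith [wpos s]) (pow_pos (apos s) 3)
  · have := profA_eq (F := fun u => a u - 2 * Real.pi * u) hs fun u hu =>
      ((da u).sub ((hasDerivAt_id u).const_mul _)).congr_deriv (by rw [w3 u hu.1]; ring)
    have h5 : 2 * Real.pi * (a 3 / (2 * Real.pi) + s - 3) = a s := by
      field_simp
      linarith
    rw [h5, one_div]
  · have h0 := apos s
    have dw := (cw.differentiable (by simp) s).hasDerivAt
    rw [eμ, show deriv (fun s => -2 * w s / a s ^ 3) s = _ from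
      ((dw.const_mul (-2)).div ((da s).pow 3) (pow_ne_zero 3 h0.ne')).deriv]
    have h5 : 0 ≤ 4 * deriv w s / a s ^ 5 := div_nonneg (by linarith [wmono.deriv_nonneg (x := s)])
      (by positivity)
    refine le_of_sub_nonneg (h5.trans_eq ?_)
    simp only [Pi.pow_apply]
    field_simp
    ring

/-- The cut-off, e.g. `smoothTransition (t + 1) * smoothTransition (2 - t)`. -/
theorem exists_cutoff : ∃ χ : ℝ → ℝ, ContDiff ℝ ∞ χ ∧ (∀ t, 0 ≤ χ t) ∧ (∀ t, χ t ≤ 1) ∧
    (∀ t, χ t ≠ 0 → -1 < t ∧ t < 2) ∧ (∀ t, 0 ≤ t → t ≤ 1 → χ t = 1 ∧ deriv χ t = 0) ∧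
    (∀ t, t < 0 → 0 ≤ deriv χ t) ∧ ∀ t, 1 < t → deriv χ t ≤ 0 := by
  have σ0 := Real.smoothTransition.nonneg
  have σ1 := Real.smoothTransition.le_one
  have h1 : ∀ t : ℝ, Real.smoothTransition (t + 1) * Real.smoothTransition (2 - t) ≤ 1 := fun t =>
    mul_le_one₀ (σ1 _) (σ0 _) (σ1 _)
  refine ⟨fun t => Real.smoothTransition (t + 1) * Real.smoothTransition (2 - t), by fun_prop,
    fun t => mul_nonneg (σ0 _) (σ0 _), h1, fun t ht => ?_, fun t h0 h1' => ?_, fun t ht => ?_,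
    fun t ht => ?_⟩
  · simp only [ne_eq, mul_eq_zero, Real.smoothTransition.zero_iff_nonpos, not_or, not_le] at ht
    constructor <;> linarith [ht.1, ht.2]
  · have e : Real.smoothTransition (t + 1) * Real.smoothTransition (2 - t) = 1 := by
      rw [Real.smoothTransition.one_of_one_le (by linarith),
        Real.smoothTransition.one_of_one_le (by linarith), one_mul]
    exact ⟨e, IsLocalMax.deriv_eq_zero (Eventually.of_forall fun u => (h1 u).trans e.ge)⟩
  · rw [Filter.EventuallyEq.deriv_eq (f := fun t => Real.smoothTransition (t + 1))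
      ((eventually_lt_nhds ht).mono fun u hu => by
        simp only [Real.smoothTransition.one_of_one_le (by linarith : 1 ≤ 2 - u), mul_one])]
    exact Monotone.deriv_nonneg fun u v huv => Real.smoothTransition.monotone (by linarith)
  · rw [Filter.EventuallyEq.deriv_eq (f := fun t => Real.smoothTransition (2 - t))
      ((eventually_gt_nhds ht).mono fun u hu => by
        simp only [Real.smoothTransition.one_of_one_le (by linarith : 1 ≤ u + 1), one_mul])]
    exact Antitone.deriv_nonpos fun u v huv => Real.smoothTransition.monotone (by linarith)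

/-- Primitives of `φ = smoothTransition` and of `φ (1 - φ)`. -/
theorem exists_primitives : ∃ I K : ℝ → ℝ, ContDiff ℝ ∞ I ∧ ContDiff ℝ ∞ K ∧
    (∀ t, HasDerivAt I (Real.smoothTransition t) t) ∧
    (∀ t, HasDerivAt K (Real.smoothTransition t * (1 - Real.smoothTransition t)) t) ∧
    (∀ t, t ≤ 0 → I t = 0 ∧ K t = 0) ∧ (∀ t, 1 ≤ t → I t = I 1 + (t - 1) ∧ K t = K 1) ∧
    0 < K 1 ∧
    ∀ t, 0 ≤ t → t ≤ 1 → 0 ≤ I t ∧ I t ≤ t ∧ 0 ≤ K t ∧ K t ≤ Real.smoothTransition t ∧ K t ≤ K 1 ∧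
      K 1 - K t ≤ 1 - Real.smoothTransition t ∧ 0 ≤ (1 - I 1) - (t - I t) ∧
      (1 - I 1) - (t - I t) ≤ 1 - Real.smoothTransition t := by
  have σ0 := Real.smoothTransition.nonneg
  have σ1 := Real.smoothTransition.le_one
  have cσ : ContDiff ℝ ∞ Real.smoothTransition := Real.smoothTransition.contDiff
  have dσ := fun t => (cσ.differentiable (by simp) t).hasDerivAt
  obtain ⟨I, cI, dI, I0⟩ := profA_prim cσ 0 0
  obtain ⟨K, cK, dK, K0⟩ := profA_prim (cσ.mul (contDiff_const.sub cσ) :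
    ContDiff ℝ ∞ fun t => Real.smoothTransition t * (1 - Real.smoothTransition t)) 0 0
  have mK : ∀ a b, a ≤ b → K a ≤ K b := fun a b hab =>
    profA_le hab (fun t _ => dK t) fun t _ => mul_nonneg (σ0 t) (sub_nonneg.2 (σ1 t))
  have mI : ∀ a b, a ≤ b → a - I a ≤ b - I b := fun a b hab =>
    profA_le (F := fun t => t - I t) hab (fun t _ => (hasDerivAt_id t).sub (dI t))
      fun t _ => sub_nonneg.2 (σ1 t)
  have mσ : ∀ a b, a ≤ b → Real.smoothTransition a - K a ≤ Real.smoothTransition b - K b :=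
    fun a b hab => profA_le (F := fun t => Real.smoothTransition t - K t) hab
      (fun t _ => (dσ t).sub (dK t)) fun t _ => sub_nonneg.2 (smoothTransition_deriv_ge t)
  refine ⟨I, K, cI, cK, dI, dK, fun t ht => ⟨?_, ?_⟩, fun t ht => ⟨?_, ?_⟩, ?_, fun t h0 h1 => ?_⟩
  · exact (profA_eq ht fun u hu => (dI u).congr_deriv
      (Real.smoothTransition.zero_of_nonpos hu.2)).trans I0
  · exact (profA_eq ht fun u hu => (dK u).congr_deriv
      (by rw [Real.smoothTransition.zero_of_nonpos hu.2, zero_mul])).trans K0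
  · have := profA_eq (F := fun t => t - I t) ht fun u hu => ((hasDerivAt_id u).sub (dI u)).congr_deriv
      (by rw [Real.smoothTransition.one_of_one_le hu.1, sub_self])
    linarith
  · exact (profA_eq ht fun u hu => (dK u).congr_deriv
      (by rw [Real.smoothTransition.one_of_one_le hu.1, sub_self, mul_zero])).symm
  · refine K0.ge.trans_lt (strictMonoOn_of_deriv_pos (convex_Icc 0 1) cK.continuous.continuousOn
      (fun t ht => ?_) (left_mem_Icc.2 zero_le_one) (right_mem_Icc.2 zero_le_one) zero_lt_one)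
    rw [interior_Icc] at ht
    rw [(dK t).deriv]
    exact mul_pos (Real.smoothTransition.pos_of_pos ht.1)
      (sub_pos.2 (Real.smoothTransition.lt_one_of_lt_one ht.2))
  · have a1 := profA_le h0 (fun u _ => dI u) fun u _ => σ0 u
    have a2 := mI 0 t h0
    have a3 := mK 0 t h0
    have a4 := mσ 0 t h0
    have a5 := mσ t 1 h1
    have a6 := mI t 1 h1
    have a7 := profA_le (F := fun u => (1 - Real.smoothTransition t) * u - (u - I u)) h1
      (fun u _ => ((hasDerivAt_id u).const_mul _).sub ((hasDerivAt_id u).sub (dI u)))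
      fun u hu => by linarith [Real.smoothTransition.monotone hu.1]
    rw [Real.smoothTransition.zero] at a4
    rw [Real.smoothTransition.one] at a5
    refine ⟨by linarith, by linarith, by linarith, by linarith, mK t 1 h1, by linarith, by linarith, ?_⟩
    nlinarith [mul_nonneg (sub_nonneg.2 (σ1 t)) h0]

/-! Real inequalities for the core, where `m' = (1-φ)/8`, `k' = κ φ (1-φ)`, `n' = -d φ`. -/

theorem profA_quad {φ κ d : ℝ} (h0 : 0 ≤ φ) (h1 : φ ≤ 1) (hd : 32 * κ ^ 2 ≤ d) (p q : ℝ) :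
    p ^ 2 / 16 + d * q ^ 2 / 2 ≤ p ^ 2 / 8 - 2 * (κ * (1 - 2 * φ)) * p * q + d * q ^ 2 := by
  have h2 : 32 * (κ * (1 - 2 * φ)) ^ 2 ≤ d := by
    nlinarith [mul_nonneg (sq_nonneg κ) (mul_nonneg h0 (sub_nonneg.2 h1))]
  nlinarith [sq_nonneg (p - 16 * (κ * (1 - 2 * φ)) * q), mul_nonneg (sub_nonneg.2 h2) (sq_nonneg q)]

theorem core_conc {φ φ' κ d p q : ℝ} (h0 : 0 ≤ φ) (h1 : φ ≤ 1) (hφ : 0 ≤ φ') (hκ : 0 < κ)
    (hd : 32 * κ ^ 2 ≤ d) :
    -φ' / 8 * p ^ 2 + 2 * (κ * φ' * (1 - 2 * φ)) * p * q + -d * φ' * q ^ 2 ≤ 0 := by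
  have := profA_quad h0 h1 hd p q
  have hd0 : 0 ≤ d := le_trans (by positivity) hd
  nlinarith [mul_nonneg hφ (sub_nonneg.2 this), mul_nonneg hφ (by positivity : 0 ≤ p ^ 2 / 16 + d * q ^ 2 / 2)]

theorem core_invL {φ κ d m k : ℝ} (h0 : 0 < φ) (h1 : φ ≤ 1) (hκ : 0 < κ) (hd : 32 * κ ^ 2 ≤ d)
    (hm : 1 ≤ m) (hk0 : 0 ≤ k) (hk : k ≤ κ * φ) :
    -d * φ - 2 * k * (κ * φ * (1 - φ)) / m + (1 - φ) / 8 * k ^ 2 / m ^ 2 < 0 := by
  have h2 : 0 ≤ 2 * k * (κ * φ * (1 - φ)) / m := by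
    have := sub_nonneg.2 h1
    positivity
  have h3 : (1 - φ) / 8 * k ^ 2 / m ^ 2 ≤ 1 / 8 * (κ * φ) ^ 2 / 1 ^ 2 := by
    gcongr
    linarith
  have h4 : 0 < κ ^ 2 * φ := by positivity
  nlinarith [mul_le_mul_of_nonneg_right hd h0.le, mul_nonneg h4.le (sub_nonneg.2 h1)]

theorem core_invR {φ κ d kt mt : ℝ} (h0 : 0 ≤ φ) (h1 : φ < 1) (hκ : 0 < κ) (hd : 0 < d)
    (hk : |kt| ≤ (κ + 1) * (1 - φ)) (hm : 1000 * (κ + 1) * (κ + d + 1) ≤ mt) :
    0 < (1 - φ) / 8 - 2 * kt * (κ * φ * (1 - φ) - (1 - φ) / 8) / mt +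
      ((1 - φ) / 8 - 2 * (κ * φ * (1 - φ)) + -d * φ) * kt ^ 2 / mt ^ 2 := by
  have hu : 0 < 1 - φ := by linarith
  have hS : 1 ≤ κ + d + 1 := by linarith
  have hmt : 0 < mt := lt_of_lt_of_le (by positivity) hm
  have hx : |kt / mt| * (κ + d + 1) ≤ (1 - φ) / 1000 := by
    rw [abs_div, abs_of_pos hmt, div_mul_eq_mul_div, div_le_iff₀ hmt]
    nlinarith [mul_le_mul_of_nonneg_right hk (by linarith : 0 ≤ κ + d + 1),
      mul_le_mul_of_nonneg_left hm hu.le]
  have hx' : |kt / mt| ≤ 1 / 1000 := by nlinarith [abs_nonneg (kt / mt)]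
  have p1 : 0 ≤ κ * φ * (1 - φ) := by positivity
  have p2 : κ * φ * (1 - φ) ≤ κ := by nlinarith [mul_nonneg hκ.le (sq_nonneg (φ - 1 / 2))]
  have b1 : |κ * φ * (1 - φ) - (1 - φ) / 8| ≤ κ + d + 1 := abs_le.2 ⟨by linarith, by linarith⟩
  have b2 : |(1 - φ) / 8 - 2 * (κ * φ * (1 - φ)) + -d * φ| ≤ 2 * (κ + d + 1) :=
    abs_le.2 ⟨by nlinarith, by nlinarith⟩
  have t1 : |kt / mt * (κ * φ * (1 - φ) - (1 - φ) / 8)| ≤ (1 - φ) / 1000 := by
    rw [abs_mul]
    exact le_trans (by gcongr) hx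
  have t2 : |((1 - φ) / 8 - 2 * (κ * φ * (1 - φ)) + -d * φ) * (kt / mt) * (kt / mt)| ≤
      2 * ((1 - φ) / 1000) * (1 / 1000) := by
    rw [abs_mul, abs_mul]
    refine mul_le_mul ?_ hx' (abs_nonneg _) (by positivity)
    nlinarith [mul_le_mul_of_nonneg_right b2 (abs_nonneg (kt / mt))]
  have e1 : 2 * kt * (κ * φ * (1 - φ) - (1 - φ) / 8) / mt =
      2 * (kt / mt * (κ * φ * (1 - φ) - (1 - φ) / 8)) := by ring
  have e2 : ((1 - φ) / 8 - 2 * (κ * φ * (1 - φ)) + -d * φ) * kt ^ 2 / mt ^ 2 =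
      ((1 - φ) / 8 - 2 * (κ * φ * (1 - φ)) + -d * φ) * (kt / mt) * (kt / mt) := by ring
  rw [e1, e2]
  linarith [le_of_abs_le t1, neg_le_of_abs_le t2]

theorem core_kR {φ φ' κ d mt p q : ℝ} (h0 : 0 ≤ φ) (h1 : φ ≤ 1) (hφ : φ * (1 - φ) ≤ φ')
    (hκ : 0 < κ) (hd : 32 * κ ^ 2 ≤ d) (hm : 1 ≤ mt)
    (hW : (1 - φ) / 8 * p ^ 2 + 2 * (κ * φ * (1 - φ)) * p * q + -d * φ * q ^ 2 ≤ 0) :
    0 ≤ -(-φ' / 8 * p ^ 2 + 2 * (κ * φ' * (1 - 2 * φ)) * p * q + -d * φ' * q ^ 2) * mt +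
      ((1 - φ) / 8 * p ^ 2 + 2 * (κ * φ * (1 - φ)) * p * q + -d * φ * q ^ 2) *
        ((1 - φ) / 8 - 2 * (κ * φ * (1 - φ)) + -d * φ) := by
  have hq := profA_quad h0 h1 hd p q
  have hd0 : 0 ≤ d := le_trans (by positivity) hd
  have hu := sub_nonneg.2 h1
  have hφ' : 0 ≤ φ' := le_trans (by positivity) hφ
  set B := p ^ 2 / 16 + d * q ^ 2 / 2 with hB
  have B0 : 0 ≤ B := by positivity
  set W := (1 - φ) / 8 * p ^ 2 + 2 * (κ * φ * (1 - φ)) * p * q + -d * φ * q ^ 2 with hWe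
  have h2 : 32 * (κ * (1 - φ)) ^ 2 ≤ d := by
    nlinarith [mul_nonneg (sq_nonneg κ) (mul_nonneg h0 hu), mul_nonneg (sq_nonneg κ) h0]
  have h3 : -(2 * (κ * (1 - φ)) * p * q) + d * q ^ 2 ≤ 8 * B := by
    nlinarith [sq_nonneg (p + 2 * (κ * (1 - φ)) * q), mul_nonneg (sub_nonneg.2 h2) (sq_nonneg q),
      mul_nonneg hd0 (sq_nonneg q)]
  have h4 : -W ≤ φ * (8 * B) := by
    nlinarith [mul_le_mul_of_nonneg_left h3 h0, mul_nonneg hu (sq_nonneg p)]
  have h5 : W * ((1 - φ) / 8) ≤ W * ((1 - φ) / 8 - 2 * (κ * φ * (1 - φ)) + -d * φ) :=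
    mul_le_mul_of_nonpos_left (by nlinarith [mul_nonneg (mul_nonneg hκ.le h0) hu, mul_nonneg hd0 h0]) hW
  have h6 : φ' * B ≤ -(-φ' / 8 * p ^ 2 + 2 * (κ * φ' * (1 - 2 * φ)) * p * q + -d * φ' * q ^ 2) := by
    nlinarith [mul_le_mul_of_nonneg_left hq hφ']
  have h7 := le_mul_of_one_le_right ((mul_nonneg hφ' B0).trans h6) hm
  nlinarith [mul_le_mul_of_nonneg_right h4 hu, mul_le_mul_of_nonneg_right hφ B0]

end Crest.Agent.R244
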